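import Crest.Agent.R350.Defs

/-! Row 350, T3: Forrelation as an iterated matrix product, `|phi| ≤ 1`. -/

set_option autoImplicit false

namespace Crest.Agent.R350

open Finset Matrix

theorem wal_symm {t : ℕ} (x y : NN t) : wal x y = wal y x := by
  unfold wal
  refine prod_congr rfl fun i _ => ?_
  rw [Bool.and_comm]

theorem wal_orth {t : ℕ} (x z : NN t) :
    ∑ y, wal x y * wal y z = if x = z then (2 : ℝ) ^ t else 0 := by
  have h1 : ∀ y : NN t, wal x y * wal y z =
      ∏ i, ((if (x i && y i) then (-1 : ℝ) else 1) * (if (y i && z i) then (-1 : ℝ) else 1)) := by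
    intro y
    unfold wal
    rw [← prod_mul_distrib]
  simp_rw [h1]
  have h2 := Finset.prod_univ_sum (fun _ : Fin t => (Finset.univ : Finset Bool))
    (fun i b => ((if (x i && b) then (-1 : ℝ) else 1) * (if (b && z i) then (-1 : ℝ) else 1)))
  rw [Fintype.piFinset_univ] at h2
  rw [← h2]
  have h3 : ∀ i : Fin t, (∑ b : Bool, ((if (x i && b) then (-1 : ℝ) else 1) *
      (if (b && z i) then (-1 : ℝ) else 1))) = if x i = z i then 2 else 0 := by
    intro i
    cases x i <;> cases z i <;> norm_num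
  simp_rw [h3]
  split_ifs with h
  · subst h; simp
  · have : ∃ i, x i ≠ z i := by
      by_contra hc
      push Not at hc
      exact h (funext hc)
    obtain ⟨i, hi⟩ := this
    exact prod_eq_zero (mem_univ i) (by simp [hi])

theorem sqrt_two_pow_pos (t : ℕ) : 0 < Real.sqrt (2 ^ t) := by positivity

theorem sqrt_two_pow_mul (t : ℕ) : Real.sqrt (2 ^ t) * Real.sqrt (2 ^ t) = 2 ^ t :=
  Real.mul_self_sqrt (by positivity)

/-- iterated vector `D_k W D_{k-1} ⋯ W D_0 u`, `u = 1/√n`. -/
noncomputable def vec (t : ℕ) : (k : ℕ) → (Fin (k + 1) → NN t → Bool) → NN t → ℝ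
  | 0, x, j => sg (x 0 j) / Real.sqrt (2 ^ t)
  | k + 1, x, j => sg (x (Fin.last (k + 1)) j) *
      ∑ i, wal j i / Real.sqrt (2 ^ t) * vec t k (fun a => x a.castSucc) i

theorem sg_mul_self (b : Bool) : sg b * sg b = 1 := by cases b <;> simp [sg]

theorem wal_div_norm {t : ℕ} (v : NN t → ℝ) :
    ∑ j, (∑ i, wal j i / Real.sqrt (2 ^ t) * v i) ^ 2 = ∑ i, v i ^ 2 := by
  have h0 := sqrt_two_pow_pos t
  have hs := sqrt_two_pow_mul t
  have h1 : ∀ j, (∑ i, wal j i / Real.sqrt (2 ^ t) * v i) ^ 2 =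
      ∑ i, ∑ i', (wal i j * wal j i') * (v i * v i') / 2 ^ t := by
    intro j
    rw [sq, sum_mul_sum]
    refine sum_congr rfl fun i _ => sum_congr rfl fun i' _ => ?_
    rw [wal_symm i j]
    generalize Real.sqrt (2 ^ t) = s at h0 hs ⊢
    rw [← hs]
    field_simp
  simp_rw [h1]
  rw [sum_comm]
  refine sum_congr rfl fun i _ => ?_
  rw [sum_comm]
  have h2 : ∀ i', ∑ j, (wal i j * wal j i') * (v i * v i') / 2 ^ t =
      if i = i' then v i ^ 2 else 0 := by
    intro i'
    rw [← sum_div, ← sum_mul, wal_orth]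
    split_ifs with h
    · subst h
      field_simp
    · simp
  simp_rw [h2]
  simp

theorem vec_norm (t k : ℕ) (x : Fin (k + 1) → NN t → Bool) : ∑ j, vec t k x j ^ 2 = 1 := by
  induction k with
  | zero =>
    simp only [vec, div_pow]
    have : ∀ j, sg (x 0 j) ^ 2 = 1 := fun j => by rw [sq, sg_mul_self]
    simp_rw [this, Real.sq_sqrt (show (0 : ℝ) ≤ 2 ^ t by positivity)]
    simp
  | succ k ih =>
    simp only [vec, mul_pow]
    have : ∀ j, sg (x (Fin.last (k + 1)) j) ^ 2 = 1 := fun j => by rw [sq, sg_mul_self]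
    simp_rw [this, one_mul]
    rw [wal_div_norm]
    exact ih _

theorem vec_eq (t k : ℕ) (x : Fin (k + 1) → NN t → Bool) (j : NN t) :
    vec t k x j = (∑ p : Fin (k + 1) → NN t, if p (Fin.last k) = j then
      (∏ a, sg (x a (p a))) * ∏ a : Fin k, wal (p a.castSucc) (p a.succ) else 0) /
        Real.sqrt (2 ^ t) ^ (k + 1) := by
  induction k generalizing j with
  | zero =>
    simp only [vec]
    congr 1
    · rw [← (Equiv.funUnique (Fin 1) (NN t)).symm.sum_comp]
      simp
    · simp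
  | succ k ih =>
    simp only [vec]
    rw [← (Fin.snocEquiv (fun _ : Fin (k + 2) => NN t)).sum_comp, Fintype.sum_prod_type]
    simp only [Fin.snocEquiv, Equiv.coe_fn_mk, Fin.snoc_last]
    have h1 : ∀ (i : NN t), (∑ q : (Fin (k + 1) → NN t),
        (if i = j then (∏ a, sg (x a ((Fin.snoc q i : Fin (k + 2) → NN t) a))) *
          ∏ a : Fin (k + 1), wal ((Fin.snoc q i : Fin (k + 2) → NN t) a.castSucc)
            ((Fin.snoc q i : Fin (k + 2) → NN t) a.succ) else 0)) =
        if i = j then ∑ q : (Fin (k + 1) → NN t), (∏ a, sg (x a ((Fin.snoc q i : Fin (k + 2) → NN t) a))) *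
          ∏ a : Fin (k + 1), wal ((Fin.snoc q i : Fin (k + 2) → NN t) a.castSucc)
            ((Fin.snoc q i : Fin (k + 2) → NN t) a.succ) else 0 := by
      intro i
      split_ifs <;> simp
    rw [sum_congr rfl (fun i _ => h1 i), sum_ite_eq' univ j]
    simp only [mem_univ, if_true]
    have h2 : ∀ q : (Fin (k + 1) → NN t), (∏ a, sg (x a ((Fin.snoc q j : Fin (k + 2) → NN t) a))) *
          ∏ a : Fin (k + 1), wal ((Fin.snoc q j : Fin (k + 2) → NN t) a.castSucc)
            ((Fin.snoc q j : Fin (k + 2) → NN t) a.succ) =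
        sg (x (Fin.last (k + 1)) j) * (wal j (q (Fin.last k)) *
          ((∏ a : Fin (k + 1), sg (x a.castSucc (q a))) *
            ∏ a : Fin k, wal (q a.castSucc) (q a.succ))) := by
      intro q
      rw [Fin.prod_univ_castSucc,
        Fin.prod_univ_castSucc (fun a : Fin (k + 1) =>
          wal ((Fin.snoc q j : Fin (k + 2) → NN t) a.castSucc)
            ((Fin.snoc q j : Fin (k + 2) → NN t) a.succ))]
      have h3 : ∀ a : Fin k, (Fin.snoc q j : Fin (k + 2) → NN t) a.castSucc.succ = q a.succ := by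
        intro a
        rw [Fin.succ_castSucc, Fin.snoc_castSucc]
      have h3' : (Fin.snoc q j : Fin (k + 2) → NN t) (Fin.last k).succ = j := by
        rw [Fin.succ_last, Fin.snoc_last]
      simp_rw [h3]
      rw [h3']
      simp only [Fin.snoc_castSucc, Fin.snoc_last]
      rw [wal_symm (q (Fin.last k)) j]
      ring
    simp_rw [h2]
    rw [← mul_sum, mul_div_assoc]
    congr 1
    have h4 : ∀ i, wal j i / Real.sqrt (2 ^ t) * vec t k (fun a => x a.castSucc) i =
        ∑ q : Fin (k + 1) → NN t, (if q (Fin.last k) = i then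
          (wal j (q (Fin.last k)) * ((∏ a : Fin (k + 1), sg (x a.castSucc (q a))) *
            ∏ a : Fin k, wal (q a.castSucc) (q a.succ))) / Real.sqrt (2 ^ t) ^ (k + 1 + 1)
          else 0) := by
      intro i
      rw [ih, div_mul_div_comm, mul_sum, sum_div]
      refine sum_congr rfl fun q _ => ?_
      split_ifs with h
      · rw [h]; congr 1; ring
      · simp
    simp_rw [h4]
    rw [sum_comm, sum_div]
    refine sum_congr rfl fun q _ => ?_
    simp

theorem phi_eq (k t : ℕ) (x : Fin (k + 1) → NN t → Bool) :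
    phi k t x = ∑ j, 1 / Real.sqrt (2 ^ t) * vec t k x j := by
  simp_rw [vec_eq]
  unfold phi
  simp_rw [div_mul_div_comm, one_mul]
  rw [← sum_div, sum_comm]
  have : Real.sqrt (2 ^ t) * Real.sqrt (2 ^ t) ^ (k + 1) = Real.sqrt (2 ^ t) ^ (k + 2) := by ring
  rw [this]
  congr 1
  refine sum_congr rfl fun q _ => ?_
  simp

theorem unif_norm (t : ℕ) : ∑ _j : NN t, (1 / Real.sqrt (2 ^ t)) ^ 2 = 1 := by
  simp only [div_pow, Real.sq_sqrt (show (0 : ℝ) ≤ 2 ^ t by positivity)]
  simp

/-- the acceptance probabilities of the Hadamard test -/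
theorem htest_sum (k t : ℕ) (x : Fin (k + 1) → NN t → Bool) (s : ℝ) (hs : s ^ 2 = 1) :
    ∑ j, ((1 / Real.sqrt (2 ^ t) + s * vec t k x j) / 2) ^ 2 = (1 + s * phi k t x) / 2 := by
  have h1 := unif_norm t
  have h2 := vec_norm t k x
  have h3 := phi_eq k t x
  have h4 : ∀ j, ((1 / Real.sqrt (2 ^ t) + s * vec t k x j) / 2) ^ 2 =
      (1 / 4) * (1 / Real.sqrt (2 ^ t)) ^ 2 + (s ^ 2 / 4) * vec t k x j ^ 2 +
        (s / 2) * (1 / Real.sqrt (2 ^ t) * vec t k x j) := by
    intro j; ring
  simp_rw [h4]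
  rw [sum_add_distrib, sum_add_distrib, ← mul_sum, ← mul_sum, ← mul_sum, h1, h2, ← h3, hs]
  ring

theorem phi_abs_le (k t : ℕ) (x : Fin (k + 1) → NN t → Bool) : |phi k t x| ≤ 1 := by
  have h1 := htest_sum k t x 1 (by norm_num)
  have h2 := htest_sum k t x (-1) (by norm_num)
  have h3 : 0 ≤ ∑ j, ((1 / Real.sqrt (2 ^ t) + 1 * vec t k x j) / 2) ^ 2 :=
    sum_nonneg fun _ _ => sq_nonneg _
  have h4 : 0 ≤ ∑ j, ((1 / Real.sqrt (2 ^ t) + (-1) * vec t k x j) / 2) ^ 2 :=
    sum_nonneg fun _ _ => sq_nonneg _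
  rw [abs_le]
  constructor <;> linarith

end Crest.Agent.R350
private theorem rz_a35ba76cb5 : type_of% @_root_.Crest.Agent.R350.vec.eq_def := @_root_.Crest.Agent.R350.vec.eq_def -- L48
private theorem rz_5c2e74ac2c : type_of% @_root_.Crest.Agent.R350.vec.eq_1 := @_root_.Crest.Agent.R350.vec.eq_1 -- L48
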