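import Crest.Agent.R350.Defs

/-! Row 350, T1: the quantum framework. -/

set_option autoImplicit false
set_option linter.unusedSectionVars false
set_option linter.unusedSimpArgs false

namespace Crest.Agent.R350

open Finset Matrix Crest.MathPhysics.Query

variable {ι : Type} [Fintype ι] [DecidableEq ι]

section OM

variable {W : Type} [Fintype W] [DecidableEq W]

theorem OM_mulVec (x : ι → Bool) (φ : ι × Bool × W → ℂ) (e : ι × Bool × W) :
    (OM W x).mulVec φ e = φ (e.1, xor e.2.1 (x e.1), e.2.2) := by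
  simp [Matrix.mulVec, dotProduct, OM]

theorem OM_mul_apply {K : Type} [Fintype K] (x : ι → Bool) (M : Matrix (ι × Bool × W) K ℂ)
    (e : ι × Bool × W) (k : K) :
    (OM W x * M) e k = M (e.1, xor e.2.1 (x e.1), e.2.2) k := by
  simp [Matrix.mul_apply, OM]

theorem OM_sq (x : ι → Bool) : OM W x * OM W x = 1 := by
  ext e e'
  rw [OM_mul_apply]
  simp only [OM]
  rcases e with ⟨i, b, w⟩
  rcases e' with ⟨i', b', w'⟩
  simp [Matrix.one_apply, Prod.ext_iff, eq_comm]

theorem OM_conjTranspose (x : ι → Bool) : (OM W x)ᴴ = OM W x := by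
  ext e e'
  rcases e with ⟨i, b, w⟩
  rcases e' with ⟨i', b', w'⟩
  simp only [conjTranspose_apply, OM, Prod.mk.injEq]
  by_cases h : i' = i
  · subst h
    by_cases hw : w' = w
    · subst hw
      cases b <;> cases b' <;> cases hx : x i' <;> simp [hx]
    · have hw' : ¬ w = w' := fun h => hw h.symm
      simp [hw, hw']
  · have h' : ¬ i = i' := fun hh => h hh.symm
    simp [h, h']

end OM

section Impl

variable {W : Type} [Fintype W] [DecidableEq W]

theorem Impl_unitary {q : ℕ} {V : (ι → Bool) → Matrix (ι × Bool × W) (ι × Bool × W) ℂ}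
    (h : Impl W q V) (x : ι → Bool) : (V x)ᴴ * V x = 1 ∧ V x * (V x)ᴴ = 1 := by
  induction h with
  | const U hU => exact ⟨mem_unitaryGroup_iff'.1 hU, mem_unitaryGroup_iff.1 hU⟩
  | step q V h U hU ih =>
    have h1 := mem_unitaryGroup_iff'.1 hU
    have h2 := mem_unitaryGroup_iff.1 hU
    rw [Matrix.star_eq_conjTranspose] at h1 h2
    constructor
    · calc (U * OM W x * V x)ᴴ * (U * OM W x * V x)
          = (V x)ᴴ * ((OM W x)ᴴ * (Uᴴ * U) * OM W x) * V x := by
            simp only [conjTranspose_mul, Matrix.mul_assoc]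
        _ = 1 := by
            rw [h1, Matrix.mul_one, OM_conjTranspose, OM_sq, Matrix.mul_one, ih.1]
    · calc (U * OM W x * V x) * (U * OM W x * V x)ᴴ
          = U * (OM W x * (V x * (V x)ᴴ) * (OM W x)ᴴ) * Uᴴ := by
            simp only [conjTranspose_mul, Matrix.mul_assoc]
        _ = 1 := by
            rw [ih.2, Matrix.mul_one, OM_conjTranspose, OM_sq, Matrix.mul_one, h2]

theorem Impl_zero_inv {V : (ι → Bool) → Matrix (ι × Bool × W) (ι × Bool × W) ℂ}
    (h : Impl W 0 V) : ∃ U ∈ Matrix.unitaryGroup (ι × Bool × W) ℂ, V = fun _ => U := by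
  cases h with
  | const U hU => exact ⟨U, hU, rfl⟩

theorem Impl_succ_inv {q : ℕ} {V : (ι → Bool) → Matrix (ι × Bool × W) (ι × Bool × W) ℂ}
    (h : Impl W (q + 1) V) : ∃ V₀ : (ι → Bool) → Matrix (ι × Bool × W) (ι × Bool × W) ℂ,
      ∃ U ∈ Matrix.unitaryGroup (ι × Bool × W) ℂ, Impl W q V₀ ∧
        V = fun x => U * OM W x * V₀ x := by
  cases h with
  | step q V₀ h₀ U hU => exact ⟨V₀, U, hU, h₀, rfl⟩

theorem Impl_left {q : ℕ} {V : (ι → Bool) → Matrix (ι × Bool × W) (ι × Bool × W) ℂ}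
    (h : Impl W q V) (U : Matrix (ι × Bool × W) (ι × Bool × W) ℂ)
    (hU : U ∈ Matrix.unitaryGroup (ι × Bool × W) ℂ) : Impl W q (fun x => U * V x) := by
  cases h with
  | const U' hU' => exact Impl.const _ (mul_mem hU hU')
  | step q V h U' hU' =>
    have := Impl.step q V h (U * U') (mul_mem hU hU')
    simpa only [Matrix.mul_assoc] using this

theorem Impl_mul {q q' : ℕ} {V V' : (ι → Bool) → Matrix (ι × Bool × W) (ι × Bool × W) ℂ}
    (h : Impl W q V) (h' : Impl W q' V') : Impl W (q + q') (fun x => V' x * V x) := by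
  induction h' with
  | const U hU => exact Impl_left h U hU
  | step q' V' h' U hU ih =>
    have := Impl.step (q + q') _ ih U hU
    simpa only [Matrix.mul_assoc, add_assoc] using this

theorem Impl_one : Impl (ι := ι) W 0 (fun _ => 1) := Impl.const 1 (one_mem _)

theorem Impl_OM : Impl (ι := ι) W 1 (fun x => OM W x) := by
  have := Impl.step 0 _ (Impl_one (ι := ι) (W := W)) 1 (one_mem _)
  simpa using this


end Impl


section swap

variable {H K : Type} [Fintype H] [DecidableEq H] [Fintype K] [DecidableEq K]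

/-- the unitary exchanging two orthogonal isometric copies `P`, `Q` of `ℂ^K`. -/
def swapU (P Q : Matrix H K ℂ) : Matrix H H ℂ := 1 - P * Pᴴ - Q * Qᴴ + Q * Pᴴ + P * Qᴴ

theorem swapU_mul_left (P Q : Matrix H K ℂ) (hP : Pᴴ * P = 1) (hQP : Qᴴ * P = 0) :
    swapU P Q * P = Q := by
  unfold swapU
  simp only [Matrix.add_mul, Matrix.sub_mul, Matrix.one_mul, Matrix.mul_assoc, hP, hQP,
    Matrix.mul_one, Matrix.mul_zero]
  abel

theorem swapU_mem (P Q : Matrix H K ℂ) (hP : Pᴴ * P = 1) (hQ : Qᴴ * Q = 1) (hPQ : Pᴴ * Q = 0)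
    (hQP : Qᴴ * P = 0) : swapU P Q ∈ Matrix.unitaryGroup H ℂ := by
  have hs : (swapU P Q)ᴴ = swapU P Q := by
    unfold swapU
    simp only [conjTranspose_add, conjTranspose_sub, conjTranspose_mul,
      conjTranspose_conjTranspose, conjTranspose_one]
    abel
  rw [mem_unitaryGroup_iff', Matrix.star_eq_conjTranspose, hs]
  have h1 : swapU P Q * P = Q := swapU_mul_left P Q hP hQP
  have h2 : swapU P Q * Q = P := by
    unfold swapU
    simp only [Matrix.add_mul, Matrix.sub_mul, Matrix.one_mul, Matrix.mul_assoc, hQ, hPQ,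
      Matrix.mul_one, Matrix.mul_zero]
    abel
  have h3 : swapU P Q * swapU P Q
      = swapU P Q - (swapU P Q * P) * Pᴴ - (swapU P Q * Q) * Qᴴ + (swapU P Q * Q) * Pᴴ
        + (swapU P Q * P) * Qᴴ := by
    conv_lhs => rw [show swapU P Q * swapU P Q = swapU P Q *
      (1 - P * Pᴴ - Q * Qᴴ + Q * Pᴴ + P * Qᴴ) from rfl]
    simp only [Matrix.mul_add, Matrix.mul_sub, Matrix.mul_one, Matrix.mul_assoc]
  rw [h3, h1, h2]
  unfold swapU
  abel

end swap

section lift

variable {W W' : Type} [Fintype W] [DecidableEq W] [Fintype W'] [DecidableEq W']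

/-- lifting a family of implementations along an orthogonal family of equivariant isometries -/
theorem Impl_family {C : Type} [Fintype C] [DecidableEq C] (Wf : C → Type)
    [∀ c, Fintype (Wf c)] [∀ c, DecidableEq (Wf c)]
    (E : ∀ c, Matrix (ι × Bool × W') (ι × Bool × Wf c) ℂ)
    (hE : ∀ c, (E c)ᴴ * E c = 1) (hE' : ∀ c c', c ≠ c' → (E c)ᴴ * E c' = 0)
    (hO : ∀ c (x : ι → Bool), (OM W' x * E c : Matrix (ι × Bool × W') (ι × Bool × Wf c) ℂ)
      = E c * OM (Wf c) x) (q : ℕ)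
    (V : ∀ c, (ι → Bool) → Matrix (ι × Bool × Wf c) (ι × Bool × Wf c) ℂ)
    (h : ∀ c, Impl (Wf c) q (V c)) :
    ∃ V' : (ι → Bool) → Matrix (ι × Bool × W') (ι × Bool × W') ℂ,
      Impl W' q V' ∧ ∀ c (x : ι → Bool),
        (V' x * E c : Matrix (ι × Bool × W') (ι × Bool × Wf c) ℂ) = E c * V c x := by
  -- the lift of a family of fixed unitaries
  have key : ∀ U : ∀ c, Matrix (ι × Bool × Wf c) (ι × Bool × Wf c) ℂ,
      (∀ c, U c ∈ Matrix.unitaryGroup _ ℂ) →
      ∃ U' ∈ Matrix.unitaryGroup (ι × Bool × W') ℂ, ∀ c, U' * E c = E c * U c := by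
    intro U hU
    have hU1 : ∀ c, (U c)ᴴ * U c = 1 := fun c => by
      have := mem_unitaryGroup_iff'.1 (hU c)
      rwa [Matrix.star_eq_conjTranspose] at this
    set U' : Matrix (ι × Bool × W') (ι × Bool × W') ℂ :=
      1 + ∑ c, (E c * U c * (E c)ᴴ - E c * (E c)ᴴ) with hU'
    have hmul : ∀ c, U' * E c = E c * U c := by
      intro c
      rw [hU', Matrix.add_mul, Matrix.one_mul, Matrix.sum_mul]
      rw [Finset.sum_eq_single c]
      · simp only [Matrix.sub_mul, Matrix.mul_assoc, hE, Matrix.mul_one]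
        abel
      · intro c' _ hc'
        simp only [Matrix.sub_mul, Matrix.mul_assoc, hE' c' c hc', Matrix.mul_zero, sub_zero]
      · simp
    have hmulH : ∀ c, (U')ᴴ * (E c * U c) = E c := by
      intro c
      rw [hU', conjTranspose_add, conjTranspose_one, conjTranspose_sum, Matrix.add_mul,
        Matrix.one_mul, Matrix.sum_mul]
      rw [Finset.sum_eq_single c]
      · simp only [conjTranspose_sub, conjTranspose_mul, conjTranspose_conjTranspose,
          Matrix.sub_mul, Matrix.mul_assoc]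
        rw [← Matrix.mul_assoc (E c)ᴴ (E c), hE, Matrix.one_mul, hU1, Matrix.mul_one]
        abel
      · intro c' _ hc'
        simp only [conjTranspose_sub, conjTranspose_mul, conjTranspose_conjTranspose,
          Matrix.sub_mul, Matrix.mul_assoc]
        rw [← Matrix.mul_assoc (E c')ᴴ (E c), hE' c' c hc']
        simp
      · simp
    refine ⟨U', ?_, hmul⟩
    rw [mem_unitaryGroup_iff', Matrix.star_eq_conjTranspose]
    have hherm : (U')ᴴ * U' = (U')ᴴ + ∑ c, ((U')ᴴ * (E c * U c) * (E c)ᴴ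
        - (U')ᴴ * E c * (E c)ᴴ) := by
      conv_lhs => rw [show (U')ᴴ * U' = (U')ᴴ * (1 + ∑ c, (E c * U c * (E c)ᴴ - E c * (E c)ᴴ))
        from by rw [← hU']]
      rw [Matrix.mul_add, Matrix.mul_one, Matrix.mul_sum]
      simp only [Matrix.mul_sub, Matrix.mul_assoc]
    rw [hherm]
    have hmulH2 : ∀ c, (U')ᴴ * E c = E c * (U c)ᴴ := by
      intro c
      have hU2 : U c * (U c)ᴴ = 1 := by
        have := mem_unitaryGroup_iff.1 (hU c)
        rwa [Matrix.star_eq_conjTranspose] at this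
      calc (U')ᴴ * E c = (U')ᴴ * (E c * (U c * (U c)ᴴ)) := by rw [hU2, Matrix.mul_one]
        _ = ((U')ᴴ * (E c * U c)) * (U c)ᴴ := by simp only [Matrix.mul_assoc]
        _ = _ := by rw [hmulH]
    simp only [hmulH, hmulH2]
    rw [hU', conjTranspose_add, conjTranspose_one, conjTranspose_sum, add_assoc,
      ← Finset.sum_add_distrib]
    have : ∀ c, ((E c * U c * (E c)ᴴ - E c * (E c)ᴴ)ᴴ
        + (E c * (E c)ᴴ - E c * (U c)ᴴ * (E c)ᴴ)) = 0 := by
      intro c
      simp only [conjTranspose_sub, conjTranspose_mul, conjTranspose_conjTranspose,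
        Matrix.mul_assoc]
      abel
    rw [Finset.sum_congr rfl (fun c _ => this c)]
    simp
  induction q generalizing V with
  | zero =>
    have : ∀ c, ∃ U ∈ Matrix.unitaryGroup (ι × Bool × Wf c) ℂ, V c = fun _ => U :=
      fun c => Impl_zero_inv (h c)
    choose U hU hV using this
    obtain ⟨U', hU', hm⟩ := key U hU
    refine ⟨fun _ => U', Impl.const _ hU', ?_⟩
    intro c x
    rw [hV c]
    exact hm c
  | succ q ih =>
    have : ∀ c, ∃ V₀ : (ι → Bool) → Matrix (ι × Bool × Wf c) (ι × Bool × Wf c) ℂ,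
        ∃ U ∈ Matrix.unitaryGroup (ι × Bool × Wf c) ℂ, Impl (Wf c) q V₀ ∧
        V c = fun x => U * OM (Wf c) x * V₀ x := fun c => Impl_succ_inv (h c)
    choose V₀ U hU hI hV using this
    obtain ⟨V₀', hV₀', hm₀⟩ := ih V₀ hI
    obtain ⟨U', hU', hm⟩ := key U hU
    refine ⟨fun x => U' * OM W' x * V₀' x, Impl.step q _ hV₀' U' hU', ?_⟩
    intro c x
    rw [hV c]
    have e1 : U' * OM W' x * V₀' x * E c = U' * (OM W' x * E c) * V₀ c x := by
      rw [Matrix.mul_assoc, Matrix.mul_assoc, hm₀]; simp only [Matrix.mul_assoc]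
    have e2 : U' * (OM W' x * E c) * V₀ c x = (U' * E c) * OM (Wf c) x * V₀ c x := by
      have := hO c x
      rw [this]; simp only [Matrix.mul_assoc]
    rw [e1, e2, hm]; simp only [Matrix.mul_assoc]

theorem Impl_lift (E : Matrix (ι × Bool × W') (ι × Bool × W) ℂ) (hE : Eᴴ * E = 1)
    (hO : ∀ x : ι → Bool, (OM W' x * E : Matrix (ι × Bool × W') (ι × Bool × W) ℂ) = E * OM W x)
    {q : ℕ}
    {V : (ι → Bool) → Matrix (ι × Bool × W) (ι × Bool × W) ℂ} (h : Impl W q V) :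
    ∃ V' : (ι → Bool) → Matrix (ι × Bool × W') (ι × Bool × W') ℂ,
      Impl W' q V' ∧ ∀ x : ι → Bool,
        (V' x * E : Matrix (ι × Bool × W') (ι × Bool × W) ℂ) = E * V x := by
  obtain ⟨V', h1, h2⟩ := Impl_family (C := Unit) (fun _ => W) (fun _ => E) (fun _ => hE)
    (fun c c' hc => absurd (Subsingleton.elim c c') hc) (fun _ => hO) q (fun _ => V)
    (fun _ => h)
  exact ⟨V', h1, fun x => h2 () x⟩

/-- equivariant basis embedding induced by an injection of work registers -/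
def embW (j : W → W') : Matrix (ι × Bool × W') (ι × Bool × W) ℂ :=
  fun e' e => if e' = (e.1, e.2.1, j e.2.2) then 1 else 0

theorem embW_isom (j : W → W') (hj : Function.Injective j) :
    (embW (ι := ι) j)ᴴ * embW (ι := ι) j = 1 := by
  ext e e'
  rw [Matrix.mul_apply]
  simp only [embW, conjTranspose_apply, Matrix.one_apply]
  rw [Finset.sum_eq_single (e'.1, e'.2.1, j e'.2.2)]
  · rcases e with ⟨i, b, w⟩
    rcases e' with ⟨i', b', w'⟩
    by_cases h : (i, b, w) = (i', b', w')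
    · simp only [Prod.mk.injEq] at h
      obtain ⟨rfl, rfl, rfl⟩ := h
      simp
    · rw [if_neg h]
      rw [if_neg]
      · simp
      · intro h'
        apply h
        simp only [Prod.mk.injEq] at h' ⊢
        exact ⟨h'.1.symm, h'.2.1.symm, (hj h'.2.2).symm⟩
  · intro b _ hb
    rw [if_neg hb, mul_zero]
  · intro h
    exact absurd (Finset.mem_univ _) h

theorem embW_disj {W₂ : Type} [Fintype W₂] [DecidableEq W₂] (j : W → W') (j₂ : W₂ → W')
    (hj : ∀ a b, j a ≠ j₂ b) :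
    (embW (ι := ι) j)ᴴ * embW (ι := ι) j₂ = 0 := by
  ext e e'
  rw [Matrix.mul_apply]
  simp only [embW, conjTranspose_apply, Matrix.zero_apply]
  refine Finset.sum_eq_zero ?_
  intro b _
  by_cases h : b = (e'.1, e'.2.1, j₂ e'.2.2)
  · rw [if_neg]
    · simp
    · rw [h]
      intro h'
      simp only [Prod.mk.injEq] at h'
      exact hj _ _ h'.2.2.symm
  · rw [if_neg h, mul_zero]

theorem embW_OM (j : W → W') (x : ι → Bool) :
    OM W' x * embW (ι := ι) j = embW (ι := ι) j * OM W x := by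
  ext e e'
  rw [OM_mul_apply, Matrix.mul_apply]
  rcases e with ⟨i, b, w⟩
  rcases e' with ⟨i', b', w'⟩
  simp only [embW, OM]
  rw [Finset.sum_eq_single (i', xor b' (x i'), w')]
  · simp only [Prod.mk.injEq]
    by_cases h : i = i'
    · subst h
      by_cases hw : w = j w'
      · cases b <;> cases b' <;> cases x i <;> simp [hw]
      · simp [hw]
    · simp [h]
  · intro c _ hc
    rw [if_neg (c := (i', b', w') = (c.1, xor c.2.1 (x c.1), c.2.2)), mul_zero]
    intro h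
    apply hc
    rcases c with ⟨c1, c2, c3⟩
    simp only [Prod.mk.injEq] at h ⊢
    obtain ⟨rfl, h2, rfl⟩ := h
    refine ⟨rfl, ?_, rfl⟩
    rw [h2]
    simp
  · intro h
    exact absurd (Finset.mem_univ _) h

end lift


section QI

variable {K K' K'' : Type} [Fintype K] [DecidableEq K] [Fintype K'] [DecidableEq K']
  [Fintype K''] [DecidableEq K'']

/-- basis embedding of `K` in a query space -/
def basE (i₀ : ι) : Matrix (ι × Bool × K) K ℂ :=
  fun e k => if e = (i₀, false, k) then 1 else 0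

theorem basE_isom (i₀ : ι) : (basE (K := K) i₀)ᴴ * basE (K := K) i₀ = 1 := by
  ext e e'
  rw [Matrix.mul_apply]
  simp only [basE, conjTranspose_apply, Matrix.one_apply]
  rw [Finset.sum_eq_single (i₀, false, e')]
  · by_cases h : e = e'
    · subst h; simp
    · have h' : ¬ (e' = e) := fun hh => h hh.symm
      simp [h, h']
  · intro b _ hb
    rw [if_neg hb, mul_zero]
  · intro h
    exact absurd (Finset.mem_univ _) h

/-- a fixed isometry costs nothing -/
theorem QI_const [Nonempty ι] (B : Matrix K' K ℂ) (hB : Bᴴ * B = 1) :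
    QI (ι := ι) K K' 0 (fun _ => B) := by
  obtain ⟨i₀⟩ := (inferInstance : Nonempty ι)
  set D : Matrix (ι × Bool × K') K' ℂ := basE i₀ with hD
  have hDD : Dᴴ * D = 1 := basE_isom i₀
  refine ⟨K', inferInstance, inferInstance, fun _ => 1, D * B, D, Impl_one, ?_, hDD, ?_⟩
  · rw [conjTranspose_mul, Matrix.mul_assoc, ← Matrix.mul_assoc Dᴴ, hDD,
      Matrix.one_mul, hB]
  · intro x
    rw [Matrix.one_mul]

/-- composition, and the final embedding can be chosen to be a basis embedding -/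
theorem QI_comp {q q' : ℕ} {A : (ι → Bool) → Matrix K' K ℂ} {B : (ι → Bool) → Matrix K'' K' ℂ}
    (hA : QI K K' q A) (hB : QI K' K'' q' B) : QI K K'' (q + q') (fun x => B x * A x) := by
  obtain ⟨W₁, _, _, V₁, J₁, J₁', hV₁, hJ₁, hJ₁', h₁⟩ := hA
  obtain ⟨W₂, _, _, V₂, J₂, J₂', hV₂, hJ₂, hJ₂', h₂⟩ := hB
  set E₁ : Matrix (ι × Bool × (W₁ ⊕ W₂)) (ι × Bool × W₁) ℂ := embW Sum.inl with hE₁
  set E₂ : Matrix (ι × Bool × (W₁ ⊕ W₂)) (ι × Bool × W₂) ℂ := embW Sum.inr with hE₂
  have e11 : E₁ᴴ * E₁ = 1 := embW_isom _ Sum.inl_injective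
  have e22 : E₂ᴴ * E₂ = 1 := embW_isom _ Sum.inr_injective
  have e12 : E₁ᴴ * E₂ = 0 := embW_disj _ _ (fun a b => by simp)
  have e21 : E₂ᴴ * E₁ = 0 := embW_disj _ _ (fun a b => by simp)
  obtain ⟨V₁', hV₁', h₁'⟩ := Impl_lift E₁ e11 (embW_OM _) hV₁
  obtain ⟨V₂', hV₂', h₂'⟩ := Impl_lift E₂ e22 (embW_OM _) hV₂
  set P : Matrix (ι × Bool × (W₁ ⊕ W₂)) K' ℂ := E₁ * J₁' with hP
  set Q : Matrix (ι × Bool × (W₁ ⊕ W₂)) K' ℂ := E₂ * J₂ with hQ
  have hPP : Pᴴ * P = 1 := by
    rw [hP, conjTranspose_mul, Matrix.mul_assoc, ← Matrix.mul_assoc E₁ᴴ, e11, Matrix.one_mul,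
      hJ₁']
  have hQQ : Qᴴ * Q = 1 := by
    rw [hQ, conjTranspose_mul, Matrix.mul_assoc, ← Matrix.mul_assoc E₂ᴴ, e22, Matrix.one_mul,
      hJ₂]
  have hPQ : Pᴴ * Q = 0 := by
    rw [hP, hQ, conjTranspose_mul, Matrix.mul_assoc, ← Matrix.mul_assoc E₁ᴴ, e12,
      Matrix.zero_mul, Matrix.mul_zero]
  have hQP : Qᴴ * P = 0 := by
    rw [hP, hQ, conjTranspose_mul, Matrix.mul_assoc, ← Matrix.mul_assoc E₂ᴴ, e21,
      Matrix.zero_mul, Matrix.mul_zero]
  refine ⟨W₁ ⊕ W₂, inferInstance, inferInstance, fun x => V₂' x * (swapU P Q * V₁' x), E₁ * J₁,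
    E₂ * J₂', ?_, ?_, ?_, ?_⟩
  · exact Impl_mul (Impl_left hV₁' _ (swapU_mem P Q hPP hQQ hPQ hQP)) hV₂'
  · rw [conjTranspose_mul, Matrix.mul_assoc, ← Matrix.mul_assoc E₁ᴴ, e11, Matrix.one_mul, hJ₁]
  · rw [conjTranspose_mul, Matrix.mul_assoc, ← Matrix.mul_assoc E₂ᴴ, e22, Matrix.one_mul, hJ₂']
  · intro x
    have s1 : (V₁' x * (E₁ * J₁) : Matrix (ι × Bool × (W₁ ⊕ W₂)) K ℂ) = P * A x := by
      rw [← Matrix.mul_assoc, h₁', Matrix.mul_assoc, h₁, hP, Matrix.mul_assoc]
    have s2 : (V₂' x * Q : Matrix (ι × Bool × (W₁ ⊕ W₂)) K' ℂ) = E₂ * J₂' * B x := by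
      rw [hQ, ← Matrix.mul_assoc, h₂', Matrix.mul_assoc, h₂, Matrix.mul_assoc]
    calc V₂' x * (swapU P Q * V₁' x) * (E₁ * J₁)
        = V₂' x * (swapU P Q * (V₁' x * (E₁ * J₁))) := by simp only [Matrix.mul_assoc]
      _ = V₂' x * ((swapU P Q * P) * A x) := by rw [s1]; simp only [Matrix.mul_assoc]
      _ = (V₂' x * Q) * A x := by
          rw [swapU_mul_left P Q hPP hQP]; simp only [Matrix.mul_assoc]
      _ = E₂ * J₂' * (B x * A x) := by rw [s2]; simp only [Matrix.mul_assoc]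

theorem QI_isom {q : ℕ} {A : (ι → Bool) → Matrix K' K ℂ} (hA : QI K K' q A) (x : ι → Bool) :
    (A x)ᴴ * A x = 1 := by
  obtain ⟨W₁, _, _, V₁, J₁, J₁', hV₁, hJ₁, hJ₁', h₁⟩ := hA
  have := (Impl_unitary hV₁ x).1
  calc (A x)ᴴ * A x = (A x)ᴴ * (J₁'ᴴ * J₁') * A x := by rw [hJ₁', Matrix.mul_one]
    _ = (J₁' * A x)ᴴ * (J₁' * A x) := by simp only [conjTranspose_mul, Matrix.mul_assoc]
    _ = J₁ᴴ * ((V₁ x)ᴴ * V₁ x) * J₁ := by
        rw [← h₁]; simp only [conjTranspose_mul, Matrix.mul_assoc]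
    _ = 1 := by rw [this, Matrix.mul_one, hJ₁]

/-- the final embedding can be chosen to be a basis embedding -/
theorem QI_basis {q : ℕ} {A : (ι → Bool) → Matrix K' K ℂ} (i₀ : ι) (hA : QI K K' q A) :
    ∃ (W : Type) (_ : Fintype W) (_ : DecidableEq W)
      (V : (ι → Bool) → Matrix (ι × Bool × W) (ι × Bool × W) ℂ)
      (J : Matrix (ι × Bool × W) K ℂ) (j : K' → W),
      Impl W q V ∧ Jᴴ * J = 1 ∧ Function.Injective j ∧
      ∀ x, V x * J = ((embW j : Matrix (ι × Bool × W) (ι × Bool × K') ℂ) *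
        (basE i₀ : Matrix (ι × Bool × K') K' ℂ)) * A x := by
  obtain ⟨W₁, _, _, V₁, J₁, J₁', hV₁, hJ₁, hJ₁', h₁⟩ := hA
  set E₁ : Matrix (ι × Bool × (W₁ ⊕ K')) (ι × Bool × W₁) ℂ := embW Sum.inl with hE₁
  set E₂ : Matrix (ι × Bool × (W₁ ⊕ K')) (ι × Bool × K') ℂ := embW Sum.inr with hE₂
  have e11 : E₁ᴴ * E₁ = 1 := embW_isom _ Sum.inl_injective
  have e22 : E₂ᴴ * E₂ = 1 := embW_isom _ Sum.inr_injective
  have e12 : E₁ᴴ * E₂ = 0 := embW_disj _ _ (fun a b => by simp)
  have e21 : E₂ᴴ * E₁ = 0 := embW_disj _ _ (fun a b => by simp)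
  obtain ⟨V₁', hV₁', h₁'⟩ := Impl_lift E₁ e11 (embW_OM _) hV₁
  set P : Matrix (ι × Bool × (W₁ ⊕ K')) K' ℂ := E₁ * J₁' with hP
  set D : Matrix (ι × Bool × K') K' ℂ := basE i₀ with hD
  have hDD : Dᴴ * D = 1 := basE_isom i₀
  set Q : Matrix (ι × Bool × (W₁ ⊕ K')) K' ℂ := E₂ * D with hQ
  have hPP : Pᴴ * P = 1 := by
    rw [hP, conjTranspose_mul, Matrix.mul_assoc, ← Matrix.mul_assoc E₁ᴴ, e11, Matrix.one_mul,
      hJ₁']
  have hQQ : Qᴴ * Q = 1 := by
    rw [hQ, conjTranspose_mul, Matrix.mul_assoc, ← Matrix.mul_assoc E₂ᴴ, e22, Matrix.one_mul,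
      hDD]
  have hPQ : Pᴴ * Q = 0 := by
    rw [hP, hQ, conjTranspose_mul, Matrix.mul_assoc, ← Matrix.mul_assoc E₁ᴴ, e12,
      Matrix.zero_mul, Matrix.mul_zero]
  have hQP : Qᴴ * P = 0 := by
    rw [hP, hQ, conjTranspose_mul, Matrix.mul_assoc, ← Matrix.mul_assoc E₂ᴴ, e21,
      Matrix.zero_mul, Matrix.mul_zero]
  refine ⟨W₁ ⊕ K', inferInstance, inferInstance, fun x => swapU P Q * V₁' x, E₁ * J₁,
    Sum.inr, ?_, ?_, Sum.inr_injective, ?_⟩
  · exact Impl_left hV₁' _ (swapU_mem P Q hPP hQQ hPQ hQP)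
  · rw [conjTranspose_mul, Matrix.mul_assoc, ← Matrix.mul_assoc E₁ᴴ, e11, Matrix.one_mul, hJ₁]
  · intro x
    have s1 : (V₁' x * (E₁ * J₁) : Matrix (ι × Bool × (W₁ ⊕ K')) K ℂ) = P * A x := by
      rw [← Matrix.mul_assoc, h₁', Matrix.mul_assoc, h₁, hP, Matrix.mul_assoc]
    calc swapU P Q * V₁' x * (E₁ * J₁)
        = swapU P Q * (V₁' x * (E₁ * J₁)) := by simp only [Matrix.mul_assoc]
      _ = (swapU P Q * P) * A x := by rw [s1]; simp only [Matrix.mul_assoc]
      _ = _ := by rw [swapU_mul_left P Q hPP hQP]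

/-- controlled preparation: if each `ψ c` is prepared with `q` queries, so is the controlled
map `|c⟩ ↦ |c⟩ ⊗ ψ c`. -/
theorem QI_ctrl {C : Type} [Fintype C] [DecidableEq C] {q : ℕ}
    {ψ : C → (ι → Bool) → K → ℂ}
    (h : ∀ c, QI Unit K q (fun x => Matrix.of fun k (_ : Unit) => ψ c x k)) :
    QI C (C × K) q (fun x => Matrix.of fun (p : C × K) c => if p.1 = c then ψ c x p.2 else 0) := by
  choose Wf fW dW V J J' hI hJ hJ' hV using h
  letI : ∀ c, Fintype (Wf c) := fW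
  letI : ∀ c, DecidableEq (Wf c) := dW
  set E : ∀ c, Matrix (ι × Bool × (Σ c, Wf c)) (ι × Bool × Wf c) ℂ :=
    fun c => embW (fun w => (⟨c, w⟩ : Σ c, Wf c)) with hE
  have hEi : ∀ c, (E c)ᴴ * E c = 1 := fun c => embW_isom _ (fun a b hab => by simpa using hab)
  have hEd : ∀ c c', c ≠ c' → (E c)ᴴ * E c' = 0 := fun c c' hc =>
    embW_disj _ _ (fun a b hab => hc (congrArg Sigma.fst hab))
  obtain ⟨V', hV', hm⟩ := Impl_family (W' := Σ c, Wf c) Wf E hEi hEd (fun c x => embW_OM _ x) q V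
    hI
  refine ⟨Σ c, Wf c, inferInstance, inferInstance, V',
    Matrix.of (fun e c => (E c * J c) e ()), Matrix.of (fun e (p : C × K) => (E p.1 * J' p.1) e p.2),
    hV', ?_, ?_, ?_⟩
  · ext c c'
    rw [Matrix.mul_apply]
    simp only [conjTranspose_apply, Matrix.of_apply]
    have : ∑ e, star ((E c * J c) e ()) * (E c' * J c') e ()
        = ((E c * J c)ᴴ * (E c' * J c')) () () := by
      rw [Matrix.mul_apply]; rfl
    rw [this, conjTranspose_mul, Matrix.mul_assoc, ← Matrix.mul_assoc (E c)ᴴ]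
    by_cases hc : c = c'
    · subst hc
      rw [hEi, Matrix.one_mul, hJ]
      simp
    · rw [hEd c c' hc]
      simp [Matrix.one_apply, hc]
  · ext p p'
    rw [Matrix.mul_apply]
    simp only [conjTranspose_apply, Matrix.of_apply]
    have : ∑ e, star ((E p.1 * J' p.1) e p.2) * (E p'.1 * J' p'.1) e p'.2
        = ((E p.1 * J' p.1)ᴴ * (E p'.1 * J' p'.1)) p.2 p'.2 := by
      rw [Matrix.mul_apply]; rfl
    rw [this, conjTranspose_mul, Matrix.mul_assoc, ← Matrix.mul_assoc (E p.1)ᴴ]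
    rcases p with ⟨c, k⟩
    rcases p' with ⟨c', k'⟩
    by_cases hc : c = c'
    · subst hc
      simp only [hEi, Matrix.one_mul, hJ']
      simp [Matrix.one_apply]
    · simp only [hEd c c' hc]
      simp [Matrix.one_apply, hc]
  · intro x
    ext e c
    rw [Matrix.mul_apply, Matrix.mul_apply]
    simp only [Matrix.of_apply]
    have l : ∑ e', V' x e e' * (E c * J c) e' () = (V' x * (E c * J c)) e () := by
      rw [Matrix.mul_apply]
    rw [l, ← Matrix.mul_assoc, hm, Matrix.mul_assoc, hV, ← Matrix.mul_assoc, Matrix.mul_apply,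
      Fintype.sum_prod_type, Finset.sum_eq_single c]
    · simp
    · intro c' _ hc'
      simp [hc']
    · simp

end QI

end Crest.Agent.R350
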