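import Crest.Agent.R350.QSampL
import Crest.Agent.R350.HTestPath
import Crest.Agent.R350.QCore
import Crest.Agent.R350.Defs2
import Crest.Agent.R350.GoodProb

-- ▼ part R350/Amp
section

/-! Row 350, T2: amplitude amplification. -/

set_option autoImplicit false

namespace Crest.Agent.R350

open Finset Matrix

namespace Amp

variable {ι : Type} [Fintype ι] [DecidableEq ι]

theorem OM_mul_self (W : Type) [Fintype W] [DecidableEq W] (x : ι → Bool) :
    OM W x * OM W x = 1 := by
  ext e e'
  simp only [Matrix.mul_apply, OM, Matrix.one_apply]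
  rw [Finset.sum_eq_single (e.1, xor e.2.1 (x e.1), e.2.2)]
  · simp only [if_true, one_mul]
    have : (e.1, ((e.2.1 ^^ x e.1) ^^ x e.1), e.2.2) = e := by
      rcases e with ⟨i, b, z⟩
      simp
    rw [this]
    by_cases h : e' = e
    · simp [h]
    · simp [h, Ne.symm h]
  · intro b _ hb
    simp [hb]
  · simp

omit [Fintype ι] in
theorem OM_conjTranspose (W : Type) [Fintype W] [DecidableEq W] (x : ι → Bool) :
    (OM W x)ᴴ = OM W x := by
  ext e e'
  simp only [Matrix.conjTranspose_apply, OM]
  have : (e = (e'.1, xor e'.2.1 (x e'.1), e'.2.2)) ↔ (e' = (e.1, xor e.2.1 (x e.1), e.2.2)) := by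
    rcases e with ⟨i, b, z⟩
    rcases e' with ⟨i', b', z'⟩
    simp only [Prod.mk.injEq]
    constructor
    · rintro ⟨rfl, rfl, rfl⟩
      simp
    · rintro ⟨rfl, rfl, rfl⟩
      simp
  by_cases h : e' = (e.1, xor e.2.1 (x e.1), e.2.2)
  · rw [if_pos h, if_pos (this.2 h)]; simp
  · rw [if_neg h, if_neg (fun h' => h (this.1 h'))]; simp

theorem OM_unitary (W : Type) [Fintype W] [DecidableEq W] (x : ι → Bool) :
    OM W x ∈ Matrix.unitaryGroup (ι × Bool × W) ℂ := by
  rw [Matrix.mem_unitaryGroup_iff, Matrix.star_eq_conjTranspose, OM_conjTranspose, OM_mul_self]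

variable {W : Type} [Fintype W] [DecidableEq W]

theorem impl_unitary {q : ℕ} {V : (ι → Bool) → Matrix (ι × Bool × W) (ι × Bool × W) ℂ}
    (h : Impl W q V) (x : ι → Bool) : V x ∈ Matrix.unitaryGroup (ι × Bool × W) ℂ := by
  induction h with
  | const U hU => exact hU
  | step q V h U hU ih =>
    exact mul_mem (mul_mem hU (OM_unitary W x)) ih

theorem impl_const_mul {q : ℕ} {V : (ι → Bool) → Matrix (ι × Bool × W) (ι × Bool × W) ℂ}
    (h : Impl W q V) (U : Matrix (ι × Bool × W) (ι × Bool × W) ℂ)
    (hU : U ∈ Matrix.unitaryGroup (ι × Bool × W) ℂ) : Impl W q (fun x => U * V x) := by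
  cases h with
  | const U' hU' => exact Impl.const _ (mul_mem hU hU')
  | step q V h U' hU' =>
    have := Impl.step q V h (U * U') (mul_mem hU hU')
    convert this using 2 with x
    simp only [Matrix.mul_assoc]

theorem impl_mul {q q' : ℕ} {V V' : (ι → Bool) → Matrix (ι × Bool × W) (ι × Bool × W) ℂ}
    (h : Impl W q V) (h' : Impl W q' V') : Impl W (q + q') (fun x => V' x * V x) := by
  induction h' with
  | const U hU => exact impl_const_mul h U hU
  | step q' V' h' U hU ih =>
    have := Impl.step _ _ ih U hU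
    have h2 : (fun x => U * OM W x * (V' x * V x)) = (fun x => U * OM W x * V' x * V x) := by
      funext x
      simp only [Matrix.mul_assoc]
    rw [h2] at this
    exact this

theorem impl_star {q : ℕ} {V : (ι → Bool) → Matrix (ι × Bool × W) (ι × Bool × W) ℂ}
    (h : Impl W q V) : Impl W q (fun x => (V x)ᴴ) := by
  induction h with
  | const U hU =>
    refine Impl.const _ ?_
    rw [← Matrix.star_eq_conjTranspose]
    exact Unitary.star_mem hU
  | step q V h U hU ih =>
    have hU' : Uᴴ ∈ Matrix.unitaryGroup (ι × Bool × W) ℂ := by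
      rw [← Matrix.star_eq_conjTranspose]
      exact Unitary.star_mem hU
    have h1 : Impl W (0 + 1) (fun x : ι → Bool => (1 : Matrix (ι × Bool × W) (ι × Bool × W) ℂ) *
        OM W x * Uᴴ) := Impl.step 0 _ (Impl.const Uᴴ hU') 1 (one_mem _)
    have h2 := impl_mul h1 ih
    have h3 : 0 + 1 + q = q + 1 := by omega
    rw [h3] at h2
    convert h2 using 2 with x
    simp only [Matrix.conjTranspose_mul, OM_conjTranspose, Matrix.one_mul, Matrix.mul_assoc]

theorem reflection_unitary {n : Type} [Fintype n] [DecidableEq n] (P : Matrix n n ℂ)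
    (h1 : Pᴴ = P) (h2 : P * P = P) : (1 - (2 : ℂ) • P) ∈ Matrix.unitaryGroup n ℂ := by
  rw [Matrix.mem_unitaryGroup_iff, Matrix.star_eq_conjTranspose]
  have : (1 - (2 : ℂ) • P)ᴴ = 1 - (2 : ℂ) • P := by
    rw [Matrix.conjTranspose_sub, Matrix.conjTranspose_smul, h1]
    simp
  rw [this]
  simp only [Matrix.mul_sub, Matrix.sub_mul, Matrix.mul_smul, Matrix.smul_mul, h2, Matrix.mul_one,
    Matrix.one_mul]
  module

theorem neg_unitary {n : Type} [Fintype n] [DecidableEq n] (U : Matrix n n ℂ)
    (h : U ∈ Matrix.unitaryGroup n ℂ) : -U ∈ Matrix.unitaryGroup n ℂ := by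
  rw [Matrix.mem_unitaryGroup_iff] at h ⊢
  simpa using h

/-- coefficients `(s_j, c_j)` of the good and bad part after `j` Grover iterations -/
def sc (a : ℝ) : ℕ → ℝ × ℝ
  | 0 => (1, 1)
  | j + 1 => ((1 - 2 * a) * (sc a j).1 + 2 * (1 - a) * (sc a j).2,
      (1 - 2 * a) * (sc a j).2 - 2 * a * (sc a j).1)

theorem sc_trig (θ : ℝ) (j : ℕ) :
    (sc (Real.sin θ ^ 2) j).1 * Real.sin θ = Real.sin ((2 * j + 1) * θ) ∧
    (sc (Real.sin θ ^ 2) j).2 * Real.cos θ = Real.cos ((2 * j + 1) * θ) := by
  induction j with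
  | zero => simp [sc]
  | succ j ih =>
    obtain ⟨h1, h2⟩ := ih
    have hc : Real.cos (2 * θ) = 1 - 2 * Real.sin θ ^ 2 := by
      have := Real.sin_sq_add_cos_sq θ
      rw [Real.cos_two_mul]
      linarith
    have hs : Real.sin (2 * θ) = 2 * Real.sin θ * Real.cos θ := Real.sin_two_mul θ
    have h3 : Real.cos θ ^ 2 = 1 - Real.sin θ ^ 2 := by
      have := Real.sin_sq_add_cos_sq θ
      linarith
    have harg : (2 * ((j + 1 : ℕ) : ℝ) + 1) * θ = (2 * j + 1) * θ + 2 * θ := by push_cast; ring
    rw [harg, Real.sin_add, Real.cos_add, hc, hs, ← h1, ← h2]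
    constructor
    · simp only [sc]
      rw [← h3]; ring
    · simp only [sc]
      ring

theorem trig_sum (θ : ℝ) (T : ℕ) :
    2 * Real.sin (2 * θ) * ∑ j ∈ range T, Real.cos (2 * ((2 * j + 1) * θ)) =
      Real.sin (4 * T * θ) := by
  induction T with
  | zero => simp
  | succ T ih =>
    rw [Finset.sum_range_succ, mul_add, ih]
    have h1 : (4 * ((T + 1 : ℕ) : ℝ) * θ) = 2 * ((2 * T + 1) * θ) + 2 * θ := by push_cast; ring
    have h2 : (4 * (T : ℝ) * θ) = 2 * ((2 * T + 1) * θ) - 2 * θ := by ring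
    rw [h1, h2, Real.sin_add, Real.sin_sub]
    ring

theorem avg_bound (θ : ℝ) (T : ℕ) (hT : 1 ≤ T) (h : 1 ≤ T * Real.sin (2 * θ)) :
    (1 : ℝ) / 4 ≤ (∑ j ∈ range T, Real.sin ((2 * j + 1) * θ) ^ 2) / T := by
  have hTpos : (0 : ℝ) < T := by exact_mod_cast hT
  have hspos : 0 < Real.sin (2 * θ) := by
    by_contra hcon
    push Not at hcon
    nlinarith
  have h1 : ∀ j : ℕ, Real.sin ((2 * j + 1) * θ) ^ 2 =
      1 / 2 - Real.cos (2 * ((2 * j + 1) * θ)) / 2 := fun j => Real.sin_sq_eq_half_sub _
  simp only [h1, Finset.sum_sub_distrib, Finset.sum_const, Finset.card_range, nsmul_eq_mul]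
  rw [← Finset.sum_div, le_div_iff₀ hTpos]
  have h2 := trig_sum θ T
  have h3 : Real.sin (4 * T * θ) ≤ 1 := Real.sin_le_one _
  have h4 : (∑ j ∈ range T, Real.cos (2 * ((2 * j + 1) * θ))) ≤ T / 2 := by
    by_contra hcon
    push Not at hcon
    have : 2 * Real.sin (2 * θ) * (T / 2) < 2 * Real.sin (2 * θ) *
        ∑ j ∈ range T, Real.cos (2 * ((2 * j + 1) * θ)) := by
      apply mul_lt_mul_of_pos_left hcon (by positivity)
    nlinarith
  linarith

theorem grover_bound (a : ℝ) (T : ℕ) (hT : 1 ≤ T) (ha : 1 / (T : ℝ) ^ 2 ≤ a) (ha1 : a ≤ 1) :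
    (1 : ℝ) / 8 ≤ (a * (sc a 0).1 ^ 2 + (∑ j ∈ range T, a * (sc a j).1 ^ 2) / T) / 2 := by
  have hTpos : (0 : ℝ) < T := by exact_mod_cast hT
  have ha0 : 0 < a := lt_of_lt_of_le (by positivity) ha
  have hsum0 : 0 ≤ (∑ j ∈ range T, a * (sc a j).1 ^ 2) / T := by
    apply div_nonneg _ hTpos.le
    apply Finset.sum_nonneg
    intro j _
    positivity
  by_cases h34 : 3 / 4 < a
  · simp only [sc, one_pow, mul_one]
    linarith
  · push Not at h34
    obtain ⟨θ, hθ⟩ : ∃ θ, θ = Real.arcsin (Real.sqrt a) := ⟨_, rfl⟩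
    have hsqrt1 : Real.sqrt a ≤ 1 := by rw [Real.sqrt_le_one]; exact ha1
    have hsin : Real.sin θ = Real.sqrt a := by
      rw [hθ, Real.sin_arcsin (by linarith [Real.sqrt_nonneg a]) hsqrt1]
    have hcos : Real.cos θ = Real.sqrt (1 - a) := by
      rw [hθ, Real.cos_arcsin, Real.sq_sqrt ha0.le]
    have hcos2 : 1 / 2 ≤ Real.cos θ := by
      rw [hcos]
      apply Real.le_sqrt_of_sq_le
      norm_num
      linarith
    have hsinT : 1 / (T : ℝ) ≤ Real.sin θ := by
      rw [hsin]
      apply Real.le_sqrt_of_sq_le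
      rw [div_pow, one_pow]
      exact ha
    have haeq : a = Real.sin θ ^ 2 := by rw [hsin, Real.sq_sqrt ha0.le]
    have h2θ : 1 ≤ T * Real.sin (2 * θ) := by
      rw [Real.sin_two_mul]
      have h1 : 1 ≤ T * Real.sin θ := by
        rw [div_le_iff₀ hTpos] at hsinT
        linarith
      have h2 : 0 ≤ T * Real.sin θ := by linarith
      nlinarith
    have key := avg_bound θ T hT h2θ
    have hEq : ∀ j : ℕ, a * (sc a j).1 ^ 2 = Real.sin ((2 * j + 1) * θ) ^ 2 := by
      intro j
      rw [← (sc_trig θ j).1, ← haeq, mul_pow]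
      rw [← haeq]; ring
    have h0 : 0 ≤ a * (sc a 0).1 ^ 2 := by positivity
    simp only [hEq] at hsum0 h0 ⊢
    set A := Real.sin ((2 * ((0 : ℕ) : ℝ) + 1) * θ) ^ 2
    set B := (∑ j ∈ range T, Real.sin ((2 * (j : ℝ) + 1) * θ) ^ 2) / (T : ℝ)
    linarith

theorem grover_matrix {H K : Type} [Fintype H] [DecidableEq H] [Fintype K] [DecidableEq K]
    (V : Matrix H H ℂ) (hV : V ∈ Matrix.unitaryGroup H ℂ) (J : Matrix H Unit ℂ)
    (J' : Matrix H K ℂ) (hJ' : J'ᴴ * J' = 1) (ψ : K → ℂ)
    (hVJ : V * J = J' * Matrix.of fun k _ => ψ k) (hψ : ∑ k, ‖ψ k‖ ^ 2 = 1)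
    (g : K → Prop) [DecidablePred g] (a s c : ℝ) (ha : a = ∑ k, if g k then ‖ψ k‖ ^ 2 else 0) :
    (V * (-(1 - (2 : ℂ) • (J * Jᴴ))) * Vᴴ *
      (1 - (2 : ℂ) • (J' * Matrix.diagonal (fun k => if g k then (1 : ℂ) else 0) * J'ᴴ))) *
      (J' * Matrix.of fun k (_ : Unit) => (((if g k then s else c : ℝ) : ℂ) * ψ k)) =
    J' * Matrix.of fun k (_ : Unit) => (((if g k then (1 - 2 * a) * s + 2 * (1 - a) * c
      else (1 - 2 * a) * c - 2 * a * s : ℝ) : ℂ) * ψ k) := by
  have hVV : V * Vᴴ = 1 := by
    rw [Matrix.mem_unitaryGroup_iff, Matrix.star_eq_conjTranspose] at hV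
    exact hV
  set A : Matrix K Unit ℂ := Matrix.of fun k _ => ψ k with hA
  set P : Matrix K K ℂ := Matrix.diagonal (fun k => if g k then (1 : ℂ) else 0) with hP
  set B : Matrix K Unit ℂ :=
    Matrix.of fun k (_ : Unit) => (((if g k then s else c : ℝ) : ℂ) * ψ k) with hB
  set B' : Matrix K Unit ℂ :=
    Matrix.of fun k (_ : Unit) => (((if g k then -s else c : ℝ) : ℂ) * ψ k) with hB'
  have e1 : V * (-(1 - (2 : ℂ) • (J * Jᴴ))) * Vᴴ = -(1 - (2 : ℂ) • ((J' * A) * (J' * A)ᴴ)) := by
    rw [← hVJ, Matrix.conjTranspose_mul]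
    simp only [Matrix.mul_neg, Matrix.neg_mul, Matrix.mul_sub, Matrix.sub_mul, Matrix.mul_one,
      Matrix.mul_smul, Matrix.smul_mul, hVV, Matrix.mul_assoc]
  have e2 : (1 - (2 : ℂ) • (J' * P * J'ᴴ)) * (J' * B) = J' * B' := by
    have h1 : (1 - (2 : ℂ) • (J' * P * J'ᴴ)) * (J' * B) = J' * (B - (2 : ℂ) • (P * B)) := by
      simp only [Matrix.sub_mul, Matrix.one_mul, Matrix.smul_mul, Matrix.mul_sub, Matrix.mul_smul]
      congr 2
      calc J' * P * J'ᴴ * (J' * B) = J' * P * (J'ᴴ * J') * B := by simp only [Matrix.mul_assoc]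
        _ = J' * (P * B) := by rw [hJ', Matrix.mul_one, Matrix.mul_assoc]
    rw [h1]
    congr 1
    ext k u
    simp only [hB, hB', hP, Matrix.sub_apply, Matrix.smul_apply, Matrix.diagonal_mul,
      Matrix.of_apply, smul_eq_mul]
    split_ifs
    · push_cast; ring
    · ring
  have e3 : Aᴴ * B' = Matrix.of fun _ _ => (((-s * a + c * (1 - a) : ℝ)) : ℂ) := by
    ext u u'
    simp only [hA, hB', Matrix.mul_apply, Matrix.conjTranspose_apply, Matrix.of_apply]
    have h1 : ∀ k, star (ψ k) * ((((if g k then -s else c : ℝ)) : ℂ) * ψ k) =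
        (((if g k then -s else c) * ‖ψ k‖ ^ 2 : ℝ) : ℂ) := by
      intro k
      have : star (ψ k) * ψ k = ((‖ψ k‖ ^ 2 : ℝ) : ℂ) := by
        rw [Complex.star_def, mul_comm, Complex.mul_conj, Complex.normSq_eq_norm_sq]
      rw [mul_left_comm, this]
      push_cast
      ring
    rw [Finset.sum_congr rfl (fun k _ => h1 k), ← Complex.ofReal_sum]
    congr 1
    have h2 : ∀ k, (if g k then -s else c) * ‖ψ k‖ ^ 2 =
        -(s + c) * (if g k then ‖ψ k‖ ^ 2 else 0) + c * ‖ψ k‖ ^ 2 := by
      intro k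
      split_ifs <;> ring
    rw [Finset.sum_congr rfl (fun k _ => h2 k), Finset.sum_add_distrib, ← Finset.mul_sum,
      ← Finset.mul_sum, ← ha, hψ]
    ring
  rw [Matrix.mul_assoc, e2, e1]
  have e4 : -(1 - (2 : ℂ) • ((J' * A) * (J' * A)ᴴ)) * (J' * B') =
      J' * (-B' + (2 : ℂ) • (A * (Aᴴ * B'))) := by
    rw [Matrix.conjTranspose_mul]
    have h1 : J' * A * (Aᴴ * J'ᴴ) * (J' * B') = J' * (A * (Aᴴ * B')) := by
      calc J' * A * (Aᴴ * J'ᴴ) * (J' * B') = J' * A * Aᴴ * (J'ᴴ * J') * B' := by
            simp only [Matrix.mul_assoc]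
        _ = J' * (A * (Aᴴ * B')) := by
            rw [hJ', Matrix.mul_one]
            simp only [Matrix.mul_assoc]
    simp only [Matrix.neg_mul, Matrix.sub_mul, Matrix.one_mul, Matrix.smul_mul, Matrix.mul_add,
      Matrix.mul_neg, Matrix.mul_smul, h1]
    abel
  rw [e4, e3]
  congr 1
  ext k u
  simp only [hA, hB', Matrix.add_apply, Matrix.neg_apply, Matrix.smul_apply, Matrix.mul_apply,
    Matrix.of_apply, smul_eq_mul, Finset.univ_unique, Finset.sum_singleton]
  split_ifs
  · push_cast; ring
  · push_cast; ring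

theorem QSamp_grover {Ω : Type} [Fintype Ω] [DecidableEq Ω] {q : ℕ}
    {μ : (ι → Bool) → Ω → ℝ} (h : QSamp Ω q μ) (G : Ω → Prop) [DecidablePred G] (j : ℕ) :
    QSamp Ω ((2 * j + 1) * q) (fun x ω =>
      (if G ω then (sc (∑ ω, if G ω then μ x ω else 0) j).1 ^ 2
        else (sc (∑ ω, if G ω then μ x ω else 0) j).2 ^ 2) * μ x ω) := by
  obtain ⟨K, _, _, ψ, out, ⟨W, _, _, V, J, J', hV, hJ, hJ', hVJ⟩, hμ⟩ := h
  have ha : ∀ x, (∑ ω, if G ω then μ x ω else 0) = ∑ k, if G (out k) then ‖ψ x k‖ ^ 2 else 0 := by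
    intro x
    have h1 : ∀ ω, (if G ω then μ x ω else 0) =
        ∑ k, if out k = ω then (if G (out k) then ‖ψ x k‖ ^ 2 else 0) else 0 := by
      intro ω
      by_cases hG : G ω
      · rw [if_pos hG, hμ]
        apply Finset.sum_congr rfl
        intro k _
        by_cases hk : out k = ω
        · simp [hk, hG]
        · simp [hk]
      · rw [if_neg hG]
        symm
        apply Finset.sum_eq_zero
        intro k _
        by_cases hk : out k = ω
        · simp [hk, hG]
        · simp [hk]
    rw [Finset.sum_congr rfl (fun ω _ => h1 ω), Finset.sum_comm]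
    apply Finset.sum_congr rfl
    intro k _
    simp
  have hψ : ∀ x, ∑ k, ‖ψ x k‖ ^ 2 = 1 := by
    intro x
    have hu := impl_unitary hV x
    rw [Matrix.mem_unitaryGroup_iff', Matrix.star_eq_conjTranspose] at hu
    have h1 : (V x * J)ᴴ * (V x * J) = 1 := by
      rw [Matrix.conjTranspose_mul]
      calc Jᴴ * (V x)ᴴ * (V x * J) = Jᴴ * ((V x)ᴴ * V x) * J := by simp only [Matrix.mul_assoc]
        _ = 1 := by rw [hu, Matrix.mul_one, hJ]
    rw [hVJ x, Matrix.conjTranspose_mul] at h1
    have h2 : (Matrix.of fun k (_ : Unit) => ψ x k)ᴴ * (Matrix.of fun k (_ : Unit) => ψ x k) =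
        (1 : Matrix Unit Unit ℂ) := by
      calc _ = (Matrix.of fun k (_ : Unit) => ψ x k)ᴴ * (J'ᴴ * J') *
          (Matrix.of fun k (_ : Unit) => ψ x k) := by rw [hJ', Matrix.mul_one]
        _ = 1 := by rw [← h1]; simp only [Matrix.mul_assoc]
    have h3 := congrFun (congrFun h2 ()) ()
    simp only [Matrix.mul_apply, Matrix.conjTranspose_apply, Matrix.of_apply,
      Matrix.one_apply_eq] at h3
    have h4 : ∀ k, star (ψ x k) * ψ x k = ((‖ψ x k‖ ^ 2 : ℝ) : ℂ) := by
      intro k
      rw [Complex.star_def, mul_comm, Complex.mul_conj, Complex.normSq_eq_norm_sq]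
    rw [Finset.sum_congr rfl (fun k _ => h4 k), ← Complex.ofReal_sum] at h3
    exact_mod_cast h3
  refine ⟨K, inferInstance, inferInstance, fun x k =>
    (((if G (out k) then (sc (∑ ω, if G ω then μ x ω else 0) j).1
      else (sc (∑ ω, if G ω then μ x ω else 0) j).2 : ℝ)) : ℂ) * ψ x k, out, ?_, ?_⟩
  · set D : Matrix (ι × Bool × W) (ι × Bool × W) ℂ := (1 - (2 : ℂ) •
      (J' * Matrix.diagonal (fun k => if G (out k) then (1 : ℂ) else 0) * J'ᴴ)) with hD
    have hDu : D ∈ Matrix.unitaryGroup (ι × Bool × W) ℂ := by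
      apply reflection_unitary
      · simp only [Matrix.conjTranspose_mul, Matrix.conjTranspose_conjTranspose,
          Matrix.diagonal_conjTranspose, Matrix.mul_assoc]
        congr 2
        congr 1
        funext k
        simp only [Pi.star_apply]
        split_ifs <;> simp
      · calc _ = J' * Matrix.diagonal (fun k => if G (out k) then (1 : ℂ) else 0) * (J'ᴴ * J') *
            Matrix.diagonal (fun k => if G (out k) then (1 : ℂ) else 0) * J'ᴴ := by
              simp only [Matrix.mul_assoc]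
          _ = _ := by
            rw [hJ', Matrix.mul_one, Matrix.mul_assoc J', Matrix.diagonal_mul_diagonal]
            congr 3
            funext k
            split_ifs <;> simp
    have hRu : (-(1 - (2 : ℂ) • (J * Jᴴ))) ∈ Matrix.unitaryGroup (ι × Bool × W) ℂ := by
      apply neg_unitary
      apply reflection_unitary
      · rw [Matrix.conjTranspose_mul, Matrix.conjTranspose_conjTranspose]
      · calc _ = J * (Jᴴ * J) * Jᴴ := by simp only [Matrix.mul_assoc]
          _ = _ := by rw [hJ, Matrix.mul_one]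
    -- the iterates
    have hVj : ∃ Vj : (ι → Bool) → Matrix (ι × Bool × W) (ι × Bool × W) ℂ,
        Impl W ((2 * j + 1) * q) Vj ∧ ∀ x, Vj x * J = J' * Matrix.of fun k (_ : Unit) =>
          (((if G (out k) then (sc (∑ ω, if G ω then μ x ω else 0) j).1
          else (sc (∑ ω, if G ω then μ x ω else 0) j).2 : ℝ)) : ℂ) * ψ x k := by
      induction j with
      | zero =>
        refine ⟨V, ?_, ?_⟩
        · have : (2 * 0 + 1) * q = q := by ring
          rw [this]; exact hV
        · intro x
          rw [hVJ x]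
          simp [sc]
      | succ j ih =>
        obtain ⟨Vj, hVj, hVjJ⟩ := ih
        refine ⟨fun x => V x * ((-(1 - (2 : ℂ) • (J * Jᴴ))) * ((V x)ᴴ * (D * Vj x))), ?_, ?_⟩
        · have h1 := impl_const_mul hVj D hDu
          have h2 := impl_mul h1 (impl_star hV)
          have h3 := impl_const_mul h2 _ hRu
          have h4 := impl_mul h3 hV
          have : (2 * (j + 1) + 1) * q = (2 * j + 1) * q + q + q := by ring
          rw [this]
          exact h4
        · intro x
          have := grover_matrix (V x) (impl_unitary hV x) J J' hJ' (ψ x) (hVJ x) (hψ x)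
            (fun k => G (out k)) (∑ ω, if G ω then μ x ω else 0)
            (sc (∑ ω, if G ω then μ x ω else 0) j).1 (sc (∑ ω, if G ω then μ x ω else 0) j).2
            (ha x)
          rw [← hVjJ x] at this
          have h5 : V x * ((-(1 - (2 : ℂ) • (J * Jᴴ))) * ((V x)ᴴ * (D * Vj x))) * J =
              V x * (-(1 - (2 : ℂ) • (J * Jᴴ))) * (V x)ᴴ * D * (Vj x * J) := by
            simp only [Matrix.mul_assoc]
          rw [h5, this]
          rfl
    obtain ⟨Vj, hVj, hVjJ⟩ := hVj
    exact ⟨W, inferInstance, inferInstance, Vj, J, J', hVj, hJ, hJ', hVjJ⟩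
  · intro x ω
    simp only
    rw [hμ, Finset.mul_sum]
    apply Finset.sum_congr rfl
    intro k _
    by_cases hk : out k = ω
    · subst hk
      simp only [if_true, norm_mul, mul_pow, Complex.norm_real, Real.norm_eq_abs, sq_abs]
      split_ifs <;> rfl
    · simp [hk]

end Amp

/-- T2 (Amp): amplitude amplification with a random number `< T` of iterations. The good set `G`
is a fixed set of outcomes. Within `G` (and within its complement) relative weights are kept. -/
theorem QSamp_amplify {ι : Type} [Fintype ι] [DecidableEq ι] [Nonempty ι] {Ω : Type} [Fintype Ω]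
    [DecidableEq Ω] {q : ℕ}
    {μ : (ι → Bool) → Ω → ℝ} (h : QSamp Ω q μ) (G : Ω → Prop) [DecidablePred G] (T : ℕ)
    (hT : 1 ≤ T) :
    ∃ ν : (ι → Bool) → Ω → ℝ, QSamp Ω ((2 * T + 1) * q) ν ∧ ∀ x, ∃ c c' : ℝ, 0 ≤ c ∧ 0 ≤ c' ∧
      (∀ ω, G ω → ν x ω = c * μ x ω) ∧ (∀ ω, ¬ G ω → ν x ω = c' * μ x ω) ∧
      ((1 : ℝ) / (T : ℝ) ^ 2 ≤ ∑ ω, (if G ω then μ x ω else 0) →
        (1 : ℝ) / 8 ≤ ∑ ω, (if G ω then ν x ω else 0)) := by
  have hTpos : (0 : ℝ) < T := by exact_mod_cast hT
  set a : (ι → Bool) → ℝ := fun x => ∑ ω, if G ω then μ x ω else 0 with ha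
  set νj : ℕ → (ι → Bool) → Ω → ℝ := fun j x ω =>
    (if G ω then (Amp.sc (a x) j).1 ^ 2 else (Amp.sc (a x) j).2 ^ 2) * μ x ω with hνj
  have hj : ∀ j, QSamp Ω ((2 * j + 1) * q) (νj j) := fun j => Amp.QSamp_grover h G j
  set idx : Option (Fin T) → ℕ := fun o => o.elim 0 (fun i => (i : ℕ)) with hidx
  set p : Option (Fin T) → ℝ := fun o => o.elim (1 / 2) (fun _ => 1 / (2 * T)) with hp
  have hp0 : ∀ o, 0 ≤ p o := by
    intro o
    cases o with
    | none => simp [hp]
    | some i => simp only [hp, Option.elim]; positivity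
  have hp1 : ∑ o, p o = 1 := by
    rw [Fintype.sum_option]
    simp only [hp, Option.elim, Finset.sum_const, Finset.card_univ, Fintype.card_fin, nsmul_eq_mul]
    field_simp
    norm_num
  have hbind := QSamp_bind (ι := ι) (QSamp_const p hp0 hp1)
    (q' := (2 * T + 1) * q) (ν := fun o => νj (idx o)) (by
      intro o
      apply QSamp_mono (hj (idx o))
      apply Nat.mul_le_mul_right
      cases o with
      | none => simp only [hidx, Option.elim]; omega
      | some i =>
        simp only [hidx, Option.elim]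
        have := i.2
        omega)
  rw [Nat.zero_add] at hbind
  refine ⟨_, hbind, ?_⟩
  intro x
  refine ⟨∑ o, p o * (Amp.sc (a x) (idx o)).1 ^ 2, ∑ o, p o * (Amp.sc (a x) (idx o)).2 ^ 2,
    Finset.sum_nonneg (fun o _ => mul_nonneg (hp0 o) (sq_nonneg _)),
    Finset.sum_nonneg (fun o _ => mul_nonneg (hp0 o) (sq_nonneg _)), ?_, ?_, ?_⟩
  · intro ω hω
    rw [Finset.sum_mul]
    apply Finset.sum_congr rfl
    intro o _
    simp only [hνj, if_pos hω]
    ring
  · intro ω hω
    rw [Finset.sum_mul]
    apply Finset.sum_congr rfl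
    intro o _
    simp only [hνj, if_neg hω]
    ring
  · intro hge
    have ha1 : a x ≤ 1 := by
      have h1 := QSamp_sum_one h x
      rw [← h1]
      apply Finset.sum_le_sum
      intro ω _
      split_ifs
      · exact le_rfl
      · exact QSamp_nonneg h x ω
    have key := Amp.grover_bound (a x) T hT hge ha1
    refine le_trans key (le_of_eq ?_)
    have h2 : ∀ ω, (if G ω then ∑ o, p o * νj (idx o) x ω else 0) =
        (∑ o, p o * (Amp.sc (a x) (idx o)).1 ^ 2) * (if G ω then μ x ω else 0) := by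
      intro ω
      split_ifs with hω
      · rw [Finset.sum_mul]
        apply Finset.sum_congr rfl
        intro o _
        simp only [hνj, if_pos hω]
        ring
      · simp
    have h3 : (∑ ω, if G ω then ∑ o, p o * νj (idx o) x ω else 0) =
        (∑ o, p o * (Amp.sc (a x) (idx o)).1 ^ 2) * a x := by
      rw [Finset.sum_congr rfl (fun ω _ => h2 ω), ← Finset.mul_sum]
    rw [h3, Fintype.sum_option]
    simp only [hp, hidx, Option.elim]
    rw [Fin.sum_univ_eq_sum_range (fun i => 1 / (2 * (T : ℝ)) * (Amp.sc (a x) i).1 ^ 2),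
      ← Finset.mul_sum, ← Finset.mul_sum]
    field_simp

end Crest.Agent.R350
private theorem rz_6873e163aa : type_of% @_root_.Crest.Agent.R350.Amp.sc.eq_def := @_root_.Crest.Agent.R350.Amp.sc.eq_def -- L121
private theorem rz_05cfbaa095 : type_of% @_root_.Crest.Agent.R350.Amp.sc.eq_1 := @_root_.Crest.Agent.R350.Amp.sc.eq_1 -- L121
end

-- ▼ part R350/Search
section

/-! Row 350, T4: abstract pointer search by halving (`abstract_search`). -/

set_option autoImplicit false

namespace Crest.Agent.R350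

open Finset Crest.MathPhysics.Query

/-! ### decision trees -/

section DT

variable {ι Ω Ω' Ω'' : Type}

theorem DTE.srMono' {d d' : ℕ} {f : (ι → Bool) → Ω} (h : DTE d f) (hd : d ≤ d') : DTE d' f := by
  induction h generalizing d' with
  | const d c => exact DTE.const d' c
  | ask d i f g hf hg ihf ihg =>
    obtain ⟨e, rfl⟩ : ∃ e, d' = e + 1 := ⟨d' - 1, by omega⟩
    exact DTE.ask e i f g (ihf (by omega)) (ihg (by omega))

theorem DTE.map' {d : ℕ} {f : (ι → Bool) → Ω} (h : DTE d f) (F : Ω → Ω') :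
    DTE d (fun x => F (f x)) := by
  induction h with
  | const d c => exact DTE.const d _
  | ask d i f g hf hg ihf ihg =>
    have := DTE.ask d i _ _ ihf ihg
    convert this using 1
    funext x; by_cases hx : x i <;> simp [hx]

theorem DTE.comp2' {d d' : ℕ} {f : (ι → Bool) → Ω} {f' : (ι → Bool) → Ω'} (h : DTE d f)
    (h' : DTE d' f') (F : Ω → Ω' → Ω'') : DTE (d + d') (fun x => F (f x) (f' x)) := by
  induction h with
  | const d c => exact (DTE.map' h' (F c)).srMono' (by omega)
  | ask d i f g hf hg ihf ihg =>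
    have := DTE.ask (d + d') i _ _ ihf ihg
    convert this using 1
    · omega
    · funext x; by_cases hx : x i <;> simp [hx]

theorem DTE.list_all' {α : Type} {g : ℕ} (f : α → (ι → Bool) → Bool) (hf : ∀ a, DTE g (f a))
    (l : List α) : DTE (l.length * g) (fun x => l.all (fun a => f a x)) := by
  induction l with
  | nil => exact DTE.const _ _
  | cons a l ih =>
    have := DTE.comp2' (hf a) ih (fun u v => u && v)
    convert this using 1
    · simp only [List.length_cons]; ring
    · funext x; simp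

end DT

section

variable {ι : Type} [Fintype ι] [DecidableEq ι] [Nonempty ι]

/-! ### combinators -/

omit [Nonempty ι] in
theorem QSamp_pair {Ω Ω' : Type} [Fintype Ω] [DecidableEq Ω] [Fintype Ω'] [DecidableEq Ω']
    {q q' : ℕ} {μ : (ι → Bool) → Ω → ℝ} {ν : Ω → (ι → Bool) → Ω' → ℝ}
    (hμ : QSamp Ω q μ) (hν : ∀ ω, QSamp Ω' q' (ν ω)) :
    QSamp (Ω × Ω') (q + q') (fun x p => μ x p.1 * ν p.1 x p.2) := by
  have h := QSamp_bind hμ (fun ω => QSamp_map (hν ω) (fun ω' => (ω, ω')))
  convert h using 1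
  funext x p
  obtain ⟨a, b⟩ := p
  rw [Finset.sum_eq_single a]
  · simp
  · intro c _ hc
    simp [hc]
  · simp

theorem QSamp_iid {Ω : Type} [Fintype Ω] [DecidableEq Ω] {q : ℕ} {μ : (ι → Bool) → Ω → ℝ}
    (hμ : QSamp Ω q μ) (s : ℕ) :
    QSamp (Fin s → Ω) (s * q) (fun x v => ∏ i, μ x (v i)) := by
  induction s with
  | zero =>
    have := QSamp_const (ι := ι) (Ω := Fin 0 → Ω) (fun _ => 1) (by simp) (by simp)
    simpa using this
  | succ s ih =>
    have h := QSamp_map (QSamp_pair hμ (fun _ => ih)) (fun p : Ω × (Fin s → Ω) =>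
      (Fin.cons p.1 p.2 : Fin (s + 1) → Ω))
    convert h using 1
    · ring
    · funext x v
      rw [Finset.sum_eq_single (v 0, fun i => v (Fin.succ i))]
      · have hc : (Fin.cons (v 0) (fun i => v (Fin.succ i)) : Fin (s + 1) → Ω) = v :=
          Fin.cons_self_tail v
        show _ = if (Fin.cons (v 0) (fun i => v (Fin.succ i)) : Fin (s + 1) → Ω) = v then
          μ x (v 0) * ∏ i : Fin s, μ x (v (Fin.succ i)) else 0
        rw [if_pos hc, Fin.prod_univ_succ]
      · rintro ⟨a, w⟩ _ hne
        rw [if_neg]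
        rintro rfl
        exact hne (by simp)
      · simp

theorem QSamp_unif (Ω : Type) [Fintype Ω] [DecidableEq Ω] [Nonempty Ω] :
    QSamp (ι := ι) Ω 0 (fun _ _ => 1 / (Fintype.card Ω : ℝ)) := by
  apply QSamp_const
  · intro ω; positivity
  · simp

/-- amplitude amplification for an `x`-dependent test. -/
theorem QSamp_ampTest {Ω : Type} [Fintype Ω] [DecidableEq Ω] {q d : ℕ}
    {μ : (ι → Bool) → Ω → ℝ} (h : QSamp Ω q μ) (P : Ω → (ι → Bool) → Bool)
    (hP : ∀ ω, DTE d (P ω)) (T : ℕ) (hT : 1 ≤ T) :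
    ∃ ν : (ι → Bool) → Ω × Bool → ℝ, QSamp (Ω × Bool) ((2 * T + 1) * (q + d)) ν ∧
      ∀ x, ∃ c c' : ℝ, 0 ≤ c ∧ 0 ≤ c' ∧
      (∀ ω, ν x (ω, true) = if P ω x = true then c * μ x ω else 0) ∧
      (∀ ω, ν x (ω, false) = if P ω x = true then 0 else c' * μ x ω) ∧
      ((1 : ℝ) / (T : ℝ) ^ 2 ≤ ∑ ω, (if P ω x = true then μ x ω else 0) →
        (1 : ℝ) / 8 ≤ ∑ ω, (if P ω x = true then c * μ x ω else 0)) := by
  have h1 := QSamp_pair h (fun ω => QSamp_ofDTE (hP ω))
  obtain ⟨ν, hν, hx⟩ := QSamp_amplify h1 (fun p : Ω × Bool => p.2 = true) T hT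
  refine ⟨ν, hν, fun x => ?_⟩
  obtain ⟨c, c', hc, hc', h2, h3, h4⟩ := hx x
  refine ⟨c, c', hc, hc', ?_, ?_, ?_⟩
  · intro ω
    rw [h2 (ω, true) rfl]
    by_cases hp : P ω x = true <;> simp [hp]
  · intro ω
    rw [h3 (ω, false) (by simp)]
    by_cases hp : P ω x = true <;> simp [hp]
  · intro h5
    have e1 : ∀ f : Ω × Bool → ℝ, ∑ p : Ω × Bool, (if p.2 = true then f p else 0)
        = ∑ ω, f (ω, true) := by
      intro f
      rw [Fintype.sum_prod_type]
      simp
    rw [e1, e1] at h4
    have e2 : ∀ ω, ν x (ω, true) = if P ω x = true then c * μ x ω else 0 := by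
      intro ω
      rw [h2 (ω, true) rfl]
      by_cases hp : P ω x = true <;> simp [hp]
    simp only [e2] at h4
    apply h4
    convert h5 using 2 with ω
    by_cases hp : P ω x = true <;> simp [hp]

/-! ### small facts on laws -/


omit [Nonempty ι] in
theorem QSamp_bool {q : ℕ} {μ : (ι → Bool) → Bool → ℝ}
    (h : QSamp Bool q μ) (x : ι → Bool) : μ x true + μ x false = 1 := by
  rw [← QSamp_sum_one h x]; simp

/-! ### verification of a certificate -/

theorem verify_one (C : Type) [Fintype C] [DecidableEq C] [Nonempty C] (g' : ℕ)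
    (chk : C → (ι → Bool) → Bool) (hchk : ∀ c, DTE g' (chk c)) (T' : ℕ)
    (hT' : Fintype.card C ≤ T' ^ 2) :
    ∃ w : (ι → Bool) → Bool → ℝ, QSamp Bool ((2 * T' + 1) * g') w ∧ ∀ x,
      ((∀ c, chk c x = true) → w x true = 1) ∧ ((¬ ∀ c, chk c x = true) → w x true ≤ 7 / 8) := by
  have hT1 : 1 ≤ T' := by
    rcases Nat.eq_zero_or_pos T' with h | h
    · subst h
      have := Fintype.card_pos (α := C)
      omega
    · exact h
  obtain ⟨ν, hν, hx⟩ := QSamp_ampTest (QSamp_unif (ι := ι) C) (fun c x => ! chk c x)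
    (fun c => (hchk c).map' (fun b => !b)) T' hT1
  have hm := QSamp_map hν (fun p => ! p.2)
  rw [Nat.zero_add] at hm
  refine ⟨_, hm, fun x => ?_⟩
  have hs := QSamp_bool hm x
  obtain ⟨c, c', hc, hc', h1, h2, h3⟩ := hx x
  have e1 : (∑ ω : C × Bool, if (!ω.2) = false then ν x ω else 0) = ∑ ω : C, ν x (ω, true) := by
    rw [Fintype.sum_prod_type]
    simp
  have e2 : ∀ b : Bool, (∑ ω : C × Bool, if (!ω.2) = b then ν x ω else 0) =
    ∑ ω : C × Bool, if (!ω.2) = b then ν x ω else 0 := fun _ => rfl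
  constructor
  · intro hall
    have h4 : ∑ ω : C, ν x (ω, true) = 0 := by
      apply Finset.sum_eq_zero
      intro ω _
      rw [h1 ω]
      simp [hall ω]
    linarith
  · intro hnot
    push Not at hnot
    obtain ⟨c0, hc0⟩ := hnot
    have h5 : (1 : ℝ) / (T' : ℝ) ^ 2 ≤ ∑ ω : C, (if (!chk ω x) = true then
        1 / (Fintype.card C : ℝ) else 0) := by
      have h6 : 1 / (Fintype.card C : ℝ) ≤ ∑ ω : C, (if (!chk ω x) = true then
          1 / (Fintype.card C : ℝ) else 0) := by
        have := Finset.single_le_sum (f := fun ω : C => (if (!chk ω x) = true then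
          1 / (Fintype.card C : ℝ) else 0)) (fun ω _ => by positivity) (Finset.mem_univ c0)
        simpa [hc0] using this
      refine le_trans ?_ h6
      have hC : (0 : ℝ) < Fintype.card C := by exact_mod_cast Fintype.card_pos
      apply one_div_le_one_div_of_le hC
      exact_mod_cast hT'
    have h7 := h3 h5
    have h8 : (1 : ℝ) / 8 ≤ ∑ ω : C, ν x (ω, true) := by
      simpa only [h1] using h7
    linarith

theorem verify_many (C : Type) [Fintype C] [DecidableEq C] [Nonempty C] (g' : ℕ)
    (chk : C → (ι → Bool) → Bool) (hchk : ∀ c, DTE g' (chk c)) (T' : ℕ)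
    (hT' : Fintype.card C ≤ T' ^ 2) :
    ∃ w : (ι → Bool) → Bool → ℝ, QSamp Bool (40 * ((2 * T' + 1) * g')) w ∧ ∀ x,
      ((∀ c, chk c x = true) → w x true = 1) ∧
      ((¬ ∀ c, chk c x = true) → w x true ≤ (7 / 8) ^ 40) := by
  obtain ⟨w, hw, hx⟩ := verify_one C g' chk hchk T' hT'
  have hm := QSamp_map (QSamp_iid hw 40) (fun v : Fin 40 → Bool => decide (∀ i, v i = true))
  refine ⟨_, hm, fun x => ?_⟩
  have e : (∑ v : Fin 40 → Bool, if decide (∀ i, v i = true) = true then ∏ i, w x (v i) else 0)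
      = (w x true) ^ 40 := by
    rw [Finset.sum_eq_single (fun _ => true)]
    · simp
    · intro v _ hv
      rw [if_neg]
      simp only [decide_eq_true_eq]
      intro h
      exact hv (funext h)
    · simp
  have h0 := QSamp_nonneg hw x true
  obtain ⟨h1, h2⟩ := hx x
  constructor
  · intro hall
    show (∑ v : Fin 40 → Bool, if decide (∀ i, v i = true) = true then ∏ i, w x (v i) else 0) = 1
    rw [e, h1 hall, one_pow]
  · intro hnot
    show (∑ v : Fin 40 → Bool, if decide (∀ i, v i = true) = true then ∏ i, w x (v i) else 0) ≤ _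
    rw [e]
    exact pow_le_pow_left₀ h0 (h2 hnot) 40

/-- repeat 40 times and take the OR. -/
theorem repeat_or {q : ℕ} {w : (ι → Bool) → Bool → ℝ} (hw : QSamp Bool q w) :
    ∃ μ : (ι → Bool) → Bool → ℝ, QSamp Bool (40 * q) μ ∧ ∀ x,
      ((1 : ℝ) / 32 ≤ w x true → 2 / 3 ≤ μ x true) ∧
      (w x true ≤ (7 / 8) ^ 40 → 2 / 3 ≤ μ x false) := by
  have hm := QSamp_map (QSamp_iid hw 40) (fun v : Fin 40 → Bool => !decide (∀ i, v i = false))
  refine ⟨_, hm, fun x => ?_⟩
  have e : (∑ v : Fin 40 → Bool, if (!decide (∀ i, v i = false)) = false then ∏ i, w x (v i)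
      else 0) = (w x false) ^ 40 := by
    rw [Finset.sum_eq_single (fun _ => false)]
    · simp
    · intro v _ hv
      rw [if_neg]
      simp only [Bool.not_eq_false', decide_eq_true_eq]
      intro h
      exact hv (funext h)
    · simp
  have hs := QSamp_bool hm x
  have hb := QSamp_bool hw x
  have h0 := QSamp_nonneg hw x false
  have h0' := QSamp_nonneg hw x true
  constructor
  · intro h
    have h1 : (w x false) ^ 40 ≤ (31 / 32) ^ 40 := pow_le_pow_left₀ h0 (by linarith) 40
    have h2 : ((31 : ℝ) / 32) ^ 40 ≤ 1 / 3 := by norm_num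
    linarith
  · intro h
    have h1 : (1 : ℝ) + (40 : ℕ) * (-(w x true)) ≤ (1 + -(w x true)) ^ 40 :=
      one_add_mul_le_pow (by linarith) 40
    have h2 : (1 + -(w x true)) = w x false := by linarith
    rw [h2] at h1
    have h3 : ((7 : ℝ) / 8) ^ 40 ≤ 1 / 120 := by norm_num
    push_cast at h1
    have h4 : (2 : ℝ) / 3 ≤ (w x false) ^ 40 := by linarith
    rw [← e] at h4
    exact h4

/-! ### candidates -/

variable {N Kp : Type} [Fintype N] [DecidableEq N] [Fintype Kp] [DecidableEq Kp]

omit [Fintype ι] [DecidableEq ι] [Nonempty ι] [Fintype N] [DecidableEq N] [Fintype Kp]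
  [DecidableEq Kp] in
/-- surviving candidates: not refuted by any champion of the list. -/
def surv (ref : N → Kp → N → (ι → Bool) → Bool) (l : List (N × Kp)) (x : ι → Bool) (j : N) : Bool :=
  l.all (fun p => ! ref p.1 p.2 j x)

/-- number of surviving candidates -/
def nsurv (ref : N → Kp → N → (ι → Bool) → Bool) (l : List (N × Kp)) (x : ι → Bool) : ℕ :=
  (Finset.univ.filter (fun j => surv ref l x j = true)).card

/-- the champion `p` passes the sample `v`. -/
def pass (ref : N → Kp → N → (ι → Bool) → Bool) {s : ℕ} (v : Fin s → N) (p : N × Kp)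
    (x : ι → Bool) : Bool :=
  (List.ofFn v).all (fun j => decide (j = p.1) || ref p.1 p.2 j x)

omit [Fintype ι] [DecidableEq ι] [Nonempty ι] [Fintype N] [DecidableEq N] [Fintype Kp]
  [DecidableEq Kp] in
theorem surv_cons (ref : N → Kp → N → (ι → Bool) → Bool) (l : List (N × Kp)) (p : N × Kp)
    (x : ι → Bool) (j : N) :
    surv ref (p :: l) x j = true ↔ ref p.1 p.2 j x = false ∧ surv ref l x j = true := by
  simp [surv]

omit [Fintype ι] [DecidableEq ι] [Nonempty ι] [Fintype N] [Fintype Kp]
  [DecidableEq Kp] in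
theorem pass_iff (ref : N → Kp → N → (ι → Bool) → Bool) {s : ℕ} (v : Fin s → N) (p : N × Kp)
    (x : ι → Bool) :
    pass ref v p x = true ↔ ∀ i, v i = p.1 ∨ ref p.1 p.2 (v i) x = true := by
  unfold pass
  rw [List.all_eq_true]
  constructor
  · intro h i
    have := h (v i) (List.mem_ofFn.2 ⟨i, rfl⟩)
    simpa using this
  · intro h j hj
    obtain ⟨i, rfl⟩ := List.mem_ofFn.1 hj
    simpa using h i

omit [Fintype Kp] [DecidableEq Kp] in
theorem sample_one [Nonempty N] (g : ℕ) (ref : N → Kp → N → (ι → Bool) → Bool)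
    (href : ∀ b κ j, DTE g (ref b κ j)) (T R : ℕ) (hT : 2 * Fintype.card N ≤ T ^ 2)
    (l : List (N × Kp)) (hl : l.length ≤ R) :
    ∃ σ : (ι → Bool) → N → ℝ, QSamp N ((2 * T + 1) * (R * g)) σ ∧ ∀ x,
      (∃ j, surv ref l x j = true) →
      ∀ j, surv ref l x j = true → 1 / (8 * (nsurv ref l x : ℝ)) ≤ σ x j := by
  have hN : 0 < Fintype.card N := Fintype.card_pos
  have hT1 : 1 ≤ T := by
    rcases Nat.eq_zero_or_pos T with h | h
    · subst h; omega
    · exact h
  have hP : ∀ j : N, DTE (R * g) (fun x => surv ref l x j) := by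
    intro j
    have h := DTE.list_all' (g := g) (fun (p : N × Kp) (x : ι → Bool) => ! ref p.1 p.2 j x)
      (fun p => (href p.1 p.2 j).map' (fun b => !b)) l
    exact h.srMono' (Nat.mul_le_mul_right g hl)
  obtain ⟨ν, hν, hx⟩ := QSamp_ampTest (QSamp_unif (ι := ι) N) (fun j x => surv ref l x j) hP T hT1
  have hm := QSamp_map hν Prod.fst
  rw [Nat.zero_add] at hm
  refine ⟨_, hm, fun x hex j hj => ?_⟩
  obtain ⟨c, c', hc, hc', h1, h2, h3⟩ := hx x
  obtain ⟨j0, hj0⟩ := hex
  have hNpos : (0 : ℝ) < Fintype.card N := by exact_mod_cast hN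
  have hA : 0 < nsurv ref l x :=
    Finset.card_pos.2 ⟨j0, Finset.mem_filter.2 ⟨Finset.mem_univ _, hj0⟩⟩
  have hA' : (1 : ℝ) ≤ nsurv ref l x := by exact_mod_cast hA
  have hsum : ∀ y : ℝ, (∑ ω : N, (if surv ref l x ω = true then y else 0))
      = (nsurv ref l x : ℝ) * y := by
    intro y
    rw [← Finset.sum_filter, Finset.sum_const, nsmul_eq_mul]
    rfl
  rw [hsum, hsum] at h3
  have h4 : (1 : ℝ) / (T : ℝ) ^ 2 ≤ (nsurv ref l x : ℝ) * (1 / (Fintype.card N : ℝ)) := by
    have hT2 : (Fintype.card N : ℝ) ≤ (T : ℝ) ^ 2 := by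
      have : Fintype.card N ≤ T ^ 2 := by omega
      exact_mod_cast this
    calc (1 : ℝ) / (T : ℝ) ^ 2 ≤ 1 / (Fintype.card N : ℝ) := one_div_le_one_div_of_le hNpos hT2
      _ = 1 * (1 / (Fintype.card N : ℝ)) := by ring
      _ ≤ _ := by gcongr
  have h5 := h3 h4
  have h6 : ν x (j, true) ≤ ∑ ω : N × Bool, if ω.1 = j then ν x ω else 0 := by
    have := Finset.single_le_sum (f := fun ω : N × Bool => if ω.1 = j then ν x ω else 0)
      (fun ω _ => by
        show 0 ≤ (if ω.1 = j then ν x ω else 0)
        split_ifs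
        · exact QSamp_nonneg hν x ω
        · exact le_rfl) (Finset.mem_univ (j, true))
    simpa using this
  refine le_trans ?_ h6
  rw [h1 j, if_pos hj]
  rw [div_le_iff₀ (by positivity)]
  have : c * (1 / (Fintype.card N : ℝ)) * (8 * (nsurv ref l x : ℝ))
    = 8 * ((nsurv ref l x : ℝ) * (c * (1 / (Fintype.card N : ℝ)))) := by ring
  rw [this]
  linarith

theorem champion [Nonempty N] (g qd : ℕ) (ref : N → Kp → N → (ι → Bool) → Bool)
    (href : ∀ b κ j, DTE g (ref b κ j)) (dec : N → (ι → Bool) → Kp → ℝ)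
    (hdec : ∀ b, QSamp Kp qd (dec b)) (T : ℕ) (hT : 2 * Fintype.card N ≤ T ^ 2) {s : ℕ}
    (v : Fin s → N) :
    ∃ ρ : (ι → Bool) → N × Kp → ℝ, QSamp (N × Kp) ((2 * T + 1) * (qd + s * g)) ρ ∧ ∀ x,
      (∃ b κ, 1 / 2 ≤ dec b x κ ∧ ∀ j, j ≠ b → ref b κ j x = true) →
        1 / 8 ≤ ∑ p, if pass ref v p x = true then ρ x p else 0 := by
  have hN : 0 < Fintype.card N := Fintype.card_pos
  have hT1 : 1 ≤ T := by
    rcases Nat.eq_zero_or_pos T with h | h
    · subst h; omega
    · exact h
  have hP : ∀ p : N × Kp, DTE (s * g) (fun x : ι → Bool => pass ref v p x) := by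
    intro p
    have h := DTE.list_all' (g := g) (fun (j : N) (x : ι → Bool) =>
      decide (j = p.1) || ref p.1 p.2 j x)
      (fun j => (href p.1 p.2 j).map' (fun b => decide (j = p.1) || b)) (List.ofFn v)
    rw [List.length_ofFn] at h
    exact h
  have hbase := QSamp_pair (QSamp_unif (ι := ι) N) hdec
  obtain ⟨ν, hν, hx⟩ := QSamp_ampTest hbase (fun p x => pass ref v p x) hP T hT1
  have hm := QSamp_map hν Prod.fst
  rw [Nat.zero_add] at hm
  refine ⟨_, hm, fun x hex => ?_⟩
  obtain ⟨c, c', hc, hc', h1, h2, h3⟩ := hx x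
  obtain ⟨b, κ, hd, hr⟩ := hex
  have hNpos : (0 : ℝ) < Fintype.card N := by exact_mod_cast hN
  have hnn : ∀ p : N × Kp, 0 ≤ 1 / (Fintype.card N : ℝ) * dec p.1 x p.2 := fun p =>
    mul_nonneg (by positivity) (QSamp_nonneg (hdec p.1) x p.2)
  have hpass : pass ref v (b, κ) x = true := by
    rw [pass_iff]
    intro i
    by_cases h : v i = b
    · exact Or.inl h
    · exact Or.inr (hr _ h)
  have h4 : (1 : ℝ) / (T : ℝ) ^ 2 ≤ ∑ p : N × Kp, (if pass ref v p x = true then
      1 / (Fintype.card N : ℝ) * dec p.1 x p.2 else 0) := by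
    have h5 := Finset.single_le_sum (f := fun p : N × Kp => (if pass ref v p x = true then
      1 / (Fintype.card N : ℝ) * dec p.1 x p.2 else 0)) (fun p _ => by
        show 0 ≤ (if pass ref v p x = true then 1 / (Fintype.card N : ℝ) * dec p.1 x p.2 else 0)
        split_ifs
        · exact hnn p
        · exact le_rfl) (Finset.mem_univ (b, κ))
    refine le_trans ?_ h5
    show _ ≤ if pass ref v (b, κ) x = true then 1 / (Fintype.card N : ℝ) * dec b x κ else 0
    rw [if_pos hpass]
    have hT2 : 2 * (Fintype.card N : ℝ) ≤ (T : ℝ) ^ 2 := by exact_mod_cast hT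
    calc (1 : ℝ) / (T : ℝ) ^ 2 ≤ 1 / (2 * (Fintype.card N : ℝ)) :=
          one_div_le_one_div_of_le (by positivity) hT2
      _ = 1 / (Fintype.card N : ℝ) * (1 / 2) := by ring
      _ ≤ _ := by gcongr
  refine le_trans (h3 h4) ?_
  apply Finset.sum_le_sum
  intro p _
  split_ifs with hp
  · have h6 : ν x (p, true) ≤ ∑ ω : (N × Kp) × Bool, if ω.1 = p then ν x ω else 0 := by
      have := Finset.single_le_sum (f := fun ω : (N × Kp) × Bool => if ω.1 = p then ν x ω else 0)
        (fun ω _ => by
          show 0 ≤ (if ω.1 = p then ν x ω else 0)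
          split_ifs
          · exact QSamp_nonneg hν x ω
          · exact le_rfl) (Finset.mem_univ (p, true))
      simpa using this
    refine le_trans ?_ h6
    rw [h1 p, if_pos hp]
  · exact le_rfl

omit [Fintype ι] [DecidableEq ι] [Nonempty ι] [DecidableEq N] [Fintype Kp]
  [DecidableEq Kp] in
theorem nsurv_cons_le (ref : N → Kp → N → (ι → Bool) → Bool) (l : List (N × Kp)) (p : N × Kp)
    (x : ι → Bool) : nsurv ref (p :: l) x ≤ nsurv ref l x := by
  classical
  unfold nsurv
  apply Finset.card_le_card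
  intro j hj
  rw [Finset.mem_filter] at hj ⊢
  exact ⟨hj.1, ((surv_cons ref l p x j).1 hj.2).2⟩

/-- candidates that the champion `p` fails to refute. -/
def missed (ref : N → Kp → N → (ι → Bool) → Bool) (l : List (N × Kp)) (p : N × Kp)
    (x : ι → Bool) : Finset N :=
  Finset.univ.filter (fun j => surv ref l x j = true ∧ j ≠ p.1 ∧ ref p.1 p.2 j x = false)

omit [Fintype ι] [DecidableEq ι] [Nonempty ι] [Fintype Kp] [DecidableEq Kp] in
theorem nsurv_cons_le_missed (ref : N → Kp → N → (ι → Bool) → Bool) (l : List (N × Kp))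
    (p : N × Kp) (x : ι → Bool) : nsurv ref (p :: l) x ≤ (missed ref l p x).card + 1 := by
  have h : Finset.univ.filter (fun j => surv ref (p :: l) x j = true) ⊆
      insert p.1 (missed ref l p x) := by
    intro j hj
    rw [Finset.mem_filter, surv_cons] at hj
    rw [Finset.mem_insert]
    by_cases hjp : j = p.1
    · exact Or.inl hjp
    · exact Or.inr (Finset.mem_filter.2 ⟨Finset.mem_univ _, hj.2.2, hjp, hj.2.1⟩)
  exact (Finset.card_le_card h).trans (Finset.card_insert_le _ _)

omit [Fintype ι] [DecidableEq ι] [Nonempty ι] [DecidableEq Kp] in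
theorem halving_step (ref : N → Kp → N → (ι → Bool) → Bool) (l : List (N × Kp)) (x : ι → Bool)
    (b : N) (hb : ∀ b' κ', ref b' κ' b x = false) (σ : N → ℝ) (hσ0 : ∀ j, 0 ≤ σ j)
    (hσ1 : ∑ j, σ j = 1)
    (hσ : ∀ j, surv ref l x j = true → 1 / (8 * (nsurv ref l x : ℝ)) ≤ σ j) (s : ℕ)
    (hs : (Fintype.card N : ℝ) * Fintype.card Kp * (23 / 24) ^ s ≤ 1 / 2)
    (ρ : (Fin s → N) → N × Kp → ℝ) (hρ0 : ∀ v p, 0 ≤ ρ v p) (hρ1 : ∀ v, ∑ p, ρ v p = 1)
    (hρ : ∀ v, 1 / 8 ≤ ∑ p, if pass ref v p x = true then ρ v p else 0) :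
    ∑ v, (∏ i, σ (v i)) * ∑ p, ρ v p * ((nsurv ref (p :: l) x : ℝ) - 1)
      ≤ 47 / 48 * ((nsurv ref l x : ℝ) - 1) := by
  classical
  set A : ℝ := (nsurv ref l x : ℝ) with hA
  have hbs : surv ref l x b = true := by
    unfold surv
    rw [List.all_eq_true]
    intro p _
    simp [hb]
  have hA0 : 0 < nsurv ref l x :=
    Finset.card_pos.2 ⟨b, Finset.mem_filter.2 ⟨Finset.mem_univ _, hbs⟩⟩
  have hA1 : 1 ≤ A := by rw [hA]; exact_mod_cast hA0
  -- bad champions
  let bad : N × Kp → Prop := fun p => A / 3 < ((missed ref l p x).card : ℝ)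
  let typ : (Fin s → N) → Prop := fun v => ∀ p, bad p → pass ref v p x = false
  have hnotbad : ∀ p, ¬ bad p → (nsurv ref (p :: l) x : ℝ) - 1 ≤ 2 / 3 * (A - 1) := by
    intro p hp
    have h1 : (nsurv ref (p :: l) x : ℝ) ≤ ((missed ref l p x).card : ℝ) + 1 := by
      exact_mod_cast nsurv_cons_le_missed ref l p x
    have h2 : ((missed ref l p x).card : ℝ) ≤ A / 3 := not_lt.1 hp
    have h3 : (nsurv ref (p :: l) x : ℝ) ≤ A := by
      rw [hA]; exact_mod_cast nsurv_cons_le ref l p x
    rcases Nat.lt_or_ge (nsurv ref l x) 2 with h4 | h4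
    · have h5 : nsurv ref l x = 1 := by omega
      have h6 : A = 1 := by rw [hA, h5]; norm_num
      rw [h6] at h3 ⊢
      linarith
    · have h5 : (2 : ℝ) ≤ A := by rw [hA]; exact_mod_cast h4
      linarith
  have hall : ∀ p, (nsurv ref (p :: l) x : ℝ) - 1 ≤ A - 1 := by
    intro p
    have h3 : (nsurv ref (p :: l) x : ℝ) ≤ A := by
      rw [hA]; exact_mod_cast nsurv_cons_le ref l p x
    linarith
  -- typical samples
  have htyp : ∀ v, typ v → ∑ p, ρ v p * ((nsurv ref (p :: l) x : ℝ) - 1) ≤ 23 / 24 * (A - 1) := by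
    intro v hv
    have h1 : ∀ p, ρ v p * ((nsurv ref (p :: l) x : ℝ) - 1) ≤
        ρ v p * (A - 1) - 1 / 3 * (A - 1) * (if pass ref v p x = true then ρ v p else 0) := by
      intro p
      split_ifs with hp
      · have hnb : ¬ bad p := by
          intro hbad
          have := hv p hbad
          rw [hp] at this
          exact absurd this (by simp)
        have := mul_le_mul_of_nonneg_left (hnotbad p hnb) (hρ0 v p)
        linarith
      · have := mul_le_mul_of_nonneg_left (hall p) (hρ0 v p)
        linarith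
    calc ∑ p, ρ v p * ((nsurv ref (p :: l) x : ℝ) - 1)
        ≤ ∑ p, (ρ v p * (A - 1) - 1 / 3 * (A - 1) *
            (if pass ref v p x = true then ρ v p else 0)) := Finset.sum_le_sum (fun p _ => h1 p)
      _ = (A - 1) - 1 / 3 * (A - 1) * ∑ p, (if pass ref v p x = true then ρ v p else 0) := by
          rw [Finset.sum_sub_distrib, ← Finset.sum_mul, hρ1, ← Finset.mul_sum]
          ring
      _ ≤ 23 / 24 * (A - 1) := by
          have := mul_le_mul_of_nonneg_left (hρ v) (by linarith : 0 ≤ 1 / 3 * (A - 1))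
          linarith
  have hany : ∀ v, ∑ p, ρ v p * ((nsurv ref (p :: l) x : ℝ) - 1) ≤ A - 1 := by
    intro v
    calc ∑ p, ρ v p * ((nsurv ref (p :: l) x : ℝ) - 1) ≤ ∑ p, ρ v p * (A - 1) :=
          Finset.sum_le_sum (fun p _ => mul_le_mul_of_nonneg_left (hall p) (hρ0 v p))
      _ = A - 1 := by rw [← Finset.sum_mul, hρ1, one_mul]
  -- probability of atypical samples
  have hprod0 : ∀ v : Fin s → N, 0 ≤ ∏ i, σ (v i) := fun v => Finset.prod_nonneg (fun i _ => hσ0 _)
  have hprod1 : ∑ v : Fin s → N, ∏ i, σ (v i) = 1 := by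
    rw [← Fintype.sum_pow, hσ1, one_pow]
  have hbadp : ∀ p, bad p → ∑ v : Fin s → N, (if pass ref v p x = true then ∏ i, σ (v i) else 0)
      ≤ (23 / 24) ^ s := by
    intro p hp
    let τ : N → ℝ := fun j => if j ∈ missed ref l p x then 0 else σ j
    have hτ0 : ∀ j, 0 ≤ τ j := by
      intro j
      show 0 ≤ if j ∈ missed ref l p x then 0 else σ j
      split_ifs
      · exact le_rfl
      · exact hσ0 j
    have h1 : ∀ v : Fin s → N, (if pass ref v p x = true then ∏ i, σ (v i) else 0)
        ≤ ∏ i, τ (v i) := by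
      intro v
      split_ifs with hv
      · rw [pass_iff] at hv
        apply le_of_eq
        apply Finset.prod_congr rfl
        intro i _
        show σ (v i) = if v i ∈ missed ref l p x then 0 else σ (v i)
        rw [if_neg]
        intro hmem
        obtain ⟨_, h2, h3, h4⟩ := Finset.mem_filter.1 hmem
        rcases hv i with h5 | h5
        · exact h3 h5
        · rw [h4] at h5; exact absurd h5 (by simp)
      · exact Finset.prod_nonneg (fun i _ => hτ0 _)
    refine le_trans (Finset.sum_le_sum (fun v _ => h1 v)) ?_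
    rw [← Fintype.sum_pow]
    apply pow_le_pow_left₀ (Finset.sum_nonneg (fun j _ => hτ0 j))
    have h2 : ∑ j, τ j = 1 - ∑ j ∈ missed ref l p x, σ j := by
      have h3 : ∑ j, τ j + ∑ j ∈ missed ref l p x, σ j = ∑ j, σ j := by
        have : ∑ j ∈ missed ref l p x, σ j = ∑ j, (if j ∈ missed ref l p x then σ j else 0) := by
          rw [← Finset.sum_filter]; congr 1; ext j; simp
        rw [this, ← Finset.sum_add_distrib]
        apply Finset.sum_congr rfl
        intro j _
        show (if j ∈ missed ref l p x then 0 else σ j) + _ = _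
        split_ifs <;> simp
      linarith
    have h3 : ((missed ref l p x).card : ℝ) * (1 / (8 * A)) ≤ ∑ j ∈ missed ref l p x, σ j := by
      rw [← nsmul_eq_mul]
      apply Finset.card_nsmul_le_sum
      intro j hj
      exact hσ j (Finset.mem_filter.1 hj).2.1
    have h4 : (1 : ℝ) / 24 ≤ ((missed ref l p x).card : ℝ) * (1 / (8 * A)) := by
      have h5 : A / 3 * (1 / (8 * A)) ≤ ((missed ref l p x).card : ℝ) * (1 / (8 * A)) := by
        apply mul_le_mul_of_nonneg_right hp.le
        positivity
      have h6 : A / 3 * (1 / (8 * A)) = 1 / 24 := by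
        field_simp
        norm_num
      linarith
    linarith
  have hatyp : ∑ v : Fin s → N, (if typ v then 0 else ∏ i, σ (v i)) ≤ 1 / 2 := by
    have h1 : ∀ v : Fin s → N, (if typ v then 0 else ∏ i, σ (v i)) ≤
        ∑ p, (if bad p then (if pass ref v p x = true then ∏ i, σ (v i) else 0) else 0) := by
      intro v
      have hnn : ∀ p ∈ (Finset.univ : Finset (N × Kp)),
          0 ≤ (if bad p then (if pass ref v p x = true then ∏ i, σ (v i) else 0) else 0) := by
        intro p _
        split_ifs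
        · exact hprod0 v
        · exact le_rfl
        · exact le_rfl
      split_ifs with hv
      · exact Finset.sum_nonneg hnn
      · have : ∃ p, bad p ∧ pass ref v p x = true := by
          by_contra hcon
          push Not at hcon
          exact hv (fun p hp => by simpa using hcon p hp)
        obtain ⟨p, hp, hpp⟩ := this
        have h2 := Finset.single_le_sum hnn (Finset.mem_univ p)
        rw [if_pos hp, if_pos hpp] at h2
        exact h2
    calc ∑ v : Fin s → N, (if typ v then 0 else ∏ i, σ (v i))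
        ≤ ∑ v : Fin s → N, ∑ p, (if bad p then (if pass ref v p x = true then ∏ i, σ (v i)
            else 0) else 0) := Finset.sum_le_sum (fun v _ => h1 v)
      _ = ∑ p, ∑ v : Fin s → N, (if bad p then (if pass ref v p x = true then ∏ i, σ (v i)
            else 0) else 0) := Finset.sum_comm
      _ ≤ ∑ p : N × Kp, (23 / 24 : ℝ) ^ s := by
          apply Finset.sum_le_sum
          intro p _
          by_cases hp : bad p
          · simp only [if_pos hp]
            exact hbadp p hp
          · simp only [if_neg hp, Finset.sum_const_zero]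
            positivity
      _ = (Fintype.card N : ℝ) * Fintype.card Kp * (23 / 24) ^ s := by
          rw [Finset.sum_const, nsmul_eq_mul, Finset.card_univ, Fintype.card_prod]
          push_cast
          ring
      _ ≤ 1 / 2 := hs
  -- conclusion
  have hfin : ∀ v : Fin s → N, (∏ i, σ (v i)) * ∑ p, ρ v p * ((nsurv ref (p :: l) x : ℝ) - 1) ≤
      23 / 24 * (A - 1) * (∏ i, σ (v i)) + 1 / 24 * (A - 1) *
        (if typ v then 0 else ∏ i, σ (v i)) := by
    intro v
    split_ifs with hv
    · have := mul_le_mul_of_nonneg_left (htyp v hv) (hprod0 v)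
      linarith
    · have := mul_le_mul_of_nonneg_left (hany v) (hprod0 v)
      linarith
  calc ∑ v, (∏ i, σ (v i)) * ∑ p, ρ v p * ((nsurv ref (p :: l) x : ℝ) - 1)
      ≤ ∑ v : Fin s → N, (23 / 24 * (A - 1) * (∏ i, σ (v i)) + 1 / 24 * (A - 1) *
        (if typ v then 0 else ∏ i, σ (v i))) := Finset.sum_le_sum (fun v _ => hfin v)
    _ = 23 / 24 * (A - 1) + 1 / 24 * (A - 1) *
        ∑ v : Fin s → N, (if typ v then 0 else ∏ i, σ (v i)) := by
        rw [Finset.sum_add_distrib, ← Finset.mul_sum, ← Finset.mul_sum, hprod1, mul_one]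
    _ ≤ 47 / 48 * (A - 1) := by
        have := mul_le_mul_of_nonneg_left hatyp (by linarith : 0 ≤ 1 / 24 * (A - 1))
        linarith

/-! ### one trial -/

theorem trial {C : Type} [Fintype C] [DecidableEq C] [Nonempty N] [Nonempty Kp] [Nonempty C]
    (g g' qd : ℕ)
    (ref : N → Kp → N → (ι → Bool) → Bool) (href : ∀ b κ j, DTE g (ref b κ j))
    (chk : N → Kp → C → (ι → Bool) → Bool) (hchk : ∀ b κ c, DTE g' (chk b κ c))
    (dec : N → (ι → Bool) → Kp → ℝ) (hdec : ∀ b, QSamp Kp qd (dec b))
    (h1 : ∀ x b κ, (∀ c, chk b κ c x = true) → 1 / 2 ≤ dec b x κ)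
    (h2 : ∀ x b κ, (∀ c, chk b κ c x = true) → ∀ j, j ≠ b → ref b κ j x = true)
    (h3 : ∀ x b κ, (∀ c, chk b κ c x = true) → ∀ b' κ', ref b' κ' b x = false)
    (T T' R s : ℕ) (hT : 2 * Fintype.card N ≤ T ^ 2) (hT' : Fintype.card C ≤ T' ^ 2)
    (hs : (Fintype.card N : ℝ) * Fintype.card Kp * (23 / 24) ^ s ≤ 1 / 2) (m : ℕ) :
    ∀ l : List (N × Kp), l.length + m ≤ R → ∃ μ : (ι → Bool) → Bool → ℝ,
      QSamp Bool (m * (s * ((2 * T + 1) * (R * g)) + (2 * T + 1) * (qd + s * g)) +
        ((2 * T + 1) * (R * g) + qd + 40 * ((2 * T' + 1) * g'))) μ ∧ ∀ x,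
        ((¬ ∃ b κ, ∀ c, chk b κ c x = true) → μ x true ≤ (7 / 8) ^ 40) ∧
        ((∃ b κ, ∀ c, chk b κ c x = true) →
          1 / 16 * (1 - (47 / 48) ^ m * ((nsurv ref l x : ℝ) - 1)) ≤ μ x true) := by
  have hsv : ∀ (l : List (N × Kp)) (x : ι → Bool) (b : N), (∀ b' κ', ref b' κ' b x = false) →
      surv ref l x b = true := by
    intro l x b hb
    unfold surv
    rw [List.all_eq_true]
    intro p _
    simp [hb]
  induction m with
  | zero =>
    intro l hl
    obtain ⟨σ, hσ, hσx⟩ := sample_one g ref href T R hT l (by omega)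
    choose w hw hwx using fun p : N × Kp => verify_many C g' (chk p.1 p.2) (hchk p.1 p.2) T' hT'
    have hpair := QSamp_pair hσ hdec
    have hfin := QSamp_bind hpair hw
    rw [Nat.zero_mul, Nat.zero_add]
    refine ⟨_, hfin, fun x => ⟨?_, ?_⟩⟩
    · intro hno
      have hle : ∀ p : N × Kp, w p x true ≤ (7 / 8) ^ 40 := by
        intro p
        apply (hwx p x).2
        intro hall
        exact hno ⟨p.1, p.2, hall⟩
      calc ∑ p : N × Kp, σ x p.1 * dec p.1 x p.2 * w p x true
          ≤ ∑ p : N × Kp, σ x p.1 * dec p.1 x p.2 * (7 / 8) ^ 40 := by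
            apply Finset.sum_le_sum
            intro p _
            exact mul_le_mul_of_nonneg_left (hle p)
              (mul_nonneg (QSamp_nonneg hσ x _) (QSamp_nonneg (hdec _) x _))
        _ = (7 / 8) ^ 40 := by
            rw [← Finset.sum_mul, QSamp_sum_one hpair x, one_mul]
    · rintro ⟨b, κ, hv⟩
      have hb := h3 x b κ hv
      have hbs := hsv l x b hb
      have hσb := hσx x ⟨b, hbs⟩ b hbs
      have hd := h1 x b κ hv
      have hwb : w (b, κ) x true = 1 := (hwx (b, κ) x).1 hv
      have hnn : ∀ p ∈ (Finset.univ : Finset (N × Kp)),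
          0 ≤ σ x p.1 * dec p.1 x p.2 * w p x true := fun p _ =>
        mul_nonneg (mul_nonneg (QSamp_nonneg hσ x _) (QSamp_nonneg (hdec _) x _))
          (QSamp_nonneg (hw p) x _)
      have hge := Finset.single_le_sum hnn (Finset.mem_univ (b, κ))
      have hA0 : 0 < nsurv ref l x :=
        Finset.card_pos.2 ⟨b, Finset.mem_filter.2 ⟨Finset.mem_univ _, hbs⟩⟩
      show _ ≤ ∑ p : N × Kp, σ x p.1 * dec p.1 x p.2 * w p x true
      rcases Nat.lt_or_ge (nsurv ref l x) 2 with h4 | h4
      · have h5 : nsurv ref l x = 1 := by omega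
        rw [h5] at hσb ⊢
        refine le_trans ?_ hge
        simp only [hwb, mul_one]
        have h6 : (1 : ℝ) / 8 ≤ σ x b := by norm_num at hσb ⊢; exact hσb
        have h7 : (1 : ℝ) / 8 * (1 / 2) ≤ σ x b * dec b x κ :=
          mul_le_mul h6 hd (by norm_num) (QSamp_nonneg hσ x b)
        norm_num at h7 ⊢
        exact h7
      · have h5 : (2 : ℝ) ≤ nsurv ref l x := by exact_mod_cast h4
        refine le_trans ?_ (Finset.sum_nonneg hnn)
        rw [pow_zero]
        linarith
  | succ m ih =>
    intro l hl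
    obtain ⟨σ, hσ, hσx⟩ := sample_one g ref href T R hT l (by omega)
    have hτ := QSamp_iid hσ s
    choose ρ hρ hρx using fun v : Fin s → N => champion g qd ref href dec hdec T hT v
    choose μ hμ hμx using fun p : N × Kp => ih (p :: l) (by rw [List.length_cons]; omega)
    have hpair := QSamp_pair hτ hρ
    have hfin := QSamp_bind hpair (fun p : (Fin s → N) × (N × Kp) => hμ p.2)
    refine ⟨fun x ω' => ∑ ω : (Fin s → N) × (N × Kp),
      (∏ i, σ x (ω.1 i)) * ρ ω.1 x ω.2 * μ ω.2 x ω', ?_, fun x => ⟨?_, ?_⟩⟩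
    · convert hfin using 1
      ring
    · intro hno
      have hle : ∀ p : N × Kp, μ p x true ≤ (7 / 8) ^ 40 := fun p => (hμx p x).1 hno
      calc ∑ ω : (Fin s → N) × (N × Kp), (∏ i, σ x (ω.1 i)) * ρ ω.1 x ω.2 * μ ω.2 x true
          ≤ ∑ ω : (Fin s → N) × (N × Kp), (∏ i, σ x (ω.1 i)) * ρ ω.1 x ω.2 * (7 / 8) ^ 40 := by
            apply Finset.sum_le_sum
            intro ω _
            exact mul_le_mul_of_nonneg_left (hle ω.2)
              (mul_nonneg (Finset.prod_nonneg (fun i _ => QSamp_nonneg hσ x _))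
                (QSamp_nonneg (hρ _) x _))
        _ = (7 / 8) ^ 40 := by
            rw [← Finset.sum_mul, QSamp_sum_one hpair x, one_mul]
    · intro hex
      obtain ⟨b, κ, hv⟩ := id hex
      have hb := h3 x b κ hv
      have hbs := hsv l x b hb
      have hρv : ∀ v : Fin s → N, 1 / 8 ≤ ∑ p, if pass ref v p x = true then ρ v x p else 0 :=
        fun v => hρx v x ⟨b, κ, h1 x b κ hv, h2 x b κ hv⟩
      have hstep := halving_step ref l x b hb (σ x) (fun j => QSamp_nonneg hσ x j)
        (QSamp_sum_one hσ x) (hσx x ⟨b, hbs⟩) s hs (fun v p => ρ v x p)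
        (fun v p => QSamp_nonneg (hρ v) x p) (fun v => QSamp_sum_one (hρ v) x) hρv
      have hge : ∀ p : N × Kp, 1 / 16 * (1 - (47 / 48) ^ m * ((nsurv ref (p :: l) x : ℝ) - 1))
          ≤ μ p x true := fun p => (hμx p x).2 hex
      have hpw : (0 : ℝ) ≤ (47 / 48) ^ m := by positivity
      calc 1 / 16 * (1 - (47 / 48) ^ (m + 1) * ((nsurv ref l x : ℝ) - 1))
          = 1 / 16 * (1 - (47 / 48) ^ m * (47 / 48 * ((nsurv ref l x : ℝ) - 1))) := by
            rw [pow_succ]; ring
        _ ≤ 1 / 16 * (1 - (47 / 48) ^ m * ∑ v : Fin s → N, (∏ i, σ x (v i)) *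
              ∑ p, ρ v x p * ((nsurv ref (p :: l) x : ℝ) - 1)) := by
            have := mul_le_mul_of_nonneg_left hstep hpw
            linarith
        _ = ∑ ω : (Fin s → N) × (N × Kp), (∏ i, σ x (ω.1 i)) * ρ ω.1 x ω.2 *
              (1 / 16 * (1 - (47 / 48) ^ m * ((nsurv ref (ω.2 :: l) x : ℝ) - 1))) := by
            have e1 : ∑ ω : (Fin s → N) × (N × Kp), (∏ i, σ x (ω.1 i)) * ρ ω.1 x ω.2 = 1 :=
              QSamp_sum_one hpair x
            have e2 : ∑ ω : (Fin s → N) × (N × Kp), (∏ i, σ x (ω.1 i)) * ρ ω.1 x ω.2 *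
                ((nsurv ref (ω.2 :: l) x : ℝ) - 1) = ∑ v : Fin s → N, (∏ i, σ x (v i)) *
              ∑ p, ρ v x p * ((nsurv ref (p :: l) x : ℝ) - 1) := by
              rw [Fintype.sum_prod_type]
              apply Finset.sum_congr rfl
              intro v _
              rw [Finset.mul_sum]
              apply Finset.sum_congr rfl
              intro p _
              ring
            have e3 : ∀ ω : (Fin s → N) × (N × Kp), (∏ i, σ x (ω.1 i)) * ρ ω.1 x ω.2 *
              (1 / 16 * (1 - (47 / 48) ^ m * ((nsurv ref (ω.2 :: l) x : ℝ) - 1))) =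
              1 / 16 * ((∏ i, σ x (ω.1 i)) * ρ ω.1 x ω.2) - 1 / 16 * (47 / 48) ^ m *
                ((∏ i, σ x (ω.1 i)) * ρ ω.1 x ω.2 * ((nsurv ref (ω.2 :: l) x : ℝ) - 1)) := by
              intro ω; ring
            rw [Finset.sum_congr rfl (fun ω _ => e3 ω), Finset.sum_sub_distrib, ← Finset.mul_sum,
              ← Finset.mul_sum, e1, e2]
            ring
        _ ≤ ∑ ω : (Fin s → N) × (N × Kp), (∏ i, σ x (ω.1 i)) * ρ ω.1 x ω.2 * μ ω.2 x true := by
            apply Finset.sum_le_sum
            intro ω _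
            exact mul_le_mul_of_nonneg_left (hge ω.2)
              (mul_nonneg (Finset.prod_nonneg (fun i _ => QSamp_nonneg hσ x _))
                (QSamp_nonneg (hρ _) x _))

/-- number of queries of the abstract search -/
def Qbound (T T' R s g g' qd : ℕ) : ℕ :=
  40 * (R * (s * ((2 * T + 1) * (R * g)) + (2 * T + 1) * (qd + s * g)) + (2 * T + 1) * (R * g)
    + qd + 40 * ((2 * T' + 1) * g'))

end

/-- T4 (Search): abstract pointer search by halving. `chk b κ c` are the local checks of the
certificate `(b, κ)`; `ref b κ j` says that the sheet of `(b, κ)` refutes `j`. -/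
theorem abstract_search {ι : Type} [Fintype ι] [DecidableEq ι] [Nonempty ι] (N Kp C : Type)
    [Fintype N] [DecidableEq N] [Fintype Kp]
    [DecidableEq Kp] [Fintype C] [DecidableEq C] [Nonempty N] [Nonempty Kp] [Nonempty C]
    (g g' qd : ℕ)
    (ref : N → Kp → N → (ι → Bool) → Bool) (href : ∀ b κ j, DTE g (ref b κ j))
    (chk : N → Kp → C → (ι → Bool) → Bool) (hchk : ∀ b κ c, DTE g' (chk b κ c))
    (dec : N → (ι → Bool) → Kp → ℝ) (hdec : ∀ b, QSamp Kp qd (dec b))
    (h1 : ∀ x b κ, (∀ c, chk b κ c x = true) → 1 / 2 ≤ dec b x κ)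
    (h2 : ∀ x b κ, (∀ c, chk b κ c x = true) → ∀ j, j ≠ b → ref b κ j x = true)
    (h3 : ∀ x b κ, (∀ c, chk b κ c x = true) → ∀ b' κ', ref b' κ' b x = false)
    (T T' R s : ℕ) (hT : 2 * Fintype.card N ≤ T ^ 2) (hT' : Fintype.card C ≤ T' ^ 2)
    (hR : (Fintype.card N : ℝ) * (47 / 48) ^ R ≤ 1 / 2)
    (hs : (Fintype.card N : ℝ) * Fintype.card Kp * (23 / 24) ^ s ≤ 1 / 2) :
    ∃ μ : (ι → Bool) → Bool → ℝ, QSamp Bool (Qbound T T' R s g g' qd) μ ∧
      ∀ (x : ι → Bool) (v : Bool), (v = true ↔ ∃ b κ, ∀ c, chk b κ c x = true) →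
        2 / 3 ≤ μ x v := by
  obtain ⟨w, hw, hwx⟩ := trial g g' qd ref href chk hchk dec hdec h1 h2 h3 T T' R s hT hT' hs R []
    (by simp)
  obtain ⟨μ, hμ, hμx⟩ := repeat_or hw
  refine ⟨μ, ?_, ?_⟩
  · convert hμ using 1
    unfold Qbound
    ring
  · intro x v hv
    by_cases hex : ∃ b κ, ∀ c, chk b κ c x = true
    · have hvt : v = true := hv.2 hex
      rw [hvt]
      apply (hμx x).1
      refine le_trans ?_ ((hwx x).2 hex)
      have hn : nsurv ref ([] : List (N × Kp)) x = Fintype.card N := by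
        unfold nsurv surv
        simp
      rw [hn]
      have : (47 / 48 : ℝ) ^ R * ((Fintype.card N : ℝ) - 1) ≤ 1 / 2 := by
        have hpw : (0 : ℝ) ≤ (47 / 48) ^ R := by positivity
        nlinarith
      linarith
    · have hvf : v = false := by
        cases v with
        | false => rfl
        | true => exact absurd (hv.1 rfl) hex
      rw [hvf]
      exact (hμx x).2 ((hwx x).1 hex)

end Crest.Agent.R350
end

-- ▼ part R350/HTest
section

/-! Row 350, T3: the Hadamard test for `phi`. -/

set_option autoImplicit false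

namespace Crest.Agent.R350

open Finset Matrix

set_option linter.unusedSectionVars false

variable {ι : Type} [Fintype ι] [DecidableEq ι]

section phase

variable {K : Type} [Fintype K] [DecidableEq K]

/-- amplitude of the target qubit: `|+⟩` if the control is off, `|-⟩` if it is on -/
noncomputable def tg (c b : Bool) : ℝ := (1 / Real.sqrt 2) * (if c && b then -1 else 1)

theorem tg_norm (c : Bool) : ∑ b, tg c b * tg c b = 1 := by
  have h : (1 / Real.sqrt 2) * (1 / Real.sqrt 2) = (1 / 2 : ℝ) := by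
    rw [div_mul_div_comm, Real.mul_self_sqrt (by norm_num)]
    norm_num
  rw [Fintype.sum_bool]
  unfold tg
  cases c <;> norm_num at h ⊢ <;> linarith

theorem tg_xor (c b v : Bool) : tg c (xor b v) = tg c b * (if c then sg v else 1) := by
  unfold tg sg
  cases c <;> cases b <;> cases v <;> simp

/-- phase-query embedding -/
noncomputable def phJ (adr : K → ι) (ctl : K → Bool) : Matrix (ι × Bool × K) K ℂ :=
  fun e k => if e.1 = adr k ∧ e.2.2 = k then ((tg (ctl k) e.2.1 : ℝ) : ℂ) else 0

/-- the phase matrix -/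
noncomputable def phD (adr : K → ι) (ctl : K → Bool) (x : ι → Bool) : Matrix K K ℂ :=
  Matrix.diagonal fun k => (((if ctl k then sg (x (adr k)) else 1) : ℝ) : ℂ)

theorem phJ_iso (adr : K → ι) (ctl : K → Bool) : (phJ adr ctl)ᴴ * phJ adr ctl = 1 := by
  ext k k'
  rw [Matrix.mul_apply, Matrix.one_apply]
  simp only [Matrix.conjTranspose_apply, phJ]
  rw [Fintype.sum_prod_type]
  simp_rw [Fintype.sum_prod_type]
  by_cases h : k = k'
  · subst h
    rw [if_pos rfl, sum_eq_single (adr k)]
    · have h1 : ∀ b, (∑ z : K, star (if adr k = adr k ∧ z = k then ((tg (ctl k) b : ℝ) : ℂ) else 0) *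
          (if adr k = adr k ∧ z = k then ((tg (ctl k) b : ℝ) : ℂ) else 0)) =
          ((tg (ctl k) b * tg (ctl k) b : ℝ) : ℂ) := by
        intro b
        rw [sum_eq_single k]
        · simp
        · intro z _ hz
          simp [hz]
        · simp
      rw [sum_congr rfl (fun b _ => h1 b), ← Complex.ofReal_sum, tg_norm]
      simp
    · intro i _ hi
      simp [hi]
    · simp
  · rw [if_neg h]
    refine sum_eq_zero fun i _ => sum_eq_zero fun b _ => sum_eq_zero fun z _ => ?_
    by_cases h1 : z = k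
    · have h2 : ¬ z = k' := fun h2 => h (h1.symm.trans h2)
      simp [h2]
    · simp [h1]

theorem OM_phJ (adr : K → ι) (ctl : K → Bool) (x : ι → Bool) :
    OM K x * phJ adr ctl = phJ adr ctl * phD adr ctl x := by
  ext e k
  rw [Matrix.mul_apply]
  have h1 : ∀ e', OM K x e e' * phJ adr ctl e' k =
      if e' = (e.1, xor e.2.1 (x e.1), e.2.2) then phJ adr ctl e' k else 0 := by
    intro e'
    unfold OM
    split_ifs <;> simp
  simp_rw [h1]
  rw [sum_ite_eq' univ, if_pos (mem_univ _)]
  unfold phD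
  rw [Matrix.mul_diagonal]
  simp only [phJ]
  by_cases h : e.1 = adr k ∧ e.2.2 = k
  · rw [if_pos h, if_pos h, tg_xor, h.1]
    push_cast
    rfl
  · rw [if_neg h, if_neg h, zero_mul]

theorem QI_phase (adr : K → ι) (ctl : K → Bool) : QI K K 1 (phD adr ctl) := by
  refine ⟨K, inferInstance, inferInstance, fun x => 1 * OM K x * 1, phJ adr ctl, phJ adr ctl,
    ?_, phJ_iso _ _, phJ_iso _ _, fun x => ?_⟩
  · exact Impl.step 0 (fun _ => 1) (Impl.const 1 (one_mem _)) 1 (one_mem _)
  · show (1 * OM K x * 1) * phJ adr ctl = _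
    rw [one_mul, mul_one, OM_phJ]

end phase

/-- controlled Walsh transform -/
noncomputable def cWal (t : ℕ) : Matrix (Bool × NN t) (Bool × NN t) ℂ :=
  fun a b => (((if a.1 = b.1 then (if a.1 then wal a.2 b.2 / Real.sqrt (2 ^ t) else
    (if a.2 = b.2 then 1 else 0)) else 0) : ℝ) : ℂ)

theorem cWal_iso (t : ℕ) : (cWal t)ᴴ * cWal t = 1 := by
  ext ⟨a, i⟩ ⟨b, j⟩
  rw [Matrix.mul_apply, Matrix.one_apply]
  simp only [Matrix.conjTranspose_apply, cWal, Complex.star_def, Complex.conj_ofReal]
  simp_rw [← Complex.ofReal_mul]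
  rw [← Complex.ofReal_sum, Fintype.sum_prod_type, Fintype.sum_bool]
  have h0 := sqrt_two_pow_pos t
  have hs := sqrt_two_pow_mul t
  have h1 : ∑ y : NN t, wal y i / Real.sqrt (2 ^ t) * (wal y j / Real.sqrt (2 ^ t)) =
      if i = j then 1 else 0 := by
    have h2 : ∀ y : NN t, wal y i / Real.sqrt (2 ^ t) * (wal y j / Real.sqrt (2 ^ t)) =
        (wal i y * wal y j) / 2 ^ t := by
      intro y
      rw [div_mul_div_comm, hs, wal_symm y i]
    simp_rw [h2]
    rw [← sum_div, wal_orth]
    split_ifs <;> simp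
  cases a <;> cases b
  · by_cases hij : i = j
    · subst hij; simp
    · simp [hij, Ne.symm hij]
  · simp
  · simp
  · simp only [if_true, Bool.false_eq_true, if_false, Prod.mk.injEq, true_and]
    rw [h1]
    split_ifs <;> simp

/-- final Hadamard gate on the control -/
noncomputable def fHad (t : ℕ) : Matrix (Bool × NN t) (Bool × NN t) ℂ :=
  fun a b => (((if a.2 = b.2 then tg a.1 b.1 else 0) : ℝ) : ℂ)

theorem fHad_iso (t : ℕ) : (fHad t)ᴴ * fHad t = 1 := by
  have h : (1 / Real.sqrt 2) * (1 / Real.sqrt 2) = (1 / 2 : ℝ) := by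
    rw [div_mul_div_comm, Real.mul_self_sqrt (by norm_num)]
    norm_num
  ext ⟨a, i⟩ ⟨b, j⟩
  rw [Matrix.mul_apply, Matrix.one_apply]
  simp only [Matrix.conjTranspose_apply, fHad, Complex.star_def, Complex.conj_ofReal]
  simp_rw [← Complex.ofReal_mul]
  rw [← Complex.ofReal_sum, Fintype.sum_prod_type]
  have h1 : ∀ c : Bool, ∑ y : NN t, (if y = i then tg c a else 0) * (if y = j then tg c b else 0)
      = if i = j then tg c a * tg c b else 0 := by
    intro c
    rw [sum_eq_single i]
    · simp
    · intro y _ hy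
      simp [hy]
    · simp
  simp only
  simp_rw [h1]
  rw [Fintype.sum_bool]
  unfold tg
  by_cases hij : i = j
  · subst hij
    cases a <;> cases b <;> simp at h ⊢ <;> norm_cast <;> linarith
  · simp [hij]

/-- the state before the final Hadamard gate -/
noncomputable def preV (t k : ℕ) (y : Fin (k + 1) → NN t → Bool) : Matrix (Bool × NN t) Unit ℂ :=
  fun a _ => (((if a.1 then vec t k y a.2 else 1 / Real.sqrt (2 ^ t)) / Real.sqrt 2 : ℝ) : ℂ)

/-- the initial state -/
noncomputable def iniV (t : ℕ) : Matrix (Bool × NN t) Unit ℂ :=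
  fun _ _ => (((1 / Real.sqrt (2 ^ t)) / Real.sqrt 2 : ℝ) : ℂ)

theorem iniV_iso (t : ℕ) : (iniV t)ᴴ * iniV t = 1 := by
  ext ⟨⟩ ⟨⟩
  rw [Matrix.mul_apply, Matrix.one_apply, if_pos rfl]
  simp only [Matrix.conjTranspose_apply, iniV, Complex.star_def, Complex.conj_ofReal]
  simp_rw [← Complex.ofReal_mul]
  rw [← Complex.ofReal_sum, Fintype.sum_prod_type, Fintype.sum_bool]
  have h1 : ∑ _j : NN t, ((1 / Real.sqrt (2 ^ t)) / Real.sqrt 2) *
      ((1 / Real.sqrt (2 ^ t)) / Real.sqrt 2) = 1 / 2 := by
    have h2 : ((1 / Real.sqrt (2 ^ t)) / Real.sqrt 2) * ((1 / Real.sqrt (2 ^ t)) / Real.sqrt 2) =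
        (1 / Real.sqrt (2 ^ t)) ^ 2 / 2 := by
      rw [div_mul_div_comm, Real.mul_self_sqrt (by norm_num), sq]
    rw [h2, ← sum_div, unif_norm]
  rw [h1]
  norm_num

theorem phD_cWal_preV (t k : ℕ) (adr : Fin (k + 2) → NN t → ι) (x : ι → Bool) :
    phD (fun a : Bool × NN t => adr (Fin.last (k + 1)) a.2) (fun a => a.1) x *
      (cWal t * preV t k (fun a i => x (adr a.castSucc i))) =
    preV t (k + 1) (fun a i => x (adr a i)) := by
  ext ⟨a, i⟩ ⟨⟩
  unfold phD
  rw [Matrix.diagonal_mul, Matrix.mul_apply]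
  simp only [cWal, preV]
  simp_rw [← Complex.ofReal_mul]
  rw [← Complex.ofReal_sum, ← Complex.ofReal_mul]
  congr 1
  rw [Fintype.sum_prod_type, Fintype.sum_bool]
  cases a
  · simp
  · simp only [if_true, Bool.true_eq_false, if_false, zero_mul, sum_const_zero, add_zero, vec]
    simp_rw [← mul_div_assoc]
    rw [← sum_div, mul_div_assoc]

theorem phD_iniV (t : ℕ) (adr : Fin 1 → NN t → ι) (x : ι → Bool) :
    phD (fun a : Bool × NN t => adr 0 a.2) (fun a => a.1) x * iniV t =
    preV t 0 (fun a i => x (adr a i)) := by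
  ext ⟨a, i⟩ ⟨⟩
  unfold phD
  rw [Matrix.diagonal_mul]
  simp only [iniV, preV, vec]
  rw [← Complex.ofReal_mul]
  congr 1
  cases a
  · simp
  · simp only [if_true]
    ring

theorem QI_preV (t k : ℕ) (adr : Fin (k + 1) → NN t → ι) :
    QI Unit (Bool × NN t) (k + 1) (fun x => preV t k (fun a i => x (adr a i))) := by
  have : Nonempty ι := ⟨adr 0 (fun _ => false)⟩
  induction k with
  | zero =>
    have h := QI_comp (QI_const (ι := ι) (iniV t) (iniV_iso t))
      (QI_phase (fun a : Bool × NN t => adr 0 a.2) (fun a => a.1))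
    simp_rw [phD_iniV] at h
    exact h
  | succ k ih =>
    have h := QI_comp (QI_comp (ih (fun a => adr a.castSucc)) (QI_const (ι := ι) (cWal t) (cWal_iso t)))
      (QI_phase (fun a : Bool × NN t => adr (Fin.last (k + 1)) a.2) (fun a => a.1))
    simp_rw [phD_cWal_preV] at h
    exact h

theorem fHad_preV (t k : ℕ) (y : Fin (k + 1) → NN t → Bool) :
    fHad t * preV t k y = fun a _ =>
      ((((1 / Real.sqrt (2 ^ t)) + (if a.1 then -1 else 1) * vec t k y a.2) / 2 : ℝ) : ℂ) := by
  have h : Real.sqrt 2 * Real.sqrt 2 = 2 := Real.mul_self_sqrt (by norm_num)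
  ext ⟨a, i⟩ ⟨⟩
  rw [Matrix.mul_apply]
  simp only [fHad, preV]
  simp_rw [← Complex.ofReal_mul]
  rw [← Complex.ofReal_sum]
  congr 1
  rw [Fintype.sum_prod_type, Fintype.sum_bool]
  simp only [ite_mul, zero_mul, sum_ite_eq, mem_univ, if_true]
  unfold tg
  have h2 : ∀ c v : ℝ, 1 / Real.sqrt 2 * c * (v / Real.sqrt 2) = c * v / 2 := by
    intro c v
    have h0 : Real.sqrt 2 ≠ 0 := by positivity
    generalize Real.sqrt 2 = s at h h0 ⊢
    rw [← h]
    field_simp
  simp_rw [h2]
  cases a
  · simp only [Bool.false_and, Bool.false_eq_true, if_false]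
    ring
  · simp only [Bool.true_and, Bool.false_eq_true, if_false, if_true]
    ring

/-- T3 (HTest): Hadamard test for `phi` on the blocks at addresses `adr a i`. -/
theorem QSamp_htest (k t : ℕ) (adr : Fin (k + 1) → NN t → ι) :
    QSamp (ι := ι) Bool (k + 1)
      (fun x b => (1 + (if b then 1 else -1) * phi k t (fun a i => x (adr a i))) / 2) := by
  have : Nonempty ι := ⟨adr 0 (fun _ => false)⟩
  have h := QI_comp (QI_preV t k adr) (QI_const (ι := ι) (fHad t) (fHad_iso t))
  simp_rw [fHad_preV] at h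
  refine ⟨Bool × NN t, inferInstance, inferInstance, fun x a =>
    ((((1 / Real.sqrt (2 ^ t)) + (if a.1 then -1 else 1) *
      vec t k (fun a i => x (adr a i)) a.2) / 2 : ℝ) : ℂ), fun a => !a.1, h, fun x b => ?_⟩
  rw [Fintype.sum_prod_type, Fintype.sum_bool]
  have hn : ∀ r : ℝ, ‖(r : ℂ)‖ ^ 2 = r ^ 2 := fun r => by
    rw [Complex.norm_real, Real.norm_eq_abs, sq_abs]
  simp_rw [hn]
  cases b
  · simp only [Bool.not_true, Bool.not_false, if_true, Bool.false_eq_true, Bool.true_eq_false,
      if_false, sum_const_zero, add_zero]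
    rw [htest_sum k t _ (-1) (by norm_num)]
  · simp only [Bool.not_true, Bool.not_false, if_true, Bool.false_eq_true, Bool.true_eq_false,
      if_false, sum_const_zero, zero_add]
    rw [htest_sum k t _ 1 (by norm_num)]

end Crest.Agent.R350
end

-- ▼ part R350/Decode
section

/-! Row 350, task T8: the quantum decoder of the secret. -/

set_option autoImplicit false

namespace Crest.Agent.R350

open Finset

section


variable {ι : Type} [Fintype ι] [DecidableEq ι]

/-- independent samples -/
theorem QSamp_pi [Nonempty ι] {Ω : Type} [Fintype Ω] [DecidableEq Ω] {q : ℕ} (n : ℕ)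
    (μ : Fin n → (ι → Bool) → Ω → ℝ) (h : ∀ j, QSamp Ω q (μ j)) :
    QSamp (Fin n → Ω) (n * q) (fun x ω => ∏ j, μ j x (ω j)) := by
  induction n with
  | zero =>
    have := QSamp_const (ι := ι) (Ω := Fin 0 → Ω) (fun _ => 1) (fun _ => zero_le_one) (by simp)
    simpa using this
  | succ n ih =>
    have h1 := ih (fun j => μ j.castSucc) (fun j => h _)
    have h2 : ∀ ω : Fin n → Ω, QSamp (ι := ι) (Fin (n + 1) → Ω) q (fun x ω' =>
        ∑ y, if (Fin.snoc ω y : Fin (n + 1) → Ω) = ω' then μ (Fin.last n) x y else 0) :=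
      fun ω => QSamp_map (h (Fin.last n)) (fun y => (Fin.snoc ω y : Fin (n + 1) → Ω))
    have h3 := QSamp_bind h1 h2
    have h4 : n * q + q = (n + 1) * q := by ring
    rw [h4] at h3
    convert h3 using 1
    funext x ω'
    rw [Fin.prod_univ_castSucc]
    rw [Finset.sum_eq_single (Fin.init ω' : Fin n → Ω)]
    · congr 1
      rw [Finset.sum_eq_single (ω' (Fin.last n))]
      · rw [if_pos (Fin.snoc_init_self ω')]
      · intro y _ hy
        rw [if_neg]
        intro h5
        apply hy
        have := congrFun h5 (Fin.last n)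
        simpa using this
      · intro h5; exact absurd (Finset.mem_univ _) h5
    · intro ω _ hω
      rw [Finset.sum_eq_zero, mul_zero]
      intro y _
      rw [if_neg]
      intro h5
      apply hω
      rw [← h5, Fin.init_snoc]
    · intro h5; exact absurd (Finset.mem_univ _) h5

/-- one random test of the secret bit `u` -/
theorem QSamp_test [Nonempty ι] (k t τ S : ℕ) (hS : 1 ≤ S) (adr : ZI k t τ S → ι) (u : Fin τ) :
    QSamp (ι := ι) Bool (k + 1)
      (fun x b => (1 + (if b then 1 else -1) * avgphi k t τ S (fun w => x (adr w)) u) / 2) := by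
  have hSpos : (0 : ℝ) < S := by exact_mod_cast hS
  have h1 := QSamp_const (ι := ι) (Ω := Fin S) (fun _ => 1 / (S : ℝ))
    (fun _ => by positivity) (by
      rw [Finset.sum_const, Finset.card_univ, Fintype.card_fin, nsmul_eq_mul]
      field_simp)
  have h2 : ∀ s : Fin S, QSamp (ι := ι) Bool (k + 1)
      (fun x b => (1 + (if b then 1 else -1) *
        phi k t (fun a i => x (adr ((u, s), (a, i))))) / 2) :=
    fun s => QSamp_htest k t (fun a i => adr ((u, s), (a, i)))
  have h3 := QSamp_bind h1 h2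
  rw [zero_add] at h3
  convert h3 using 1
  funext x b
  have e1 : ∀ s : Fin S, 1 / (S : ℝ) * ((1 + (if b then 1 else -1) *
        phi k t (fun a i => x (adr ((u, s), (a, i))))) / 2)
      = 1 / (2 * S) + (if b then 1 else -1) / (2 * S) *
        phi k t (fun a i => x (adr ((u, s), (a, i)))) := by
    intro s
    field_simp
  simp only [e1, Finset.sum_add_distrib, Finset.sum_const, Finset.card_univ, Fintype.card_fin,
    nsmul_eq_mul, ← Finset.mul_sum, avgphi]
  field_simp

/-- number of `true` outcomes -/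
def ctrue {n : ℕ} (ω : Fin n → Bool) : ℝ := ∑ j, (if ω j then (1 : ℝ) else 0)

theorem cheb_bool (n : ℕ) (hn : 0 < n) (p : ℝ) (hp0 : 0 ≤ p) (hp1 : p ≤ 1) (D : ℝ) (hD : 0 < D)
    (B : (Fin n → Bool) → Prop) [DecidablePred B]
    (hB : ∀ ω, B ω → (n * D) ^ 2 ≤ (ctrue ω - n * p) ^ 2) :
    ∑ ω : Fin n → Bool, (if B ω then ∏ j, (if ω j then p else 1 - p) else 0)
      ≤ 1 / (4 * n * D ^ 2) := by
  have hnpos : (0 : ℝ) < n := by exact_mod_cast hn
  set w : Fin n → Bool → ℝ := fun _ b => if b then p else 1 - p with hw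
  have hw1 : ∀ l, ∑ b, w l b = 1 := by intro l; simp [hw]
  have hw0 : ∀ l b, 0 ≤ w l b := by
    intro l b; simp only [hw]; split_ifs <;> linarith
  have h1 := prodw_var w hw1 Finset.univ (fun b => (if b then (1 : ℝ) else 0) - p)
    (by intro l _; simp [hw]; ring) (1 / 4)
    (by
      intro l _
      simp only [hw, Fintype.sum_bool, if_true, Bool.false_eq_true, if_false]
      nlinarith [sq_nonneg (p - 1 / 2)])
  simp only [Finset.card_univ, Fintype.card_fin] at h1
  have h2 : ∀ ω : Fin n → Bool, ∑ a, ((if ω a then (1 : ℝ) else 0) - p) = ctrue ω - n * p := by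
    intro ω
    rw [Finset.sum_sub_distrib, Finset.sum_const, Finset.card_univ, Fintype.card_fin,
      nsmul_eq_mul, ctrue]
  simp only [h2] at h1
  have h3 : ∀ ω : Fin n → Bool, (if B ω then ∏ j, (if ω j then p else 1 - p) else 0)
      ≤ 1 / (n * D) ^ 2 * ((∏ l, w l (ω l)) * (ctrue ω - n * p) ^ 2) := by
    intro ω
    have hP : 0 ≤ ∏ l, w l (ω l) := Finset.prod_nonneg fun l _ => hw0 l _
    by_cases hb : B ω
    · rw [if_pos hb]
      have h4 := hB ω hb
      have h5 : (1 : ℝ) ≤ 1 / (n * D) ^ 2 * (ctrue ω - n * p) ^ 2 := by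
        rw [one_div, inv_mul_eq_div, le_div_iff₀ (by positivity)]
        linarith
      calc ∏ j, (if ω j then p else 1 - p) = (∏ l, w l (ω l)) * 1 := by simp [hw]
        _ ≤ (∏ l, w l (ω l)) * (1 / (n * D) ^ 2 * (ctrue ω - n * p) ^ 2) :=
          mul_le_mul_of_nonneg_left h5 hP
        _ = _ := by ring
    · rw [if_neg hb]; positivity
  calc _ ≤ ∑ ω : Fin n → Bool, 1 / (n * D) ^ 2 * ((∏ l, w l (ω l)) * (ctrue ω - n * p) ^ 2) :=
        Finset.sum_le_sum fun ω _ => h3 ω
    _ = 1 / (n * D) ^ 2 * ∑ ω : Fin n → Bool, (∏ l, w l (ω l)) * (ctrue ω - n * p) ^ 2 := by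
        rw [Finset.mul_sum]
    _ ≤ 1 / (n * D) ^ 2 * (n * (1 / 4)) := mul_le_mul_of_nonneg_left h1 (by positivity)
    _ = _ := by field_simp

/-- T8 (Decode): quantum decoder of the secret. -/
theorem decode_exists [Nonempty ι] (k t τ S T0 : ℕ)
    (hS : 1 ≤ S) (hτ : 1 ≤ τ) (θ0 θ1 : ℝ) (hθ : θ0 < θ1)
    (hT0 : 8 * (τ : ℝ) / (θ1 - θ0) ^ 2 ≤ T0) (adr : ZI k t τ S → ι) :
    ∃ dec : (ι → Bool) → (Fin τ → Bool) → ℝ, QSamp (Fin τ → Bool) (τ * (T0 * (k + 1))) dec ∧
      ∀ x κ, Good k t τ S θ0 θ1 κ (fun w => x (adr w)) → 1 / 2 ≤ dec x κ := by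
  classical
  have hτpos : (0 : ℝ) < τ := by exact_mod_cast hτ
  have hd : 0 < θ1 - θ0 := by linarith
  have hT0pos : (0 : ℝ) < T0 := lt_of_lt_of_le (by positivity) hT0
  have hT0n : 0 < T0 := by exact_mod_cast hT0pos
  set thr : ℝ := T0 * ((1 + (θ0 + θ1) / 2) / 2) with hthr
  -- threshold decision
  set F : (Fin T0 → Bool) → Bool := fun ω => decide (thr ≤ ctrue ω) with hF
  set test : Fin τ → (ι → Bool) → Bool → ℝ := fun u x b =>
    (1 + (if b then 1 else -1) * avgphi k t τ S (fun w => x (adr w)) u) / 2 with htest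
  have hQt : ∀ u, QSamp (ι := ι) Bool (k + 1) (test u) := fun u => QSamp_test k t τ S hS adr u
  have hQp : ∀ u, QSamp (ι := ι) (Fin T0 → Bool) (T0 * (k + 1))
      (fun x ω => ∏ j, test u x (ω j)) := fun u =>
    QSamp_pi T0 (fun _ => test u) (fun _ => hQt u)
  set D : Fin τ → (ι → Bool) → Bool → ℝ := fun u x b =>
    ∑ ω : Fin T0 → Bool, if F ω = b then ∏ j, test u x (ω j) else 0 with hDdef
  have hQD : ∀ u, QSamp (ι := ι) Bool (T0 * (k + 1)) (D u) := fun u => QSamp_map (hQp u) F
  refine ⟨fun x κ => ∏ u, D u x (κ u), QSamp_pi τ D hQD, ?_⟩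
  intro x κ hG
  have hD0 : ∀ u b, 0 ≤ D u x b := fun u b => QSamp_nonneg (hQD u) x b
  have hD1 : ∀ u, D u x true + D u x false = 1 := by
    intro u
    have := QSamp_sum_one (hQD u) x
    simpa using this
  have hmain : ∀ u, 1 - 1 / (2 * (τ : ℝ)) ≤ D u x (κ u) := by
    intro u
    set p : ℝ := test u x true with hp
    have hpf : test u x false = 1 - p := by simp only [hp, htest]; simp; ring
    have hp0 : 0 ≤ p := QSamp_nonneg (hQt u) x true
    have hp1 : p ≤ 1 := by
      have := QSamp_nonneg (hQt u) x false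
      linarith
    have hpav : p = (1 + avgphi k t τ S (fun w => x (adr w)) u) / 2 := by
      simp [hp, htest]
    have htp : ∀ b, test u x b = if b then p else 1 - p := by
      intro b; cases b <;> simp [hpf, hp]
    have hbd : ∀ B : (Fin T0 → Bool) → Prop, ∀ [DecidablePred B],
        (∀ ω, B ω → (T0 * ((θ1 - θ0) / 4)) ^ 2 ≤ (ctrue ω - T0 * p) ^ 2) →
        ∑ ω : Fin T0 → Bool, (if B ω then ∏ j, (if ω j then p else 1 - p) else 0)
          ≤ 1 / (2 * (τ : ℝ)) := by
      intro B _ hB
      refine le_trans (cheb_bool T0 hT0n p hp0 hp1 ((θ1 - θ0) / 4) (by positivity) B hB) ?_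
      rw [div_le_div_iff₀ (by positivity) (by positivity)]
      rw [div_le_iff₀ (by positivity)] at hT0
      nlinarith
    have hDeq : ∀ b, D u x b = ∑ ω : Fin T0 → Bool,
        (if F ω = b then ∏ j, (if ω j then p else 1 - p) else 0) := by
      intro b
      simp only [hDdef, htp]
    cases hκ : κ u
    · have hav := (hG u).2 hκ
      have h1 : D u x true ≤ 1 / (2 * (τ : ℝ)) := by
        rw [hDeq]
        apply hbd (fun ω => F ω = true)
        intro ω hω
        simp only [hF, decide_eq_true_eq] at hω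
        have h2 : T0 * ((θ1 - θ0) / 4) ≤ ctrue ω - T0 * p := by
          have h3 : T0 * p ≤ T0 * ((1 + θ0) / 2) :=
            mul_le_mul_of_nonneg_left (by rw [hpav]; linarith) hT0pos.le
          rw [hthr] at hω
          linarith
        exact pow_le_pow_left₀ (by positivity) h2 2
      have := hD1 u
      linarith
    · have hav := (hG u).1 hκ
      have h1 : D u x false ≤ 1 / (2 * (τ : ℝ)) := by
        rw [hDeq]
        apply hbd (fun ω => F ω = false)
        intro ω hω
        simp only [hF, decide_eq_false_iff_not, not_le] at hω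
        have h2 : T0 * ((θ1 - θ0) / 4) ≤ -(ctrue ω - T0 * p) := by
          have h3 : T0 * ((1 + θ1) / 2) ≤ T0 * p :=
            mul_le_mul_of_nonneg_left (by rw [hpav]; linarith) hT0pos.le
          rw [hthr] at hω
          linarith
        rw [← neg_sq (ctrue ω - T0 * p)]
        exact pow_le_pow_left₀ (by positivity) h2 2
      have := hD1 u
      linarith
  have hge : (1 - 1 / (2 * (τ : ℝ))) ^ τ ≤ ∏ u, D u x (κ u) := by
    have h1 : (0 : ℝ) ≤ 1 - 1 / (2 * (τ : ℝ)) := by
      rw [sub_nonneg, div_le_one (by positivity)]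
      have : (1 : ℝ) ≤ τ := by exact_mod_cast hτ
      linarith
    calc (1 - 1 / (2 * (τ : ℝ))) ^ τ = ∏ _u : Fin τ, (1 - 1 / (2 * (τ : ℝ))) := by simp
      _ ≤ _ := Finset.prod_le_prod (fun _ _ => h1) (fun u _ => hmain u)
  refine le_trans ?_ hge
  have h2 := one_add_mul_le_pow (a := -(1 / (2 * (τ : ℝ)))) (by
    rw [neg_le_neg_iff, div_le_iff₀ (by positivity)]
    have : (1 : ℝ) ≤ τ := by exact_mod_cast hτ
    linarith) τ
  have h3 : 1 + (τ : ℝ) * -(1 / (2 * (τ : ℝ))) = 1 / 2 := by
    field_simp; norm_num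
  rw [h3] at h2
  rw [sub_eq_add_neg]
  exact h2

end

end Crest.Agent.R350
end

-- ▼ part R350/Lower

/-! Row 350, T6: abstract randomized lower bound, hybrid argument, conversion of randomized
algorithms. -/

set_option autoImplicit false

namespace Crest.Agent.R350

open Finset Crest.MathPhysics.Query

/-! ### basic facts on `DTC` -/

section basic

variable {ι : Type}

theorem DTC.lwMono {d d' : ℕ} {f : (ι → Bool) → ℝ} (h : DTC d f) (hd : d ≤ d') : DTC d' f := by
  induction h generalizing d' with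
  | const d c h0 h1 => exact DTC.const d' c h0 h1
  | ask d i f g hf hg ihf ihg =>
    obtain ⟨e, rfl⟩ : ∃ e, d' = e + 1 := ⟨d' - 1, by omega⟩
    exact DTC.ask e i f g (ihf (by omega)) (ihg (by omega))

theorem DTC.lwNonneg {d : ℕ} {f : (ι → Bool) → ℝ} (h : DTC d f) (x : ι → Bool) : 0 ≤ f x := by
  induction h with
  | const d c h0 h1 => exact h0
  | ask d i f g hf hg ihf ihg =>
    by_cases hx : x i <;> simp [hx, ihf, ihg]

theorem DTC.lwLeOne {d : ℕ} {f : (ι → Bool) → ℝ} (h : DTC d f) (x : ι → Bool) : f x ≤ 1 := by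
  induction h with
  | const d c h0 h1 => exact h1
  | ask d i f g hf hg ihf ihg =>
    by_cases hx : x i <;> simp [hx, ihf, ihg]

/-- substitution: every coordinate of the big input is a constant or a coordinate of the small
input. -/
theorem DTC.lwSubst {ζ : Type} {d : ℕ} {f : (ι → Bool) → ℝ} (h : DTC d f)
    (base : (ζ → Bool) → ι → Bool)
    (hb : ∀ i, (∃ w, ∀ z, base z i = z w) ∨ (∃ v, ∀ z, base z i = v)) :
    DTC d (fun z => f (base z)) := by
  induction h with
  | const d c h0 h1 => exact DTC.const d c h0 h1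
  | ask d i f g hf hg ihf ihg =>
    rcases hb i with ⟨w, hw⟩ | ⟨v, hv⟩
    · have := DTC.ask d w _ _ ihf ihg
      simpa [hw] using this
    · cases v
      · have := ihf.lwMono (Nat.le_succ d)
        simpa [hv] using this
      · have := ihg.lwMono (Nat.le_succ d)
        simpa [hv] using this

/-- if every coordinate is perturbed by at most one `ρ`, a depth `d` tree notices at most `d` of
the perturbations. -/
theorem DTC.sum_pert {P : Type} [Fintype P] [DecidableEq P] {d : ℕ} {f : (ι → Bool) → ℝ}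
    (h : DTC d f) (x : ι → Bool) (y : P → ι → Bool)
    (hy : ∀ i, ∃ o : Option P, ∀ ρ, o ≠ some ρ → y ρ i = x i) :
    ∑ ρ, |f (y ρ) - f x| ≤ d := by
  induction h with
  | const d c h0 h1 => simp
  | ask d i f g hf hg ihf ihg =>
    obtain ⟨o, ho⟩ := hy i
    -- the branch followed by `x`
    have key : ∀ (F : (ι → Bool) → ℝ), DTC d F → ∑ ρ, |F (y ρ) - F x| ≤ d →
        (∀ ρ, y ρ i = x i → (if y ρ i then g (y ρ) else f (y ρ)) = F (y ρ)) →
        ((if x i then g x else f x) = F x) →
        ∑ ρ, |(if y ρ i then g (y ρ) else f (y ρ)) - (if x i then g x else f x)| ≤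
          ((d + 1 : ℕ) : ℝ) := by
      intro F hF hs h1 h2
      rw [h2]
      have hle : ∀ ρ, |(if y ρ i then g (y ρ) else f (y ρ)) - F x| ≤
          |F (y ρ) - F x| + (if o = some ρ then 1 else 0) := by
        intro ρ
        by_cases hρ : o = some ρ
        · have a1 : 0 ≤ (if y ρ i then g (y ρ) else f (y ρ)) ∧
              (if y ρ i then g (y ρ) else f (y ρ)) ≤ 1 := by
            split_ifs
            · exact ⟨hg.lwNonneg _, hg.lwLeOne _⟩
            · exact ⟨hf.lwNonneg _, hf.lwLeOne _⟩
          have a2 := hF.lwNonneg x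
          have a3 := hF.lwLeOne x
          have a4 := abs_nonneg (F (y ρ) - F x)
          rw [if_pos hρ, abs_le]
          constructor <;> linarith [a1.1, a1.2]
        · rw [h1 ρ (ho ρ hρ), if_neg hρ, add_zero]
      calc ∑ ρ, |(if y ρ i then g (y ρ) else f (y ρ)) - F x|
          ≤ ∑ ρ, (|F (y ρ) - F x| + (if o = some ρ then (1 : ℝ) else 0)) :=
            Finset.sum_le_sum fun ρ _ => hle ρ
        _ = ∑ ρ, |F (y ρ) - F x| + ∑ ρ, (if o = some ρ then (1 : ℝ) else 0) :=
            Finset.sum_add_distrib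
        _ ≤ (d : ℝ) + 1 := by
            refine add_le_add hs ?_
            cases o with
            | none => simp
            | some ρ₀ => simp
        _ = ((d + 1 : ℕ) : ℝ) := by push_cast; ring
    by_cases hx : x i
    · exact key g hg ihg (fun ρ hρ => by rw [hρ, if_pos hx]) (by rw [if_pos hx])
    · exact key f hf ihf (fun ρ hρ => by rw [hρ, if_neg hx]) (by rw [if_neg hx])

/-- detection functions: the base input depends on `z` (each coordinate is constant or a
coordinate of `z`); perturbation `κ` changes only coordinates owned by `κ`, all of them constant.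
The probability of noticing perturbation `κ` is dominated by a depth-`d` function `hκ` of `z`, with
`∑_κ hκ ≤ d`. -/
theorem DTC.detect {ζ P : Type} [Fintype P] [DecidableEq P] {d : ℕ} {f : (ι → Bool) → ℝ}
    (h : DTC d f) (base : (ζ → Bool) → ι → Bool) (own : ι → Option P)
    (hb : ∀ i, (∃ w, own i = none ∧ ∀ z, base z i = z w) ∨ (∃ v, ∀ z, base z i = v)) :
    ∃ H : P → (ζ → Bool) → ℝ, (∀ κ, DTC d (H κ)) ∧ (∀ z, ∑ κ, H κ z ≤ d) ∧
      ∀ κ z (y : ι → Bool), (∀ i, own i ≠ some κ → y i = base z i) →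
        f y ≤ f (base z) + H κ z := by
  induction h with
  | const d c h0 h1 =>
    refine ⟨fun _ _ => 0, fun κ => DTC.const d 0 le_rfl zero_le_one, fun z => by simp, ?_⟩
    intro κ z y hy
    simp
  | ask d i f g hf hg ihf ihg =>
    obtain ⟨Hf, f1, f2, f3⟩ := ihf
    obtain ⟨Hg, g1, g2, g3⟩ := ihg
    rcases hb i with ⟨w, how, hw⟩ | ⟨v, hv⟩
    · refine ⟨fun κ z => if z w then Hg κ z else Hf κ z, fun κ => DTC.ask d w _ _ (f1 κ) (g1 κ),
        ?_, ?_⟩
      · intro z
        by_cases hz : z w
        · simp only [hz, if_true]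
          have := g2 z
          push_cast
          linarith
        · simp only [hz, Bool.false_eq_true, if_false]
          have := f2 z
          push_cast
          linarith
      · intro κ z y hy
        have hyi : y i = z w := by
          rw [hy i (by rw [how]; simp), hw]
        have hbi : base z i = z w := hw z
        beta_reduce
        rw [hyi, hbi]
        by_cases hz : z w
        · simp only [hz, if_true]
          exact g3 κ z y hy
        · simp only [hz, Bool.false_eq_true, if_false]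
          exact f3 κ z y hy
    · -- generic branch
      have key : ∀ (F : (ι → Bool) → ℝ) (HF : P → (ζ → Bool) → ℝ), DTC d F →
          (∀ κ, DTC d (HF κ)) → (∀ z, ∑ κ, HF κ z ≤ d) →
          (∀ κ z (y : ι → Bool), (∀ i, own i ≠ some κ → y i = base z i) →
            F y ≤ F (base z) + HF κ z) →
          (∀ y : ι → Bool, y i = v → (if y i then g y else f y) = F y) →
          ∃ H : P → (ζ → Bool) → ℝ, (∀ κ, DTC (d + 1) (H κ)) ∧
            (∀ z, ∑ κ, H κ z ≤ ((d + 1 : ℕ) : ℝ)) ∧
            ∀ κ z (y : ι → Bool), (∀ i, own i ≠ some κ → y i = base z i) →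
              (if y i then g y else f y) ≤
                (if (base z) i then g (base z) else f (base z)) + H κ z := by
        intro F HF hF F1 F2 F3 hbr
        refine ⟨fun κ z => if own i = some κ then 1 else HF κ z, ?_, ?_, ?_⟩
        · intro κ
          by_cases hκ : own i = some κ
          · simp only [hκ, if_true]
            exact DTC.const _ 1 zero_le_one le_rfl
          · simp only [hκ, if_false]
            exact (F1 κ).lwMono (Nat.le_succ d)
        · intro z
          have hle : ∀ κ, (if own i = some κ then (1 : ℝ) else HF κ z) ≤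
              HF κ z + (if own i = some κ then 1 else 0) := by
            intro κ
            have := (F1 κ).lwNonneg z
            split_ifs <;> linarith
          calc ∑ κ, (if own i = some κ then (1 : ℝ) else HF κ z)
              ≤ ∑ κ, (HF κ z + (if own i = some κ then (1 : ℝ) else 0)) :=
                Finset.sum_le_sum fun κ _ => hle κ
            _ = ∑ κ, HF κ z + ∑ κ, (if own i = some κ then (1 : ℝ) else 0) :=
                Finset.sum_add_distrib
            _ ≤ (d : ℝ) + 1 := by
                refine add_le_add (F2 z) ?_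
                cases own i with
                | none => simp
                | some ρ₀ => simp
            _ = ((d + 1 : ℕ) : ℝ) := by push_cast; ring
        · intro κ z y hy
          rw [hbr (base z) (hv z)]
          beta_reduce
          by_cases hκ : own i = some κ
          · rw [if_pos hκ]
            have a1 : (if y i then g y else f y) ≤ 1 := by
              split_ifs
              · exact hg.lwLeOne _
              · exact hf.lwLeOne _
            linarith [hF.lwNonneg (base z)]
          · rw [if_neg hκ, hbr y (by rw [hy i hκ, hv z])]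
            exact F3 κ z y hy
      cases v
      · exact key f Hf hf f1 f2 f3 (fun y hy => by simp [hy])
      · exact key g Hg hg g1 g2 g3 (fun y hy => by simp [hy])

/-- truncation after `d` queries to an lwArea. -/
theorem DTC.trunc {N : Type} [Fintype N] [DecidableEq N] (ar : ι → N) {r : ℕ}
    {f : (ι → Bool) → ℝ} (h : DTC r f) :
    ∃ cnt : N → (ι → Bool) → ℕ, (∀ x, ∑ b, cnt b x ≤ r) ∧
      ∀ (b : N) (d : ℕ) (y : ι → Bool), ∃ g : (ι → Bool) → ℝ, DTC d g ∧
        ∀ x, (∀ i, ar i ≠ b → x i = y i) →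
          f x ≤ g x ∧ g x ≤ f x + (if d < cnt b x then 1 else 0) := by
  induction h with
  | const r c h0 h1 =>
    refine ⟨fun _ _ => 0, fun x => by simp, fun b d y => ⟨fun _ => c, DTC.const d c h0 h1, ?_⟩⟩
    intro x hx
    simp
  | ask r i f g hf hg ihf ihg =>
    obtain ⟨cf, f1, f2⟩ := ihf
    obtain ⟨cg, g1, g2⟩ := ihg
    refine ⟨fun b x => (if ar i = b then 1 else 0) + (if x i then cg b x else cf b x), ?_, ?_⟩
    · intro x
      rw [Finset.sum_add_distrib, Finset.sum_ite_eq, if_pos (Finset.mem_univ _)]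
      by_cases hx : x i
      · simp only [hx, if_true]
        have := g1 x
        omega
      · simp only [hx]
        have := f1 x
        simp only [Bool.false_eq_true, if_false]
        omega
    · intro b d y
      by_cases hb : ar i = b
      · cases d with
        | zero =>
          refine ⟨fun _ => 1, DTC.const 0 1 zero_le_one le_rfl, ?_⟩
          intro x hx
          have a1 : 0 ≤ (if x i then g x else f x) ∧ (if x i then g x else f x) ≤ 1 := by
            split_ifs
            · exact ⟨hg.lwNonneg _, hg.lwLeOne _⟩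
            · exact ⟨hf.lwNonneg _, hf.lwLeOne _⟩
          refine ⟨a1.2, ?_⟩
          rw [if_pos (by beta_reduce; rw [if_pos hb]; omega)]
          linarith [a1.1]
        | succ d =>
          obtain ⟨gf, f3, f4⟩ := f2 b d y
          obtain ⟨gg, g3, g4⟩ := g2 b d y
          refine ⟨fun x => if x i then gg x else gf x, DTC.ask d i _ _ f3 g3, ?_⟩
          intro x hx
          by_cases hxi : x i
          · simp only [hxi, if_true, hb]
            have := g4 x hx
            refine ⟨this.1, this.2.trans ?_⟩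
            have e : (d < cg b x) ↔ (d + 1 < 1 + cg b x) := by omega
            simp only [e]
            exact le_rfl
          · simp only [hxi, hb, if_true, Bool.false_eq_true, if_false]
            have := f4 x hx
            refine ⟨this.1, this.2.trans ?_⟩
            have e : (d < cf b x) ↔ (d + 1 < 1 + cf b x) := by omega
            simp only [e]
            exact le_rfl
      · obtain ⟨gf, f3, f4⟩ := f2 b d y
        obtain ⟨gg, g3, g4⟩ := g2 b d y
        by_cases hyi : y i
        · refine ⟨gg, g3, ?_⟩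
          intro x hx
          have hxi : x i = true := by rw [hx i hb, hyi]
          simp only [hxi, if_true, hb, if_false, zero_add]
          exact g4 x hx
        · refine ⟨gf, f3, ?_⟩
          intro x hx
          have hxi : x i = false := by
            rw [hx i hb]
            simpa using hyi
          simp only [hxi, hb, if_false, zero_add, Bool.false_eq_true]
          exact f4 x hx

end basic

/-! ### resampling one coordinate -/

/-- `∑_Z ∑_y H (update Z a y) = |β| ∑_Z H Z`. -/
theorem lwSumUpdate {L β : Type} [Fintype L] [DecidableEq L] [Fintype β] [DecidableEq β] (a : L)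
    (H : (L → β) → ℝ) :
    ∑ Z : L → β, ∑ y : β, H (Function.update Z a y) = Fintype.card β * ∑ Z, H Z := by
  classical
  have e1 : ∑ Z : L → β, ∑ y : β, H (Function.update Z a y)
      = ∑ q : (L → β) × β, H (Function.update q.1 a q.2) := by
    rw [Fintype.sum_prod_type]
  have e2 : ∑ q : (L → β) × β, H (Function.update q.1 a q.2) = ∑ q : (L → β) × β, H q.1 := by
    refine Fintype.sum_equiv
      (⟨fun q => (Function.update q.1 a q.2, q.1 a), fun q => (Function.update q.1 a q.2, q.1 a),
        ?_, ?_⟩ : (L → β) × β ≃ (L → β) × β) _ _ ?_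
    · intro q
      simp
    · intro q
      simp
    · intro q
      rfl
  rw [e1, e2, Fintype.sum_prod_type]
  simp only [Finset.sum_const, Finset.card_univ, nsmul_eq_mul]
  rw [Finset.mul_sum]

/-- resampling coordinate `a` under a product weight. -/
theorem lwSumProdResample {L β : Type} [Fintype L] [DecidableEq L] [Fintype β] [DecidableEq β]
    [Nonempty β] (a : L) (p p' : L → β → ℝ) (hp : ∀ l, l ≠ a → p l = p' l)
    (hp' : ∑ y, p' a y = 1) (G : (L → β) → ℝ) :
    ∑ Z : L → β, (∏ l, p l (Z l)) * G Z =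
      ∑ Z : L → β, (∏ l, p' l (Z l)) * ∑ y, p a y * G (Function.update Z a y) := by
  classical
  have hcard : (Fintype.card β : ℝ) ≠ 0 := by
    exact_mod_cast Fintype.card_ne_zero
  apply mul_left_cancel₀ hcard
  rw [← lwSumUpdate a (fun Z => (∏ l, p l (Z l)) * G Z),
    ← lwSumUpdate a (fun Z => (∏ l, p' l (Z l)) * ∑ y, p a y * G (Function.update Z a y))]
  refine Finset.sum_congr rfl fun Z _ => ?_
  have hprod : ∀ (q : L → β → ℝ) (y : β), (∏ l, q l (Function.update Z a y l)) =
      q a y * ∏ l ∈ Finset.univ.erase a, q l (Z l) := by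
    intro q y
    rw [← Finset.mul_prod_erase Finset.univ _ (Finset.mem_univ a)]
    rw [Function.update_self]
    congr 1
    refine Finset.prod_congr rfl fun l hl => ?_
    rw [Function.update_of_ne (Finset.ne_of_mem_erase hl)]
  have hpp : ∏ l ∈ Finset.univ.erase a, p l (Z l) = ∏ l ∈ Finset.univ.erase a, p' l (Z l) := by
    refine Finset.prod_congr rfl fun l hl => ?_
    rw [hp l (Finset.ne_of_mem_erase hl)]
  simp only [hprod, Function.update_idem]
  rw [hpp]
  have : ∀ y, p' a y * (∏ l ∈ Finset.univ.erase a, p' l (Z l)) *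
      ∑ y', p a y' * G (Function.update Z a y') =
      p' a y * ((∏ l ∈ Finset.univ.erase a, p' l (Z l)) *
        ∑ y', p a y' * G (Function.update Z a y')) := by
    intro y; ring
  simp only [this]
  rw [← Finset.sum_mul, hp', one_mul, Finset.mul_sum]
  refine Finset.sum_congr rfl fun y _ => ?_
  ring

/-! ### conversion of randomized algorithms -/

theorem dtc_of_tree {n : ℕ} {ι : Type} (e : ι ≃ Fin n) (T : DTree n) :
    DTC T.depth (fun x : ι → Bool => if T.eval (fun k => x (e.symm k)) then (1 : ℝ) else 0) := by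
  induction T with
  | answer b =>
    cases b
    · have := DTC.const (ι := ι) 0 0 le_rfl zero_le_one
      simpa [DTree.eval, DTree.depth] using this
    · have := DTC.const (ι := ι) 0 1 zero_le_one le_rfl
      simpa [DTree.eval, DTree.depth] using this
  | read i t₀ t₁ ih0 ih1 =>
    have := DTC.ask (max t₀.depth t₁.depth) (e.symm i) _ _ (ih0.lwMono (le_max_left _ _))
      (ih1.lwMono (le_max_right _ _))
    refine (congrArg (DTC (DTree.read i t₀ t₁).depth) ?_).mpr this
    funext x
    by_cases hx : x (e.symm i) <;> simp [DTree.eval, hx]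

/-- T6'': randomized computation in the frozen sense gives `RComp`. -/
theorem rcomp_of {n : ℕ} {ι : Type} (e : ι ≃ Fin n) (F : (ι → Bool) → Bool) (r : ℕ)
    (h : RandomizedComputes (fun y : Fin n → Bool => F (fun i => y (e i))) r) : RComp F r := by
  obtain ⟨s, p, T, hp0, hp1, hT, hF⟩ := h
  refine ⟨s, p, fun j x => if (T j).eval (fun k => x (e.symm k)) then (1 : ℝ) else 0, hp0, hp1,
    fun j => (dtc_of_tree e (T j)).lwMono (hT j), ?_, ?_⟩
  · intro x hx
    have h1 := hF (fun k => x (e.symm k))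
    simp only [Equiv.symm_apply_apply, hx] at h1
    refine h1.trans (le_of_eq ?_)
    refine Finset.sum_congr rfl fun j _ => ?_
    by_cases hj : (T j).eval (fun k => x (e.symm k)) = true <;> simp [hj]
  · intro x hx
    have h1 := hF (fun k => x (e.symm k))
    simp only [Equiv.symm_apply_apply, hx] at h1
    have h2 : (∑ j, p j * (if (T j).eval (fun k => x (e.symm k)) then (1 : ℝ) else 0)) +
        (∑ j, if (T j).eval (fun k => x (e.symm k)) = false then p j else 0) = 1 := by
      rw [← Finset.sum_add_distrib]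
      refine (Finset.sum_congr rfl fun j _ => ?_).trans hp1
      by_cases hj : (T j).eval (fun k => x (e.symm k)) = true <;> simp [hj]
    linarith

/-! ### hybrid argument -/

theorem hybrid_step {ξ L : Type} [Fintype ξ] [DecidableEq ξ] [Fintype L] [DecidableEq L]
    (μ : (ξ → Bool) → ℝ) (h0 : ∀ x, 0 ≤ μ x) (h1 : ∑ x, μ x = 1) (d : ℕ) (α : ℝ)
    (hα : ∀ f : (ξ → Bool) → ℝ, DTC d f →
      |∑ x, μ x * f x - (∑ x, f x) / Fintype.card (ξ → Bool)| ≤ α)
    (f : (L × ξ → Bool) → ℝ) (hf : DTC d f) (S : Finset L) :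
    |∑ Z : L → ξ → Bool, (∏ l, (if l ∈ S then μ (Z l)
        else 1 / (Fintype.card (ξ → Bool) : ℝ))) * f (fun q => Z q.1 q.2)
      - ∑ Z : L → ξ → Bool, (∏ _l : L, 1 / (Fintype.card (ξ → Bool) : ℝ)) *
        f (fun q => Z q.1 q.2)| ≤ S.card * α := by
  classical
  have hcard : (0 : ℝ) < (Fintype.card (ξ → Bool) : ℝ) := by
    exact_mod_cast Fintype.card_pos
  have hunif : ∑ _y : ξ → Bool, 1 / (Fintype.card (ξ → Bool) : ℝ) = 1 := by
    rw [Finset.sum_const, Finset.card_univ, nsmul_eq_mul]
    field_simp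
  induction S using Finset.induction_on with
  | empty => simp
  | insert a S ha ih =>
    -- one step
    set D : Finset L → (L → (ξ → Bool)) → ℝ := fun S Z =>
      ∏ l, (if l ∈ S then μ (Z l) else 1 / (Fintype.card (ξ → Bool) : ℝ)) with hD
    have hDnn : ∀ S Z, 0 ≤ D S Z := by
      intro S Z
      refine Finset.prod_nonneg fun l _ => ?_
      split_ifs
      · exact h0 _
      · positivity
    have hDsum : ∀ S : Finset L, ∑ Z, D S Z = 1 := by
      intro S
      have : ∑ Z : L → (ξ → Bool), D S Z = ∏ l : L, ∑ y : ξ → Bool,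
          (if l ∈ S then μ y else 1 / (Fintype.card (ξ → Bool) : ℝ)) := by
        rw [Finset.prod_univ_sum, Fintype.piFinset_univ]
      rw [this]
      refine Finset.prod_eq_one fun l _ => ?_
      by_cases hl : l ∈ S
      · simp only [hl, if_true, h1]
      · simp only [hl, if_false, hunif]
    have hstep : |∑ Z, D (insert a S) Z * f (fun q => Z q.1 q.2)
        - ∑ Z, D S Z * f (fun q => Z q.1 q.2)| ≤ α := by
      have e1 : ∑ Z, D (insert a S) Z * f (fun q => Z q.1 q.2) =
          ∑ Z, D S Z * ∑ y, μ y * f (fun q => Function.update Z a y q.1 q.2) := by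
        have := lwSumProdResample (β := ξ → Bool) a
          (fun l y => if l ∈ insert a S then μ y else 1 / (Fintype.card (ξ → Bool) : ℝ))
          (fun l y => if l ∈ S then μ y else 1 / (Fintype.card (ξ → Bool) : ℝ))
          (fun l hl => by simp [hl]) (by simp only [ha, if_false]; exact hunif)
          (fun Z => f (fun q => Z q.1 q.2))
        simp only [Finset.mem_insert_self, if_true] at this
        exact this
      have e2 : ∑ Z, D S Z * f (fun q => Z q.1 q.2) =
          ∑ Z, D S Z * ∑ y, 1 / (Fintype.card (ξ → Bool) : ℝ) *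
            f (fun q => Function.update Z a y q.1 q.2) := by
        have := lwSumProdResample (β := ξ → Bool) a
          (fun l y => if l ∈ S then μ y else 1 / (Fintype.card (ξ → Bool) : ℝ))
          (fun l y => if l ∈ S then μ y else 1 / (Fintype.card (ξ → Bool) : ℝ))
          (fun l hl => rfl) (by simp only [ha, if_false]; exact hunif)
          (fun Z => f (fun q => Z q.1 q.2))
        simp only [ha, if_false] at this
        exact this
      rw [e1, e2, ← Finset.sum_sub_distrib]
      have hterm : ∀ Z, |D S Z * ∑ y, μ y * f (fun q => Function.update Z a y q.1 q.2)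
          - D S Z * ∑ y, 1 / (Fintype.card (ξ → Bool) : ℝ) *
            f (fun q => Function.update Z a y q.1 q.2)| ≤ D S Z * α := by
        intro Z
        rw [← mul_sub, abs_mul, abs_of_nonneg (hDnn S Z)]
        refine mul_le_mul_of_nonneg_left ?_ (hDnn S Z)
        have hsub : DTC d (fun y : ξ → Bool => f (fun q => Function.update Z a y q.1 q.2)) := by
          refine hf.lwSubst (fun y q => Function.update Z a y q.1 q.2) ?_
          rintro ⟨l, i⟩
          by_cases hl : l = a
          · left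
            refine ⟨i, fun z => ?_⟩
            subst hl
            simp
          · right
            refine ⟨Z l i, fun z => ?_⟩
            simp [Function.update_of_ne hl]
        have := hα _ hsub
        rw [Finset.sum_div] at this
        refine le_trans (le_of_eq ?_) this
        congr 2
        refine Finset.sum_congr rfl fun y _ => ?_
        ring
      calc |∑ Z, (D S Z * ∑ y, μ y * f (fun q => Function.update Z a y q.1 q.2)
          - D S Z * ∑ y, 1 / (Fintype.card (ξ → Bool) : ℝ) *
            f (fun q => Function.update Z a y q.1 q.2))|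
          ≤ ∑ Z, |D S Z * ∑ y, μ y * f (fun q => Function.update Z a y q.1 q.2)
          - D S Z * ∑ y, 1 / (Fintype.card (ξ → Bool) : ℝ) *
            f (fun q => Function.update Z a y q.1 q.2)| := Finset.abs_sum_le_sum_abs _ _
        _ ≤ ∑ Z, D S Z * α := Finset.sum_le_sum fun Z _ => hterm Z
        _ = α := by rw [← Finset.sum_mul, hDsum, one_mul]
    rw [Finset.card_insert_of_notMem ha]
    push_cast
    have htri := abs_add_le (∑ Z, D (insert a S) Z * f (fun q => Z q.1 q.2)
        - ∑ Z, D S Z * f (fun q => Z q.1 q.2)) (∑ Z, D S Z * f (fun q => Z q.1 q.2) -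
        ∑ Z : L → ξ → Bool, (∏ _l : L, 1 / (Fintype.card (ξ → Bool) : ℝ)) *
        f (fun q => Z q.1 q.2))
    have e3 : (∑ Z, D (insert a S) Z * f (fun q => Z q.1 q.2)
        - ∑ Z, D S Z * f (fun q => Z q.1 q.2)) + (∑ Z, D S Z * f (fun q => Z q.1 q.2) -
        ∑ Z : L → ξ → Bool, (∏ _l : L, 1 / (Fintype.card (ξ → Bool) : ℝ)) *
        f (fun q => Z q.1 q.2)) = ∑ Z, D (insert a S) Z * f (fun q => Z q.1 q.2) -
        ∑ Z : L → ξ → Bool, (∏ _l : L, 1 / (Fintype.card (ξ → Bool) : ℝ)) *
        f (fun q => Z q.1 q.2) := by ring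
    rw [e3] at htri
    have : (((S.card : ℝ)) + 1) * α = α + S.card * α := by ring
    rw [this]
    exact htri.trans (add_le_add hstep ih)

/-- T6': hybrid over independent copies: product of `L` distributions each `α`-close to uniform
for depth-`d` trees. `w l = true` uses `μ`, otherwise uniform. -/
theorem hybrid_copies {ξ L : Type} [Fintype ξ] [DecidableEq ξ] [Fintype L] [DecidableEq L]
    (μ : (ξ → Bool) → ℝ) (h0 : ∀ x, 0 ≤ μ x) (h1 : ∑ x, μ x = 1) (d : ℕ) (α : ℝ)
    (hα : ∀ f : (ξ → Bool) → ℝ, DTC d f →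
      |∑ x, μ x * f x - (∑ x, f x) / Fintype.card (ξ → Bool)| ≤ α)
    (w : L → Bool) (f : (L × ξ → Bool) → ℝ) (hf : DTC d f) :
    |∑ z : L × ξ → Bool, (∏ l, (if w l then μ (fun i => z (l, i))
        else 1 / (Fintype.card (ξ → Bool) : ℝ))) * f z
      - (∑ z, f z) / Fintype.card (L × ξ → Bool)| ≤ Fintype.card L * α := by
  classical
  have hα0 : 0 ≤ α := le_trans (abs_nonneg _) (hα (fun _ => 0) (DTC.const d 0 le_rfl zero_le_one))
  have hstep := hybrid_step μ h0 h1 d α hα f hf (Finset.univ.filter fun l => w l = true)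
  have e1 : ∑ z : L × ξ → Bool, (∏ l, (if w l then μ (fun i => z (l, i))
        else 1 / (Fintype.card (ξ → Bool) : ℝ))) * f z =
      ∑ Z : L → ξ → Bool, (∏ l, (if l ∈ Finset.univ.filter (fun l => w l = true) then μ (Z l)
        else 1 / (Fintype.card (ξ → Bool) : ℝ))) * f (fun q => Z q.1 q.2) := by
    refine Fintype.sum_equiv (Equiv.curry L ξ Bool) _ _ fun z => ?_
    simp only [Finset.mem_filter, Finset.mem_univ, true_and]
    rfl
  have e2 : (∑ z, f z) / Fintype.card (L × ξ → Bool) =
      ∑ Z : L → ξ → Bool, (∏ _l : L, 1 / (Fintype.card (ξ → Bool) : ℝ)) *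
        f (fun q => Z q.1 q.2) := by
    rw [Finset.sum_div]
    refine Fintype.sum_equiv (Equiv.curry L ξ Bool) _ _ fun z => ?_
    have hc : (Fintype.card (L × ξ → Bool) : ℝ) =
        (Fintype.card (ξ → Bool) : ℝ) ^ Fintype.card L := by
      rw [Fintype.card_congr (Equiv.curry L ξ Bool), Fintype.card_fun (α := L) (β := ξ → Bool)]
      push_cast
      rfl
    rw [hc, Finset.prod_const, Finset.card_univ, one_div, inv_pow, div_eq_inv_mul]
    rfl
  rw [e1, e2]
  refine hstep.trans ?_
  refine mul_le_mul_of_nonneg_right ?_ hα0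
  exact_mod_cast Finset.card_le_univ _

/-! ### the abstract lower bound -/

section lower

/-- column (lwArea) of an index. -/
def lwArea {N ζ Kp η : Type} : (N × N) ⊕ (N × ζ) ⊕ (N × Kp × η) → N
  | .inl (_, c) => c
  | .inr (.inl (c, _)) => c
  | .inr (.inr (c, _, _)) => c

/-- null input. -/
def lwNul {N ζ Kp η : Type} [DecidableEq N] (e : N → N) (z : N → ζ → Bool) :
    (N × N) ⊕ (N × ζ) ⊕ (N × Kp × η) → Bool
  | .inl (r, c) => decide (r ≠ e c)
  | .inr (.inl (c, w)) => z c w
  | .inr (.inr _) => false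

/-- null input with column `b` all-true and instances of `b` replaced by `w`. -/
def lwBas {N ζ Kp η : Type} [DecidableEq N] (b : N) (e : N → N) (z : N → ζ → Bool)
    (w : ζ → Bool) : (N × N) ⊕ (N × ζ) ⊕ (N × Kp × η) → Bool
  | .inl (r, c) => if c = b then true else decide (r ≠ e c)
  | .inr (.inl (c, j)) => if c = b then w j else z c j
  | .inr (.inr _) => false

/-- owner of an index: the sheet `κ` of column `b`. -/
def lwOwnr {N ζ Kp η : Type} [DecidableEq N] (b : N) :
    (N × N) ⊕ (N × ζ) ⊕ (N × Kp × η) → Option Kp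
  | .inl _ => none
  | .inr (.inl _) => none
  | .inr (.inr (c, κ, _)) => if c = b then some κ else none

variable {N ζ Kp η : Type} [Fintype N] [DecidableEq N] [Nonempty N] [Fintype ζ]
    [DecidableEq ζ] [Fintype Kp] [DecidableEq Kp] [Nonempty Kp] [Fintype η] [DecidableEq η]

omit [Fintype η] [DecidableEq η] in
/-- the comparison for a fixed column `b` and a fixed outside. -/
theorem lower_local (d : ℕ) (α : ℝ)
    (ν : Kp → (ζ → Bool) → ℝ) (hν0 : ∀ κ z, 0 ≤ ν κ z)
    (hadv : ∀ κ, ∀ f : (ζ → Bool) → ℝ, DTC d f →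
      |∑ z, ν κ z * f z - (∑ z, f z) / Fintype.card (ζ → Bool)| ≤ α)
    (content : N → Kp → (N → N) → (ζ → Bool) → η → Bool)
    (b : N) (e : N → N) (z : N → ζ → Bool)
    (f g : ((N × N) ⊕ (N × ζ) ⊕ (N × Kp × η) → Bool) → ℝ) (cnt : N →
      ((N × N) ⊕ (N × ζ) ⊕ (N × Kp × η) → Bool) → ℕ) (hg : DTC d g)
    (hfg : ∀ x, (∀ i, lwArea i ≠ b → x i = lwNul e z i) →
          f x ≤ g x ∧ g x ≤ f x + (if d < cnt b x then 1 else 0)) :
    (∑ κ, ∑ w, ν κ w * f (build content b κ e (Function.update z b w))) / Fintype.card Kp ≤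
      (∑ w : ζ → Bool, ∑ ρ : N, (f (lwNul (Function.update e b ρ) (Function.update z b w)) +
        (if d < cnt b (lwNul (Function.update e b ρ) (Function.update z b w)) then 1 else 0))) /
        (Fintype.card (ζ → Bool) * Fintype.card N) + ((d : ℝ) / Fintype.card N
        + (d : ℝ) / Fintype.card Kp + 2 * α) := by
  classical
  have hN : (0 : ℝ) < Fintype.card N := by exact_mod_cast Fintype.card_pos
  have hK : (0 : ℝ) < Fintype.card Kp := by exact_mod_cast Fintype.card_pos
  have hW : (0 : ℝ) < (Fintype.card (ζ → Bool) : ℝ) := by exact_mod_cast Fintype.card_pos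
  have hbs : ∀ i : (N × N) ⊕ (N × ζ) ⊕ (N × Kp × η),
      (∃ j : ζ, lwOwnr b i = none ∧ ∀ w : ζ → Bool, lwBas b e z w i = w j) ∨
        (∃ v, ∀ w : ζ → Bool, lwBas b e z w i = v) := by
    rintro (⟨r, c⟩ | ⟨c, j⟩ | ⟨c, κ, h⟩)
    · right
      exact ⟨_, fun w => rfl⟩
    · by_cases hc : c = b
      · left
        exact ⟨j, rfl, fun w => by simp [lwBas, hc]⟩
      · right
        exact ⟨z c j, fun w => by simp [lwBas, hc]⟩
    · right
      exact ⟨_, fun w => rfl⟩
  -- detection
  obtain ⟨H, H1, H2, H3⟩ := hg.detect (P := Kp) (lwBas b e z) (lwOwnr b) hbs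
  have hgw : DTC d (fun w => g (lwBas b e z w)) := by
    refine hg.lwSubst (lwBas b e z) fun i => ?_
    rcases hbs i with ⟨j, _, hj⟩ | h
    · exact Or.inl ⟨j, hj⟩
    · exact Or.inr h
  -- step 2 and 3
  have s1 : ∀ κ, ∑ w, ν κ w * f (build content b κ e (Function.update z b w)) ≤
      (∑ w, g (lwBas b e z w)) / Fintype.card (ζ → Bool) +
      (∑ w, H κ w) / Fintype.card (ζ → Bool) + 2 * α := by
    intro κ
    have a1 : ∀ w, f (build content b κ e (Function.update z b w)) ≤
        g (lwBas b e z w) + H κ w := by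
      intro w
      have b1 : f (build content b κ e (Function.update z b w)) ≤
          g (build content b κ e (Function.update z b w)) := by
        refine (hfg _ ?_).1
        rintro (⟨r, c⟩ | ⟨c, j⟩ | ⟨c, κ', h⟩) hi
        · have hc : c ≠ b := hi
          simp [build, lwNul, hc]
        · have hc : c ≠ b := hi
          simp [build, lwNul, hc]
        · have hc : c ≠ b := hi
          simp [build, lwNul, hc]
      have b2 : g (build content b κ e (Function.update z b w)) ≤
          g (lwBas b e z w) + H κ w := by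
        refine H3 κ w _ ?_
        rintro (⟨r, c⟩ | ⟨c, j⟩ | ⟨c, κ', h⟩) hi
        · rfl
        · by_cases hc : c = b
          · subst hc
            simp [build, lwBas]
          · simp [build, lwBas, hc]
        · have : ¬ (c = b ∧ κ' = κ) := by
            rintro ⟨h1, h2⟩
            apply hi
            simp [lwOwnr, h1, h2]
          simp [build, lwBas, this]
      exact b1.trans b2
    have a2 : ∑ w, ν κ w * f (build content b κ e (Function.update z b w)) ≤
        ∑ w, ν κ w * g (lwBas b e z w) + ∑ w, ν κ w * H κ w := by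
      rw [← Finset.sum_add_distrib]
      refine Finset.sum_le_sum fun w _ => ?_
      rw [← mul_add]
      exact mul_le_mul_of_nonneg_left (a1 w) (hν0 κ w)
    have a3 := (abs_le.mp (hadv κ _ hgw)).2
    have a4 := (abs_le.mp (hadv κ _ (H1 κ))).2
    linarith
  have s2 : ∑ κ, ∑ w, ν κ w * f (build content b κ e (Function.update z b w)) ≤
      Fintype.card Kp * ((∑ w, g (lwBas b e z w)) / Fintype.card (ζ → Bool)) + d +
        Fintype.card Kp * (2 * α) := by
    calc ∑ κ, ∑ w, ν κ w * f (build content b κ e (Function.update z b w))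
        ≤ ∑ κ : Kp, ((∑ w, g (lwBas b e z w)) / Fintype.card (ζ → Bool) +
          (∑ w, H κ w) / Fintype.card (ζ → Bool) + 2 * α) := Finset.sum_le_sum fun κ _ => s1 κ
      _ = Fintype.card Kp * ((∑ w, g (lwBas b e z w)) / Fintype.card (ζ → Bool)) +
          (∑ w, ∑ κ, H κ w) / Fintype.card (ζ → Bool) + Fintype.card Kp * (2 * α) := by
          rw [Finset.sum_add_distrib, Finset.sum_add_distrib, Finset.sum_const, Finset.sum_const,
            Finset.card_univ, nsmul_eq_mul, nsmul_eq_mul, ← Finset.sum_div, Finset.sum_comm]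
      _ ≤ _ := by
          have : (∑ w : ζ → Bool, ∑ κ, H κ w) / Fintype.card (ζ → Bool) ≤ d := by
            rw [div_le_iff₀ hW]
            calc (∑ w : ζ → Bool, ∑ κ, H κ w) ≤ ∑ w : ζ → Bool, (d : ℝ) :=
                  Finset.sum_le_sum fun w _ => H2 w
              _ = d * Fintype.card (ζ → Bool) := by
                  rw [Finset.sum_const, Finset.card_univ, nsmul_eq_mul, mul_comm]
          linarith
  -- step 1
  have s3 : ∀ w : ζ → Bool, Fintype.card N * g (lwBas b e z w) ≤
      (∑ ρ : N, (f (lwNul (Function.update e b ρ) (Function.update z b w)) +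
        (if d < cnt b (lwNul (Function.update e b ρ) (Function.update z b w)) then 1 else 0)))
        + d := by
    intro w
    have a1 := hg.sum_pert (P := N) (lwBas b e z w)
      (fun ρ => lwNul (Function.update e b ρ) (Function.update z b w)) (by
        rintro (⟨r, c⟩ | ⟨c, j⟩ | ⟨c, κ', h⟩)
        · refine ⟨some r, fun ρ hρ => ?_⟩
          by_cases hc : c = b
          · subst hc
            have : r ≠ ρ := fun h => hρ (by rw [h])
            simp [lwNul, lwBas, this]
          · simp [lwNul, lwBas, hc]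
        · refine ⟨none, fun ρ hρ => ?_⟩
          by_cases hc : c = b
          · subst hc
            simp [lwNul, lwBas]
          · simp [lwNul, lwBas, hc]
        · exact ⟨none, fun ρ _ => rfl⟩)
    have a2 : ∀ ρ : N, g (lwBas b e z w) ≤
        (f (lwNul (Function.update e b ρ) (Function.update z b w)) +
        (if d < cnt b (lwNul (Function.update e b ρ) (Function.update z b w)) then 1 else 0)) +
        |g (lwNul (Function.update e b ρ) (Function.update z b w)) - g (lwBas b e z w)| := by
      intro ρ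
      have b1 := (hfg (lwNul (Function.update e b ρ) (Function.update z b w)) (by
        rintro (⟨r, c⟩ | ⟨c, j⟩ | ⟨c, κ', h⟩) hi
        · have hc : c ≠ b := hi
          simp [lwNul, hc]
        · have hc : c ≠ b := hi
          simp [lwNul, hc]
        · rfl)).2
      have b2 := neg_abs_le (g (lwNul (Function.update e b ρ) (Function.update z b w))
        - g (lwBas b e z w))
      linarith
    calc (Fintype.card N : ℝ) * g (lwBas b e z w) = ∑ ρ : N, g (lwBas b e z w) := by
          rw [Finset.sum_const, Finset.card_univ, nsmul_eq_mul]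
      _ ≤ ∑ ρ : N, ((f (lwNul (Function.update e b ρ) (Function.update z b w)) +
        (if d < cnt b (lwNul (Function.update e b ρ) (Function.update z b w)) then 1 else 0)) +
        |g (lwNul (Function.update e b ρ) (Function.update z b w)) - g (lwBas b e z w)|) :=
          Finset.sum_le_sum fun ρ _ => a2 ρ
      _ ≤ _ := by
          rw [Finset.sum_add_distrib]
          exact add_le_add le_rfl a1
  have s4 : Fintype.card N * ∑ w, g (lwBas b e z w) ≤
      (∑ w : ζ → Bool, ∑ ρ : N, (f (lwNul (Function.update e b ρ) (Function.update z b w)) +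
        (if d < cnt b (lwNul (Function.update e b ρ) (Function.update z b w)) then 1 else 0)))
        + d * Fintype.card (ζ → Bool) := by
    rw [Finset.mul_sum]
    refine (Finset.sum_le_sum fun w _ => s3 w).trans ?_
    rw [Finset.sum_add_distrib, Finset.sum_const, Finset.card_univ, nsmul_eq_mul]
    linarith
  set X := ∑ w : ζ → Bool, ∑ ρ : N, (f (lwNul (Function.update e b ρ) (Function.update z b w)) +
        (if d < cnt b (lwNul (Function.update e b ρ) (Function.update z b w)) then (1 : ℝ) else 0))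
    with hX
  set Y := ∑ w, g (lwBas b e z w) with hY
  rw [div_le_iff₀ hK]
  refine s2.trans ?_
  have s5 : Y / (Fintype.card (ζ → Bool) : ℝ) ≤
      X / (Fintype.card (ζ → Bool) * Fintype.card N) + (d : ℝ) / Fintype.card N := by
    rw [div_add_div _ _ (by positivity) (by positivity), div_le_div_iff₀ (by positivity)
      (by positivity)]
    nlinarith [mul_le_mul_of_nonneg_right s4
      (by positivity : (0 : ℝ) ≤ (Fintype.card (ζ → Bool) : ℝ) * Fintype.card N)]
  have s6 : (d : ℝ) / Fintype.card Kp * Fintype.card Kp = d := by field_simp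
  calc (Fintype.card Kp : ℝ) * (Y / (Fintype.card (ζ → Bool) : ℝ)) + d +
        Fintype.card Kp * (2 * α)
      ≤ (Fintype.card Kp : ℝ) * (X / (Fintype.card (ζ → Bool) * Fintype.card N) +
        (d : ℝ) / Fintype.card N) + (d : ℝ) / Fintype.card Kp * Fintype.card Kp +
        Fintype.card Kp * (2 * α) := by
        rw [s6]
        have := mul_le_mul_of_nonneg_left s5 hK.le
        linarith
    _ = _ := by ring

omit [Fintype Kp] [DecidableEq Kp] [Nonempty Kp] [Fintype η]
  [DecidableEq η] [Nonempty N] in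
theorem lwSumNulUpdate (b : N)
    (G : ((N × N) ⊕ (N × ζ) ⊕ (N × Kp × η) → Bool) → ℝ) :
    ∑ e : N → N, ∑ z : N → ζ → Bool, ∑ w : ζ → Bool, ∑ ρ : N,
      G (lwNul (Function.update e b ρ) (Function.update z b w)) =
    Fintype.card N * (Fintype.card (ζ → Bool) * ∑ e : N → N, ∑ z : N → ζ → Bool, G (lwNul e z)) := by
  classical
  calc ∑ e : N → N, ∑ z : N → ζ → Bool, ∑ w : ζ → Bool, ∑ ρ : N,
      G (lwNul (Function.update e b ρ) (Function.update z b w))
      = ∑ z : N → ζ → Bool, ∑ w : ζ → Bool, ∑ e : N → N, ∑ ρ : N,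
      G (lwNul (Function.update e b ρ) (Function.update z b w)) := by
        rw [Finset.sum_comm]
        refine Finset.sum_congr rfl fun z _ => ?_
        rw [Finset.sum_comm]
    _ = ∑ z : N → ζ → Bool, ∑ w : ζ → Bool, (Fintype.card N : ℝ) * ∑ e : N → N,
      G (lwNul e (Function.update z b w)) := by
        refine Finset.sum_congr rfl fun z _ => Finset.sum_congr rfl fun w _ => ?_
        exact lwSumUpdate b (fun e => G (lwNul e (Function.update z b w)))
    _ = (Fintype.card N : ℝ) * ∑ z : N → ζ → Bool, ∑ w : ζ → Bool, ∑ e : N → N,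
      G (lwNul e (Function.update z b w)) := by
        simp only [Finset.mul_sum]
    _ = (Fintype.card N : ℝ) * (Fintype.card (ζ → Bool) * ∑ z : N → ζ → Bool, ∑ e : N → N,
      G (lwNul e z)) := by
        congr 1
        exact lwSumUpdate b (fun z => ∑ e : N → N, G (lwNul e z))
    _ = _ := by rw [Finset.sum_comm]

omit [Fintype η] [DecidableEq η] in
/-- comparison of planted and null averages for one tree (unnormalized). -/
theorem lower_tree (d r : ℕ) (hd : 1 ≤ d) (α : ℝ)
    (ν : Kp → (ζ → Bool) → ℝ) (hν0 : ∀ κ z, 0 ≤ ν κ z)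
    (hadv : ∀ κ, ∀ f : (ζ → Bool) → ℝ, DTC d f →
      |∑ z, ν κ z * f z - (∑ z, f z) / Fintype.card (ζ → Bool)| ≤ α)
    (content : N → Kp → (N → N) → (ζ → Bool) → η → Bool)
    (f : ((N × N) ⊕ (N × ζ) ⊕ (N × Kp × η) → Bool) → ℝ) (hf : DTC r f) :
    (∑ b : N, ∑ e : N → N, ∑ z : N → ζ → Bool, ∑ κ, ∑ w,
      ν κ w * f (build content b κ e (Function.update z b w))) ≤
      (Fintype.card Kp * Fintype.card N) * (∑ e : N → N, ∑ z : N → ζ → Bool, f (lwNul e z)) +
      (Fintype.card Kp * Fintype.card N) * (Fintype.card (N → N) *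
        Fintype.card (N → ζ → Bool)) *
        ((r : ℝ) / (d * Fintype.card N) + (d : ℝ) / Fintype.card N
        + (d : ℝ) / Fintype.card Kp + 2 * α) := by
  classical
  have hN : (0 : ℝ) < Fintype.card N := by exact_mod_cast Fintype.card_pos
  have hK : (0 : ℝ) < Fintype.card Kp := by exact_mod_cast Fintype.card_pos
  have hW : (0 : ℝ) < (Fintype.card (ζ → Bool) : ℝ) := by exact_mod_cast Fintype.card_pos
  have hd0 : (0 : ℝ) < d := by exact_mod_cast hd
  obtain ⟨cnt, c1, c2⟩ := hf.trunc (N := N) lwArea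
  set err : ℝ := (d : ℝ) / Fintype.card N + (d : ℝ) / Fintype.card Kp + 2 * α with herr
  -- per column
  have s1 : ∀ b : N, (∑ e : N → N, ∑ z : N → ζ → Bool, ∑ κ, ∑ w,
      ν κ w * f (build content b κ e (Function.update z b w))) ≤
      Fintype.card Kp * ((∑ e : N → N, ∑ z : N → ζ → Bool, f (lwNul e z)) +
        (∑ e : N → N, ∑ z : N → ζ → Bool, (cnt b (lwNul e z) : ℝ) / d) +
        (Fintype.card (N → N) * Fintype.card (N → ζ → Bool)) * err) := by
    intro b
    have a1 : ∀ (e : N → N) (z : N → ζ → Bool), ∑ κ, ∑ w,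
        ν κ w * f (build content b κ e (Function.update z b w)) ≤
        Fintype.card Kp * ((∑ w : ζ → Bool, ∑ ρ : N,
        (f (lwNul (Function.update e b ρ) (Function.update z b w)) +
        (cnt b (lwNul (Function.update e b ρ) (Function.update z b w)) : ℝ) / d)) /
        (Fintype.card (ζ → Bool) * Fintype.card N) + err) := by
      intro e z
      obtain ⟨g, hg, hfg⟩ := c2 b d (lwNul e z)
      have := lower_local d α ν hν0 hadv content b e z f g cnt hg hfg
      rw [div_le_iff₀ hK, mul_comm] at this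
      refine this.trans (mul_le_mul_of_nonneg_left (add_le_add ?_ le_rfl) hK.le)
      refine div_le_div_of_nonneg_right ?_ (by positivity)
      refine Finset.sum_le_sum fun w _ => Finset.sum_le_sum fun ρ _ => add_le_add le_rfl ?_
      split_ifs with h
      · rw [le_div_iff₀ hd0, one_mul]
        exact_mod_cast h.le
      · positivity
    have a2 := lwSumNulUpdate (Kp := Kp) (η := η) (ζ := ζ) b
      (fun x => f x + (cnt b x : ℝ) / d)
    calc (∑ e : N → N, ∑ z : N → ζ → Bool, ∑ κ, ∑ w,
      ν κ w * f (build content b κ e (Function.update z b w)))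
        ≤ ∑ e : N → N, ∑ z : N → ζ → Bool, Fintype.card Kp * ((∑ w : ζ → Bool, ∑ ρ : N,
        (f (lwNul (Function.update e b ρ) (Function.update z b w)) +
        (cnt b (lwNul (Function.update e b ρ) (Function.update z b w)) : ℝ) / d)) /
        (Fintype.card (ζ → Bool) * Fintype.card N) + err) :=
          Finset.sum_le_sum fun e _ => Finset.sum_le_sum fun z _ => a1 e z
      _ = Fintype.card Kp * ((∑ e : N → N, ∑ z : N → ζ → Bool, ∑ w : ζ → Bool, ∑ ρ : N,
        (f (lwNul (Function.update e b ρ) (Function.update z b w)) +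
        (cnt b (lwNul (Function.update e b ρ) (Function.update z b w)) : ℝ) / d)) /
        (Fintype.card (ζ → Bool) * Fintype.card N) +
        (Fintype.card (N → N) * Fintype.card (N → ζ → Bool)) * err) := by
          simp only [← Finset.mul_sum, Finset.sum_add_distrib, ← Finset.sum_div, Finset.sum_const,
            Finset.card_univ, nsmul_eq_mul]
          ring
      _ = Fintype.card Kp * ((∑ e : N → N, ∑ z : N → ζ → Bool, f (lwNul e z)) +
        (∑ e : N → N, ∑ z : N → ζ → Bool, (cnt b (lwNul e z) : ℝ) / d) +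
        (Fintype.card (N → N) * Fintype.card (N → ζ → Bool)) * err) := by
          rw [a2]
          have hne : (Fintype.card (ζ → Bool) : ℝ) * Fintype.card N ≠ 0 := by positivity
          have : (Fintype.card N * (Fintype.card (ζ → Bool) * ∑ e : N → N,
              ∑ z : N → ζ → Bool, (f (lwNul e z) + (cnt b (lwNul e z) : ℝ) / d))) /
              ((Fintype.card (ζ → Bool) : ℝ) * Fintype.card N) =
              ∑ e : N → N, ∑ z : N → ζ → Bool, (f (lwNul e z) + (cnt b (lwNul e z) : ℝ) / d) := by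
            rw [div_eq_iff hne]
            ring
          rw [this]
          simp only [Finset.sum_add_distrib]
  have s2 : ∑ b : N, (∑ e : N → N, ∑ z : N → ζ → Bool, (cnt b (lwNul e z) : ℝ) / d) ≤
      (Fintype.card (N → N) * Fintype.card (N → ζ → Bool)) * ((r : ℝ) / d) := by
    calc ∑ b : N, (∑ e : N → N, ∑ z : N → ζ → Bool, (cnt b (lwNul e z) : ℝ) / d)
        = ∑ e : N → N, ∑ z : N → ζ → Bool, ∑ b : N, (cnt b (lwNul e z) : ℝ) / d := by
          rw [Finset.sum_comm]
          refine Finset.sum_congr rfl fun e _ => ?_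
          rw [Finset.sum_comm]
      _ ≤ ∑ e : N → N, ∑ z : N → ζ → Bool, (r : ℝ) / d := by
          refine Finset.sum_le_sum fun e _ => Finset.sum_le_sum fun z _ => ?_
          rw [← Finset.sum_div]
          refine div_le_div_of_nonneg_right ?_ hd0.le
          exact_mod_cast c1 (lwNul e z)
      _ = _ := by
          simp only [Finset.sum_const, Finset.card_univ, nsmul_eq_mul]
          ring
  calc (∑ b : N, ∑ e : N → N, ∑ z : N → ζ → Bool, ∑ κ, ∑ w,
      ν κ w * f (build content b κ e (Function.update z b w)))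
      ≤ ∑ b : N, Fintype.card Kp * ((∑ e : N → N, ∑ z : N → ζ → Bool, f (lwNul e z)) +
        (∑ e : N → N, ∑ z : N → ζ → Bool, (cnt b (lwNul e z) : ℝ) / d) +
        (Fintype.card (N → N) * Fintype.card (N → ζ → Bool)) * err) :=
        Finset.sum_le_sum fun b _ => s1 b
    _ = Fintype.card Kp * (Fintype.card N * (∑ e : N → N, ∑ z : N → ζ → Bool, f (lwNul e z)) +
        (∑ b : N, ∑ e : N → N, ∑ z : N → ζ → Bool, (cnt b (lwNul e z) : ℝ) / d) +
        Fintype.card N * ((Fintype.card (N → N) * Fintype.card (N → ζ → Bool)) * err)) := by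
        rw [← Finset.mul_sum, Finset.sum_add_distrib, Finset.sum_add_distrib]
        simp only [Finset.sum_const, Finset.card_univ, nsmul_eq_mul]
    _ ≤ Fintype.card Kp * (Fintype.card N * (∑ e : N → N, ∑ z : N → ζ → Bool, f (lwNul e z)) +
        (Fintype.card (N → N) * Fintype.card (N → ζ → Bool)) * ((r : ℝ) / d) +
        Fintype.card N * ((Fintype.card (N → N) * Fintype.card (N → ζ → Bool)) * err)) := by
        refine mul_le_mul_of_nonneg_left ?_ hK.le
        linarith
    _ = _ := by
        have : (r : ℝ) / (d * Fintype.card N) * Fintype.card N = r / d := by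
          field_simp
        rw [herr, ← this]
        ring

/-- T6 (Lower): abstract randomized lower bound. Null distribution: every column `c` has exactly
one `false`, at a random row; all `z` uniform; all sheets blank. Planted: `build` with random
`b, κ, e`, with `z b ∼ ν κ`. `inl (r,c)` = cell in row `r`, column `c`. -/
theorem lower_abstract {N ζ Kp η : Type} [Fintype N] [DecidableEq N] [Nonempty N] [Fintype ζ]
    [DecidableEq ζ] [Fintype Kp] [DecidableEq Kp] [Nonempty Kp] [Fintype η] [DecidableEq η]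
    (F : ((N × N) ⊕ (N × ζ) ⊕ (N × Kp × η) → Bool) → Bool) (d r : ℕ) (hd : 1 ≤ d) (α β : ℝ)
    (ν : Kp → (ζ → Bool) → ℝ) (hν0 : ∀ κ z, 0 ≤ ν κ z) (hν1 : ∀ κ, ∑ z, ν κ z = 1)
    (hadv : ∀ κ, ∀ f : (ζ → Bool) → ℝ, DTC d f →
      |∑ z, ν κ z * f z - (∑ z, f z) / Fintype.card (ζ → Bool)| ≤ α)
    (hF0 : ∀ x, (∀ c, ∃ r, x (Sum.inl (r, c)) = false) → F x = false)
    (content : N → Kp → (N → N) → (ζ → Bool) → η → Bool)
    (Good : Kp → (ζ → Bool) → Prop) [∀ κ, DecidablePred (Good κ)]
    (hGood : ∀ κ, 1 - β ≤ ∑ z, if Good κ z then ν κ z else 0)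
    (hF1 : ∀ (b : N) (κ : Kp) (e : N → N) (z : N → ζ → Bool), Good κ (z b) →
      F (build content b κ e z) = true)
    (hcomp : RComp F r) :
    1 / 3 - β ≤ (r : ℝ) / (d * Fintype.card N) + (d : ℝ) / Fintype.card N
      + (d : ℝ) / Fintype.card Kp + 2 * α := by
  classical
  have hN : (0 : ℝ) < Fintype.card N := by exact_mod_cast Fintype.card_pos
  have hK : (0 : ℝ) < Fintype.card Kp := by exact_mod_cast Fintype.card_pos
  have hE : (0 : ℝ) < (Fintype.card (N → N) : ℝ) := by exact_mod_cast Fintype.card_pos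
  have hZ : (0 : ℝ) < (Fintype.card (N → ζ → Bool) : ℝ) := by exact_mod_cast Fintype.card_pos
  obtain ⟨s, p, f, hp0, hp1, hf, hA1, hA0⟩ := hcomp
  have hβ : 0 ≤ β := by
    obtain ⟨κ⟩ := (inferInstance : Nonempty Kp)
    have h1 : ∑ z, (if Good κ z then ν κ z else 0) ≤ ∑ z, ν κ z := by
      refine Finset.sum_le_sum fun z _ => ?_
      split_ifs
      · exact le_rfl
      · exact hν0 κ z
    have := hGood κ
    rw [hν1 κ] at h1
    linarith
  set err : ℝ := (r : ℝ) / (d * Fintype.card N) + (d : ℝ) / Fintype.card N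
      + (d : ℝ) / Fintype.card Kp + 2 * α with herr
  set A : ((N × N) ⊕ (N × ζ) ⊕ (N × Kp × η) → Bool) → ℝ := fun x => ∑ j, p j * f j x with hA
  have hAnn : ∀ x, 0 ≤ A x := fun x =>
    Finset.sum_nonneg fun j _ => mul_nonneg (hp0 j) ((hf j).lwNonneg x)
  -- averaged comparison
  have s1 : (∑ b : N, ∑ e : N → N, ∑ z : N → ζ → Bool, ∑ κ, ∑ w,
      ν κ w * A (build content b κ e (Function.update z b w))) ≤
      (Fintype.card Kp * Fintype.card N) * (∑ e : N → N, ∑ z : N → ζ → Bool, A (lwNul e z)) +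
      (Fintype.card Kp * Fintype.card N) * (Fintype.card (N → N) *
        Fintype.card (N → ζ → Bool)) * err := by
    have e1 : (∑ b : N, ∑ e : N → N, ∑ z : N → ζ → Bool, ∑ κ, ∑ w,
        ν κ w * A (build content b κ e (Function.update z b w))) =
        ∑ j, p j * (∑ b : N, ∑ e : N → N, ∑ z : N → ζ → Bool, ∑ κ, ∑ w,
        ν κ w * f j (build content b κ e (Function.update z b w))) := by
      simp only [hA, Finset.mul_sum]
      symm
      rw [Finset.sum_comm]
      refine Finset.sum_congr rfl fun b _ => ?_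
      rw [Finset.sum_comm]
      refine Finset.sum_congr rfl fun e _ => ?_
      rw [Finset.sum_comm]
      refine Finset.sum_congr rfl fun z _ => ?_
      rw [Finset.sum_comm]
      refine Finset.sum_congr rfl fun κ _ => ?_
      rw [Finset.sum_comm]
      refine Finset.sum_congr rfl fun w _ => ?_
      refine Finset.sum_congr rfl fun j _ => ?_
      ring
    have e2 : (∑ e : N → N, ∑ z : N → ζ → Bool, A (lwNul e z)) =
        ∑ j, p j * (∑ e : N → N, ∑ z : N → ζ → Bool, f j (lwNul e z)) := by
      simp only [hA, Finset.mul_sum]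
      symm
      rw [Finset.sum_comm]
      refine Finset.sum_congr rfl fun e _ => ?_
      rw [Finset.sum_comm]
    rw [e1, e2]
    calc ∑ j, p j * (∑ b : N, ∑ e : N → N, ∑ z : N → ζ → Bool, ∑ κ, ∑ w,
        ν κ w * f j (build content b κ e (Function.update z b w)))
        ≤ ∑ j, p j * ((Fintype.card Kp * Fintype.card N) *
          (∑ e : N → N, ∑ z : N → ζ → Bool, f j (lwNul e z)) +
          (Fintype.card Kp * Fintype.card N) * (Fintype.card (N → N) *
          Fintype.card (N → ζ → Bool)) * err) := by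
          refine Finset.sum_le_sum fun j _ => mul_le_mul_of_nonneg_left ?_ (hp0 j)
          exact lower_tree d r hd α ν hν0 hadv content (f j) (hf j)
      _ = _ := by
          simp only [mul_add, Finset.sum_add_distrib]
          rw [← Finset.sum_mul, hp1, one_mul]
          congr 1
          rw [Finset.mul_sum]
          refine Finset.sum_congr rfl fun j _ => ?_
          ring
  -- null
  have s2 : (∑ e : N → N, ∑ z : N → ζ → Bool, A (lwNul e z)) ≤
      (Fintype.card (N → N) * Fintype.card (N → ζ → Bool)) * (1 / 3) := by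
    calc (∑ e : N → N, ∑ z : N → ζ → Bool, A (lwNul e z))
        ≤ ∑ e : N → N, ∑ z : N → ζ → Bool, (1 / 3 : ℝ) := by
          refine Finset.sum_le_sum fun e _ => Finset.sum_le_sum fun z _ => ?_
          refine hA0 _ (hF0 _ fun c => ⟨e c, ?_⟩)
          simp [lwNul]
      _ = _ := by
          simp only [Finset.sum_const, Finset.card_univ, nsmul_eq_mul]
          ring
  -- planted
  have s3 : (Fintype.card Kp * Fintype.card N) * (Fintype.card (N → N) *
        Fintype.card (N → ζ → Bool)) * (2 / 3 * (1 - β)) ≤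
      (∑ b : N, ∑ e : N → N, ∑ z : N → ζ → Bool, ∑ κ, ∑ w,
      ν κ w * A (build content b κ e (Function.update z b w))) := by
    calc (Fintype.card Kp * Fintype.card N) * (Fintype.card (N → N) *
        Fintype.card (N → ζ → Bool)) * (2 / 3 * (1 - β))
        = ∑ b : N, ∑ e : N → N, ∑ z : N → ζ → Bool, ∑ κ : Kp, (2 / 3 * (1 - β)) := by
          simp only [Finset.sum_const, Finset.card_univ, nsmul_eq_mul]
          ring
      _ ≤ _ := by
          refine Finset.sum_le_sum fun b _ => Finset.sum_le_sum fun e _ =>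
            Finset.sum_le_sum fun z _ => Finset.sum_le_sum fun κ _ => ?_
          calc 2 / 3 * (1 - β) ≤ 2 / 3 * ∑ w, (if Good κ w then ν κ w else 0) :=
                mul_le_mul_of_nonneg_left (hGood κ) (by norm_num)
            _ = ∑ w, 2 / 3 * (if Good κ w then ν κ w else 0) := by rw [Finset.mul_sum]
            _ ≤ _ := by
                refine Finset.sum_le_sum fun w _ => ?_
                split_ifs with hG
                · rw [mul_comm]
                  refine mul_le_mul_of_nonneg_left ?_ (hν0 κ w)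
                  refine hA1 _ (hF1 b κ e _ ?_)
                  simpa using hG
                · rw [mul_zero]
                  exact mul_nonneg (hν0 κ w) (hAnn _)
  have hM : 0 < ((Fintype.card Kp : ℝ) * Fintype.card N) * (Fintype.card (N → N) *
        Fintype.card (N → ζ → Bool)) := by positivity
  have s4 : ((Fintype.card Kp : ℝ) * Fintype.card N) * (Fintype.card (N → N) *
        Fintype.card (N → ζ → Bool)) * (2 / 3 * (1 - β)) ≤
      ((Fintype.card Kp : ℝ) * Fintype.card N) * (Fintype.card (N → N) *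
        Fintype.card (N → ζ → Bool)) * (1 / 3 + err) := by
    have := mul_le_mul_of_nonneg_left s2
      (by positivity : (0 : ℝ) ≤ (Fintype.card Kp : ℝ) * Fintype.card N)
    linarith
  have s5 := le_of_mul_le_mul_left s4 hM
  linarith

end lower

end Crest.Agent.R350
private theorem rz_301a4bee1d : type_of% @_root_.Crest.Agent.R350.lwBas.eq_1 := @_root_.Crest.Agent.R350.lwBas.eq_1 -- L536
private theorem rz_19e4227414 : type_of% @_root_.Crest.Agent.R350.lwNul.eq_1 := @_root_.Crest.Agent.R350.lwNul.eq_1 -- L529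
private theorem rz_40d8103dd2 : type_of% @_root_.Crest.Agent.R350.lwOwnr.eq_1 := @_root_.Crest.Agent.R350.lwOwnr.eq_1 -- L543
private theorem rz_6631cc3383 : type_of% @_root_.Crest.MathPhysics.Query.DTree.depth.eq_def := @_root_.Crest.MathPhysics.Query.DTree.depth.eq_def
private theorem rz_2116d703ab : type_of% @_root_.Crest.MathPhysics.Query.DTree.depth.eq_1 := @_root_.Crest.MathPhysics.Query.DTree.depth.eq_1
private theorem rz_b76f21b41b : type_of% @_root_.Crest.MathPhysics.Query.DTree.eval.eq_def := @_root_.Crest.MathPhysics.Query.DTree.eval.eq_def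
private theorem rz_04095eed58 : type_of% @_root_.Crest.MathPhysics.Query.DTree.eval.eq_1 := @_root_.Crest.MathPhysics.Query.DTree.eval.eq_1
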