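import Crest.Agent.R350.Stein
import Crest.Agent.R350.HTestPath
import Crest.Agent.R350.GoodProb
import Crest.Agent.R350.Func
import Crest.Agent.R350.Lower_Mg

-- ▼ part R350/Interp
section

/-!
Row 350, part B: interpolation identity.
-/

set_option autoImplicit false

namespace Crest.Agent.R350

open Finset MeasureTheory ProbabilityTheory

section calc1

variable {ι : Type*} [Fintype ι] [DecidableEq ι]

lemma prod_insert_eq (S : Finset ι) (c : ι) (x : ι → Bool) (z : ι → ℝ) :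
    ∏ i, (if i ∈ insert c S then sg (x i) / 2 else qw (z i) (x i)) =
      sg (x c) / 2 * ∏ j ∈ univ.erase c, (if j ∈ S then sg (x j) / 2 else qw (z j) (x j)) := by
  rw [← Finset.mul_prod_erase univ _ (Finset.mem_univ c)]
  simp only [Finset.mem_insert_self, if_true]
  congr 1
  apply Finset.prod_congr rfl
  intro j hj
  have := Finset.ne_of_mem_erase hj
  simp [this]

lemma hasDerivAt_dmext (S : Finset ι) (f : (ι → Bool) → ℝ) (z : ℝ → ι → ℝ) (z' : ι → ℝ) (t : ℝ)
    (hz : ∀ c, HasDerivAt (fun t => z t c) (z' c) t) :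
    HasDerivAt (fun t => dmext S f (z t))
      (∑ c ∈ univ.filter (fun c => c ∉ S), z' c * dmext (insert c S) f (z t)) t := by
  have h1 : ∀ x : ι → Bool, HasDerivAt
      (fun t => f x * ∏ i, (if i ∈ S then sg (x i) / 2 else qw (z t i) (x i)))
      (f x * ∑ i, (∏ j ∈ univ.erase i, (if j ∈ S then sg (x j) / 2 else qw (z t j) (x j))) •
        (if i ∈ S then 0 else sg (x i) / 2 * z' i)) t := by
    intro x
    apply HasDerivAt.const_mul
    apply HasDerivAt.fun_finsetProd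
    intro i _
    by_cases hi : i ∈ S
    · simp only [hi, if_true]; exact hasDerivAt_const t _
    · simp only [hi, if_false]
      unfold qw
      have h := (((hz i).const_mul (sg (x i))).const_add 1).div_const 2
      have h' : sg (x i) * z' i / 2 = sg (x i) / 2 * z' i := by ring
      rw [h'] at h
      exact h
  have h2 := HasDerivAt.fun_sum (fun x (_ : x ∈ (univ : Finset (ι → Bool))) => h1 x)
  have h3 : (∑ c ∈ univ.filter (fun c => c ∉ S), z' c * dmext (insert c S) f (z t)) =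
      ∑ x : ι → Bool, f x * ∑ i, (∏ j ∈ univ.erase i, (if j ∈ S then sg (x j) / 2 else qw (z t j) (x j))) •
        (if i ∈ S then 0 else sg (x i) / 2 * z' i) := by
    simp only [Finset.mul_sum]
    rw [Finset.sum_comm]
    rw [Finset.sum_filter]
    apply Finset.sum_congr rfl
    intro c _
    by_cases hc : c ∈ S
    · simp [hc]
    · simp only [hc, not_false_eq_true, if_true, if_false]
      unfold dmext
      rw [Finset.mul_sum]
      apply Finset.sum_congr rfl
      intro x _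
      rw [prod_insert_eq S c, smul_eq_mul]
      ring
  rw [h3]
  exact h2

lemma polyFn_dmext {κ : Type*} (S : Finset ι) (f : (ι → Bool) → ℝ)
    (Z : (κ → ℝ) → ι → ℝ) (hZ : ∀ c, PolyFn (fun v => Z v c)) :
    PolyFn (fun v => dmext S f (Z v)) := by
  unfold dmext
  apply PolyFn.sum
  intro x _
  apply PolyFn.mul (PolyFn.const _)
  apply PolyFn.prod
  intro i _
  by_cases hi : i ∈ S
  · simp only [hi, if_true]; exact PolyFn.const _
  · simp only [hi, if_false]
    unfold qw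
    have : (fun v => (1 + sg (x i) * Z v i) / 2) = fun v => (1/2 : ℝ) * (1 + sg (x i) * Z v i) := by
      funext v; ring
    rw [this]
    exact PolyFn.mul (PolyFn.const _) (PolyFn.add (PolyFn.const _) (PolyFn.mul (PolyFn.const _) (hZ i)))

end calc1

section model

variable {k t : ℕ}

/-- scaling of the blocks: `0` below `b`, `s` at `b`, `1` above `b`. -/
noncomputable def scl (b : ℕ) (s : ℝ) (a : Fin (k + 1)) : ℝ :=
  if a.val < b then 0 else if a.val = b then s else 1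

/-- scaled point -/
noncomputable def Zs (g : ℝ) (b : ℕ) (s : ℝ) (v : Fin k × NN t → ℝ) (c : Fin (k + 1) × NN t) : ℝ :=
  scl b s c.1 * Zl g v c

/-- derivative of `X_e` in the latent `(c, j)` -/
noncomputable def dXl (c : Fin k) (j : NN t) (e : Fin (k + 1) × NN t) : ℝ :=
  if e.1.val = c.val ∧ e.2 = j then 1 else 0

/-- derivative of `Y_e` in the latent `(c, j)` -/
noncomputable def dYl (c : Fin k) (j : NN t) (e : Fin (k + 1) × NN t) : ℝ :=
  if e.1.val = c.val + 1 then Wm e.2 j else 0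

lemma hasDerivAt_update (v : Fin k × NN t → ℝ) (c d : Fin k × NN t) (u : ℝ) :
    HasDerivAt (fun u => Function.update v c u d) (if d = c then 1 else 0) u := by
  by_cases h : d = c
  · subst h; simp only [Function.update_self, if_true]; exact hasDerivAt_id u
  · simp only [Function.update_of_ne h, h, if_false]; exact hasDerivAt_const u _

lemma hasDerivAt_Xl (v : Fin k × NN t → ℝ) (c : Fin k) (j : NN t) (e : Fin (k + 1) × NN t) (u : ℝ) :
    HasDerivAt (fun u => Xl (Function.update v (c, j) u) e) (dXl c j e) u := by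
  unfold Xl dXl
  by_cases h : e.1.val < k
  · simp only [h, dif_pos]
    have h2 := hasDerivAt_update v (c, j) (⟨e.1.val, h⟩, e.2) u
    have h3 : ((⟨e.1.val, h⟩, e.2) = (c, j)) ↔ (e.1.val = c.val ∧ e.2 = j) := by
      rw [Prod.mk.injEq, Fin.ext_iff]
    simp only [h3] at h2
    exact h2
  · simp only [h, dif_neg, not_false_eq_true]
    have : ¬ (e.1.val = c.val ∧ e.2 = j) := by
      rintro ⟨h1, _⟩; have := c.isLt; omega
    simp only [this, if_false]
    exact hasDerivAt_const u _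

lemma hasDerivAt_Yl (v : Fin k × NN t → ℝ) (c : Fin k) (j : NN t) (e : Fin (k + 1) × NN t) (u : ℝ) :
    HasDerivAt (fun u => Yl (Function.update v (c, j) u) e) (dYl c j e) u := by
  unfold Yl dYl
  by_cases h : e.1.val = 0
  · simp only [h, dif_pos]
    have : ¬ (0 = c.val + 1) := by omega
    simp only [this, if_false]
    exact hasDerivAt_const u _
  · simp only [h, dif_neg, not_false_eq_true]
    have hlt : e.1.val - 1 < k := by have := e.1.isLt; omega
    have h2 : ∀ j' : NN t, HasDerivAt (fun u => Wm e.2 j' * Function.update v (c, j) u (⟨e.1.val - 1, hlt⟩, j'))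
        (Wm e.2 j' * (if ((⟨e.1.val - 1, hlt⟩ : Fin k), j') = (c, j) then 1 else 0)) u :=
      fun j' => (hasDerivAt_update v (c, j) _ u).const_mul _
    have h3 := HasDerivAt.fun_sum (fun j' (_ : j' ∈ (univ : Finset (NN t))) => h2 j')
    have h4 : (∑ j' : NN t, Wm e.2 j' * (if ((⟨e.1.val - 1, hlt⟩ : Fin k), j') = (c, j) then (1:ℝ) else 0))
        = if e.1.val = c.val + 1 then Wm e.2 j else 0 := by
      by_cases hc : e.1.val = c.val + 1
      · have hc' : (⟨e.1.val - 1, hlt⟩ : Fin k) = c := by ext; simp; omega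
        simp only [hc', hc, if_true, Prod.mk.injEq, true_and]
        rw [Finset.sum_eq_single j]
        · simp
        · intro b _ hb; simp [hb]
        · intro h; exact absurd (Finset.mem_univ j) h
      · have hc' : (⟨e.1.val - 1, hlt⟩ : Fin k) ≠ c := by
          intro h'; apply hc; have := congrArg Fin.val h'; simp at this; omega
        simp [hc', hc]
    rw [h4] at h3
    exact h3

/-- derivative of `Z_e` in the latent `(c, j)` -/
noncomputable def dZl (g : ℝ) (v : Fin k × NN t → ℝ) (c : Fin k) (j : NN t)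
    (e : Fin (k + 1) × NN t) : ℝ :=
  g * (dXl c j e * Yl v e + Xl v e * dYl c j e)

lemma hasDerivAt_Zl (g : ℝ) (v : Fin k × NN t → ℝ) (c : Fin k) (j : NN t) (e : Fin (k + 1) × NN t) :
    HasDerivAt (fun u => Zl g (Function.update v (c, j) u) e) (dZl g v c j e) (v (c, j)) := by
  unfold Zl dZl
  have h1 := (hasDerivAt_Xl v c j e (v (c, j)))
  have h2 := (hasDerivAt_Yl v c j e (v (c, j)))
  have h3 := (h1.const_mul g).mul h2
  simp only [Function.update_eq_self] at h3
  have h4 : g * dXl c j e * Yl v e + g * Xl v e * dYl c j e =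
      g * (dXl c j e * Yl v e + Xl v e * dYl c j e) := by ring
  rw [h4] at h3
  exact h3

lemma polyFn_Xl (e : Fin (k + 1) × NN t) : PolyFn (fun v : Fin k × NN t → ℝ => Xl v e) := by
  unfold Xl
  by_cases h : e.1.val < k
  · simp only [h, dif_pos]; exact PolyFn.coord _
  · simp only [h, dif_neg, not_false_eq_true]; exact PolyFn.const _

lemma polyFn_Yl (e : Fin (k + 1) × NN t) : PolyFn (fun v : Fin k × NN t → ℝ => Yl v e) := by
  unfold Yl
  by_cases h : e.1.val = 0
  · simp only [h, dif_pos]; exact PolyFn.const _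
  · simp only [h, dif_neg, not_false_eq_true]
    apply PolyFn.sum
    intro j _
    exact PolyFn.mul (PolyFn.const _) (PolyFn.coord _)

lemma polyFn_Zl (g : ℝ) (e : Fin (k + 1) × NN t) : PolyFn (fun v : Fin k × NN t → ℝ => Zl g v e) :=
  PolyFn.mul (PolyFn.mul (PolyFn.const _) (polyFn_Xl e)) (polyFn_Yl e)

lemma polyFn_Zs (g : ℝ) (b : ℕ) (s : ℝ) (e : Fin (k + 1) × NN t) :
    PolyFn (fun v : Fin k × NN t → ℝ => Zs g b s v e) :=
  PolyFn.mul (PolyFn.const _) (polyFn_Zl g e)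

/-- general Stein step -/
lemma stein_step (g : ℝ) (b : ℕ) (s : ℝ) (c : Fin k) (j : NN t) (S : Finset (Fin (k + 1) × NN t))
    (f : (Fin (k + 1) × NN t → Bool) → ℝ) (M : (Fin k × NN t → ℝ) → ℝ) (hM : PolyFn M)
    (hM' : ∀ v u, M (Function.update v (c, j) u) = M v) :
    ∫ v, v (c, j) * (M v * dmext S f (Zs g b s v)) ∂(gaus (Fin k × NN t)) =
      ∫ v, M v * ∑ e ∈ univ.filter (fun e => e ∉ S), (scl b s e.1 * dZl g v c j e) *
        dmext (insert e S) f (Zs g b s v) ∂(gaus (Fin k × NN t)) := by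
  apply stein (hM.mul (polyFn_dmext S f _ (polyFn_Zs g b s)))
  intro v
  simp only [hM']
  apply HasDerivAt.const_mul
  have h := hasDerivAt_dmext S f (fun u => Zs g b s (Function.update v (c, j) u))
    (fun e => scl b s e.1 * dZl g v c j e) (v (c, j))
    (fun e => (hasDerivAt_Zl g v c j e).const_mul _)
  simpa only [Function.update_eq_self] using h

end model

section walsh

variable {t : ℕ}

lemma walI_symm (x y : NN t) : wal x y = wal y x := by
  unfold wal
  apply Finset.prod_congr rfl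
  intro i _
  rw [Bool.and_comm]

lemma abs_wal (x y : NN t) : |wal x y| = 1 := by
  unfold wal
  rw [Finset.abs_prod]
  apply Finset.prod_eq_one
  intro i _
  split_ifs <;> simp

lemma walI_orth (x y : NN t) : ∑ j : NN t, wal x j * wal y j = if x = y then (2:ℝ) ^ t else 0 := by
  unfold wal
  simp only [← Finset.prod_mul_distrib]
  have h := Finset.prod_univ_sum (fun _ : Fin t => (univ : Finset Bool))
    (fun i b => (if (x i && b) = true then (-1:ℝ) else 1) * (if (y i && b) = true then (-1:ℝ) else 1))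
  rw [Fintype.piFinset_univ] at h
  rw [← h]
  by_cases hxy : x = y
  · subst hxy
    simp only [if_true]
    have : ∀ i : Fin t, ∑ b : Bool, (if (x i && b) = true then (-1:ℝ) else 1) *
        (if (x i && b) = true then (-1:ℝ) else 1) = 2 := by
      intro i
      rw [Fintype.sum_bool]
      cases x i <;> norm_num
    rw [Finset.prod_congr rfl (fun i _ => this i)]
    simp
  · simp only [hxy, if_false]
    have : ∃ i, x i ≠ y i := by
      by_contra hcon; push Not at hcon; exact hxy (funext hcon)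
    obtain ⟨i, hi⟩ := this
    apply Finset.prod_eq_zero (Finset.mem_univ i)
    rw [Fintype.sum_bool]
    cases hx : x i <;> cases hy : y i <;> simp_all

lemma sqrt_pow_sq (t : ℕ) : Real.sqrt ((2:ℝ) ^ t) * Real.sqrt ((2:ℝ) ^ t) = (2:ℝ) ^ t :=
  Real.mul_self_sqrt (by positivity)

lemma Wm_orth (x y : NN t) : ∑ j : NN t, Wm x j * Wm y j = if x = y then (1:ℝ) else 0 := by
  unfold Wm
  have h : ∀ j : NN t, wal x j / Real.sqrt (2 ^ t) * (wal y j / Real.sqrt (2 ^ t)) =
      (wal x j * wal y j) * (1 / (2:ℝ) ^ t) := by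
    intro j
    rw [div_mul_div_comm, sqrt_pow_sq]; ring
  simp only [h]
  rw [← Finset.sum_mul, walI_orth]
  split_ifs
  · have : (2:ℝ) ^ t ≠ 0 := by positivity
    field_simp
  · simp

lemma Wm_symm (x y : NN t) : Wm x y = Wm y x := by
  unfold Wm; rw [walI_symm]

lemma abs_Wm (x y : NN t) : |Wm x y| = 1 / Real.sqrt (2 ^ t) := by
  unfold Wm
  rw [abs_div, abs_wal, abs_of_nonneg (Real.sqrt_nonneg _)]

end walsh

section deriv_s

variable {k t : ℕ}

lemma PolyFn.ofSome {κ : Type*} {F : (κ → ℝ) → ℝ} (hF : PolyFn F) :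
    PolyFn (fun w : Option κ → ℝ => F (fun i => w (some i))) := by
  obtain ⟨P, hP⟩ := hF
  refine ⟨MvPolynomial.rename some P, fun w => ?_⟩
  show F (fun i => w (some i)) = _
  rw [hP, MvPolynomial.eval_rename]; rfl

lemma polyFn_scl_mul (g : ℝ) (b : ℕ) (c : Fin (k + 1) × NN t) :
    PolyFn (fun w : Option (Fin k × NN t) → ℝ => Zs g b (w none) (fun i => w (some i)) c) := by
  unfold Zs
  apply PolyFn.mul
  · unfold scl
    by_cases h : c.1.val < b
    · simp only [h, if_true]; exact PolyFn.const _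
    · simp only [h, if_false]
      by_cases h2 : c.1.val = b
      · simp only [h2, if_true]; exact PolyFn.coord _
      · simp only [h2, if_false]; exact PolyFn.const _
  · exact (polyFn_Zl g c).ofSome

lemma hasDerivAt_Zs_s (g : ℝ) (b : ℕ) (s : ℝ) (v : Fin k × NN t → ℝ) (c : Fin (k + 1) × NN t) :
    HasDerivAt (fun s => Zs g b s v c) ((if c.1.val = b then 1 else 0) * Zl g v c) s := by
  unfold Zs
  apply HasDerivAt.mul_const
  unfold scl
  by_cases h : c.1.val < b
  · have h2 : c.1.val ≠ b := by omega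
    simp only [h, if_true, h2, if_false]; exact hasDerivAt_const s _
  · simp only [h, if_false]
    by_cases h2 : c.1.val = b
    · simp only [h2, if_true]; exact hasDerivAt_id s
    · simp only [h2, if_false]; exact hasDerivAt_const s _

/-- `F_b(s)` -/
noncomputable def Fb (g : ℝ) (b : ℕ) (s : ℝ) (f : (Fin (k + 1) × NN t → Bool) → ℝ) : ℝ :=
  ∫ v, dmext ∅ f (Zs g b s v) ∂(gaus (Fin k × NN t))

lemma hasDerivAt_Fb (g : ℝ) (β : Fin (k + 1)) (s : ℝ) (f : (Fin (k + 1) × NN t → Bool) → ℝ) :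
    HasDerivAt (fun s => Fb g β.val s f)
      (∑ i : NN t, ∫ v, Zl g v (β, i) * dmext {(β, i)} f (Zs g β.val s v) ∂(gaus (Fin k × NN t))) s := by
  have hP := polyFn_dmext (κ := Option (Fin k × NN t)) ∅ f
    (fun w => Zs g β.val (w none) (fun i => w (some i))) (polyFn_scl_mul g β.val)
  obtain ⟨P, hP⟩ := hP
  have h := hasDerivAt_integral_poly (κ := Fin k × NN t)
    (G := fun s v => dmext ∅ f (Zs g β.val s v))
    (G' := fun s v => ∑ c ∈ univ.filter (fun c => c ∉ (∅ : Finset (Fin (k+1) × NN t))),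
      ((if c.1.val = β.val then 1 else 0) * Zl g v c) * dmext (insert c ∅) f (Zs g β.val s v))
    ⟨P, fun s v => by
      have := hP (fun o => o.elim s v)
      simpa using this⟩
    (fun s v => hasDerivAt_dmext ∅ f (fun s => Zs g β.val s v) _ s
      (fun c => hasDerivAt_Zs_s g β.val s v c)) s
  have h2 : (∫ v, ∑ c ∈ univ.filter (fun c => c ∉ (∅ : Finset (Fin (k+1) × NN t))),
      ((if c.1.val = β.val then 1 else 0) * Zl g v c) * dmext (insert c ∅) f (Zs g β.val s v)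
        ∂(gaus (Fin k × NN t))) =
      ∑ i : NN t, ∫ v, Zl g v (β, i) * dmext {(β, i)} f (Zs g β.val s v) ∂(gaus (Fin k × NN t)) := by
    rw [← integral_finsetSum]
    · congr 1
      funext v
      simp only [Finset.notMem_empty, not_false_eq_true, Finset.filter_true]
      rw [Fintype.sum_prod_type]
      rw [Finset.sum_eq_single β]
      · apply Finset.sum_congr rfl
        intro i _
        simp
      · intro a _ ha
        apply Finset.sum_eq_zero
        intro i _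
        have : a.val ≠ β.val := fun h => ha (Fin.ext h)
        simp [this]
      · intro h; exact absurd (Finset.mem_univ β) h
    · intro i _
      exact ((polyFn_Zl g (β, i)).mul (polyFn_dmext {(β, i)} f _ (polyFn_Zs g β.val s))).integrable
  rw [h2] at h
  exact h

end deriv_s

end Crest.Agent.R350
end

-- ▼ part R350/Interp2
section

/-!
Row 350, part B: interpolation identity, part 2 (base case and path recursion).
-/

set_option autoImplicit false

namespace Crest.Agent.R350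

open Finset MeasureTheory ProbabilityTheory

variable {k t : ℕ}

lemma Yl_eq_of_pos (v : Fin k × NN t → ℝ) (β : Fin (k + 1)) (c : Fin k) (hc : β.val = c.val + 1)
    (i : NN t) : Yl v (β, i) = ∑ j, Wm i j * v (c, j) := by
  unfold Yl
  have h : ¬ (β.val = 0) := by omega
  simp only [h, dif_neg, not_false_eq_true]
  apply Finset.sum_congr rfl
  intro j _
  have : (⟨β.val - 1, by have := c.isLt; omega⟩ : Fin k) = c := by ext; simp; omega
  rw [this]

/-- For `b ≥ 1` the derivative in the scaling parameter vanishes. -/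
lemma deriv_zero_term (g s : ℝ) (β : Fin (k + 1)) (c : Fin k) (hc : β.val = c.val + 1)
    (f : (Fin (k + 1) × NN t → Bool) → ℝ) (i : NN t) :
    ∫ v, Zl g v (β, i) * dmext {(β, i)} f (Zs g β.val s v) ∂(gaus (Fin k × NN t)) = 0 := by
  have hM : PolyFn (fun v : Fin k × NN t → ℝ => Xl v (β, i)) := polyFn_Xl _
  have hM' : ∀ (j : NN t) (v : Fin k × NN t → ℝ) (u : ℝ),
      Xl (Function.update v (c, j) u) (β, i) = Xl v (β, i) := by
    intro j v u
    unfold Xl
    by_cases h : β.val < k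
    · simp only [h, dif_pos]
      rw [Function.update_of_ne]
      intro h'
      have := congrArg (fun x => x.1.val) h'
      simp at this; omega
    · simp only [h, dif_neg, not_false_eq_true]
  have h1 : ∀ v : Fin k × NN t → ℝ, Zl g v (β, i) * dmext {(β, i)} f (Zs g β.val s v) =
      ∑ j, (g * Wm i j) * (v (c, j) * (Xl v (β, i) * dmext {(β, i)} f (Zs g β.val s v))) := by
    intro v
    unfold Zl
    rw [Yl_eq_of_pos v β c hc i, Finset.mul_sum, Finset.sum_mul]
    apply Finset.sum_congr rfl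
    intro j _
    ring
  simp only [h1]
  rw [integral_finsetSum]
  · have h2 : ∀ j : NN t, ∫ v, (g * Wm i j) * (v (c, j) * (Xl v (β, i) *
        dmext {(β, i)} f (Zs g β.val s v))) ∂(gaus (Fin k × NN t)) =
        ∫ v, (g * Wm i j) * (Xl v (β, i) * ∑ e ∈ univ.filter (fun e => e ∉ ({(β, i)} : Finset (Fin (k+1) × NN t))),
          (scl β.val s e.1 * dZl g v c j e) * dmext (insert e {(β, i)}) f (Zs g β.val s v))
          ∂(gaus (Fin k × NN t)) := by
      intro j
      rw [integral_const_mul, integral_const_mul]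
      congr 1
      exact stein_step g β.val s c j {(β, i)} f (fun v => Xl v (β, i)) hM (hM' j)
    simp only [h2]
    rw [← integral_finsetSum]
    · have h3 : ∀ v : Fin k × NN t → ℝ, ∑ j, (g * Wm i j) * (Xl v (β, i) *
          ∑ e ∈ univ.filter (fun e => e ∉ ({(β, i)} : Finset (Fin (k+1) × NN t))),
          (scl β.val s e.1 * dZl g v c j e) * dmext (insert e {(β, i)}) f (Zs g β.val s v)) = 0 := by
        intro v
        have h4 : ∀ j, (g * Wm i j) * (Xl v (β, i) *
          ∑ e ∈ univ.filter (fun e => e ∉ ({(β, i)} : Finset (Fin (k+1) × NN t))),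
          (scl β.val s e.1 * dZl g v c j e) * dmext (insert e {(β, i)}) f (Zs g β.val s v)) =
          ∑ e ∈ univ.filter (fun e => e ∉ ({(β, i)} : Finset (Fin (k+1) × NN t))),
            (g * Xl v (β, i) * scl β.val s e.1 * dmext (insert e {(β, i)}) f (Zs g β.val s v)) *
              (Wm i j * dZl g v c j e) := by
          intro j
          rw [Finset.mul_sum, Finset.mul_sum]
          apply Finset.sum_congr rfl
          intro e _
          ring
        simp only [h4]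
        rw [Finset.sum_comm]
        apply Finset.sum_eq_zero
        intro e he
        rw [← Finset.mul_sum]
        simp only [mem_filter, mem_univ, true_and, mem_singleton] at he
        rcases lt_trichotomy e.1.val β.val with hlt | heq | hgt
        · have : scl β.val s e.1 = 0 := by unfold scl; simp [hlt]
          rw [this]; ring
        · have h5 : ∑ j, Wm i j * dZl g v c j e = 0 := by
            unfold dZl
            have h6 : ∀ j, dXl c j e = 0 := by
              intro j; unfold dXl; rw [if_neg]; rintro ⟨h, _⟩; omega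
            have h7 : ∀ j, dYl c j e = Wm e.2 j := by
              intro j; unfold dYl; rw [if_pos]; omega
            simp only [h6, h7]
            have h8 : ∀ j, Wm i j * (g * (0 * Yl v e + Xl v e * Wm e.2 j)) =
                (g * Xl v e) * (Wm i j * Wm e.2 j) := by intro j; ring
            simp only [h8]
            rw [← Finset.mul_sum, Wm_orth]
            have h9 : i ≠ e.2 := by
              intro h; apply he
              exact Prod.ext (Fin.ext heq) h.symm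
            simp [h9]
          rw [h5, mul_zero]
        · have h5 : ∀ j, dZl g v c j e = 0 := by
            intro j
            unfold dZl
            have h6 : dXl c j e = 0 := by
              unfold dXl; rw [if_neg]; rintro ⟨h, _⟩; omega
            have h7 : dYl c j e = 0 := by
              unfold dYl; rw [if_neg]; omega
            rw [h6, h7]; ring
          simp [h5]
      simp only [h3]
      simp
    · intro j _
      apply PolyFn.integrable
      apply PolyFn.mul (PolyFn.const _)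
      apply PolyFn.mul hM
      apply PolyFn.sum
      intro e _
      apply PolyFn.mul _ (polyFn_dmext _ f _ (polyFn_Zs g β.val s))
      apply PolyFn.mul (PolyFn.const _)
      unfold dZl
      exact PolyFn.mul (PolyFn.const _) (PolyFn.add (PolyFn.mul (PolyFn.const _) (polyFn_Yl e))
        (PolyFn.mul (polyFn_Xl e) (PolyFn.const _)))
  · intro j _
    apply PolyFn.integrable
    exact PolyFn.mul (PolyFn.const _) (PolyFn.mul (PolyFn.coord _)
      (PolyFn.mul hM (polyFn_dmext _ f _ (polyFn_Zs g β.val s))))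

lemma Zs_zero_eq (g : ℝ) (b : ℕ) (v : Fin k × NN t → ℝ) : Zs g b 0 v = Zs g (b + 1) 1 v := by
  funext c
  unfold Zs scl
  rcases lt_trichotomy c.1.val b with h | h | h
  · have h2 : c.1.val < b + 1 := by omega
    simp [h, h2]
  · have h2 : c.1.val < b + 1 := by omega
    have h3 : ¬ c.1.val < b := by omega
    simp [h]
  · have h2 : ¬ c.1.val < b := by omega
    have h3 : ¬ c.1.val = b := by omega
    have h4 : ¬ c.1.val < b + 1 := by omega
    by_cases h5 : c.1.val = b + 1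
    · simp [h5]
    · simp [h2, h3, h4, h5]

lemma Fb_succ_const (g : ℝ) (c : Fin k) (f : (Fin (k + 1) × NN t → Bool) → ℝ) :
    Fb g (c.val + 1) 1 f = Fb g (c.val + 1) 0 f := by
  have hβ : c.val + 1 < k + 1 := by have := c.isLt; omega
  set β : Fin (k + 1) := ⟨c.val + 1, hβ⟩ with hβdef
  have h1 : ∀ s, HasDerivAt (fun s => Fb g (c.val + 1) s f) 0 s := by
    intro s
    have h := hasDerivAt_Fb g β s f
    rw [Finset.sum_eq_zero (fun i _ => deriv_zero_term g s β c rfl f i)] at h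
    exact h
  have h2 := is_const_of_deriv_eq_zero (fun s => (h1 s).differentiableAt) (fun s => (h1 s).deriv) 1 0
  exact h2

/-- base value -/
lemma Fb_zero_zero (g : ℝ) (f : (Fin (k + 1) × NN t → Bool) → ℝ) :
    Fb g 0 0 f = dmext ∅ f (fun _ => 0) := by
  have h1 : ∀ b, b ≤ k → Fb g b 0 f = Fb g 0 0 f := by
    intro b
    induction b with
    | zero => intro _; rfl
    | succ b ih =>
      intro hb
      have h2 : Fb g (b + 1) 1 f = Fb g (b + 1) 0 f := Fb_succ_const g ⟨b, by omega⟩ f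
      rw [← h2, ← ih (by omega)]
      unfold Fb
      simp only [Zs_zero_eq]
  rw [← h1 k le_rfl]
  unfold Fb
  have h3 : ∀ v : Fin k × NN t → ℝ, Zs g k 0 v = fun _ => 0 := by
    intro v; funext c
    unfold Zs scl
    have := c.1.isLt
    by_cases h : c.1.val < k
    · simp [h]
    · have h2 : c.1.val = k := by omega
      simp [h2]
  simp only [h3]
  simp

/-- the path weight -/
noncomputable def wpath {a : ℕ} (p : Fin (a + 1) → NN t) : ℝ :=
  ∏ b : Fin a, Wm (p b.castSucc) (p b.succ)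

/-- the set of coordinates of a path prefix -/
def spath {a : ℕ} (h : a + 1 ≤ k + 1) (p : Fin (a + 1) → NN t) : Finset (Fin (k + 1) × NN t) :=
  univ.image (fun b : Fin (a + 1) => (Fin.castLE h b, p b))

lemma wpath_snoc {a : ℕ} (p : Fin (a + 1) → NN t) (j : NN t) :
    wpath (Fin.snoc (α := fun _ => NN t) p j : Fin (a + 1 + 1) → NN t) =
      wpath p * Wm (p (Fin.last a)) j := by
  unfold wpath
  rw [Fin.prod_univ_castSucc]
  congr 1
  · apply Finset.prod_congr rfl
    intro b _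
    rw [Fin.snoc_castSucc]
    congr 1
    rw [Fin.succ_castSucc, Fin.snoc_castSucc]
  · rw [Fin.snoc_castSucc, Fin.succ_last, Fin.snoc_last]

lemma spath_snoc {a : ℕ} (h : a + 1 + 1 ≤ k + 1) (p : Fin (a + 1) → NN t) (j : NN t) :
    spath h (Fin.snoc (α := fun _ => NN t) p j : Fin (a + 1 + 1) → NN t) =
      insert (Fin.castLE h (Fin.last (a + 1)), j) (spath (by omega) p) := by
  unfold spath
  ext ⟨x, y⟩
  simp only [mem_image, mem_univ, true_and, mem_insert]
  constructor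
  · rintro ⟨b, hb⟩
    induction b using Fin.lastCases with
    | last => left; rw [← hb, Fin.snoc_last]
    | cast b => right; refine ⟨b, ?_⟩; rw [← hb, Fin.snoc_castSucc]; rfl
  · rintro (h1 | ⟨b, hb⟩)
    · exact ⟨Fin.last (a + 1), by rw [h1, Fin.snoc_last]⟩
    · refine ⟨b.castSucc, ?_⟩
      rw [← hb, Fin.snoc_castSucc]; rfl

/-- partial path sums -/
noncomputable def Tp (g s : ℝ) (f : (Fin (k + 1) × NN t → Bool) → ℝ) (a : ℕ) (h : a + 1 ≤ k + 1) : ℝ :=
  ∑ p : Fin (a + 1) → NN t, (g ^ a * wpath p) *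
    ∫ v, g * Xl v (Fin.castLE h (Fin.last a), p (Fin.last a)) * dmext (spath h p) f (Zs g 0 s v)
      ∂(gaus (Fin k × NN t))

lemma Tp_succ (g s : ℝ) (f : (Fin (k + 1) × NN t → Bool) → ℝ) (a : ℕ) (h : a + 1 + 1 ≤ k + 1) :
    Tp g s f a (by omega) = Tp g s f (a + 1) h := by
  unfold Tp
  rw [← (Fin.snocEquiv (fun _ : Fin (a + 1 + 1) => NN t)).sum_comp, Fintype.sum_prod_type,
    Finset.sum_comm]
  apply Finset.sum_congr rfl
  intro p _
  set c : Fin k := ⟨a, by omega⟩ with hc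
  have hX : ∀ v : Fin k × NN t → ℝ, Xl v (Fin.castLE (by omega : a + 1 ≤ k + 1) (Fin.last a), p (Fin.last a))
      = v (c, p (Fin.last a)) := by
    intro v
    unfold Xl
    have : (Fin.castLE (by omega : a + 1 ≤ k + 1) (Fin.last a)).val < k := by
      simp; omega
    simp only [this, dif_pos]
    congr 1
  have h1 : ∫ v, g * Xl v (Fin.castLE (by omega : a + 1 ≤ k + 1) (Fin.last a), p (Fin.last a)) *
      dmext (spath (by omega) p) f (Zs g 0 s v) ∂(gaus (Fin k × NN t)) =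
      g * ∫ v, v (c, p (Fin.last a)) * ((fun _ => (1:ℝ)) v * dmext (spath (by omega) p) f (Zs g 0 s v))
        ∂(gaus (Fin k × NN t)) := by
    rw [← integral_const_mul]
    congr 1
    funext v
    rw [hX]; ring
  rw [h1, stein_step g 0 s c (p (Fin.last a)) (spath (by omega) p) f (fun _ => 1) (PolyFn.const 1)
    (fun _ _ => rfl)]
  have h2 : ∀ v : Fin k × NN t → ℝ, (1:ℝ) * ∑ e ∈ univ.filter (fun e => e ∉ spath (by omega : a + 1 ≤ k + 1) p),
      (scl 0 s e.1 * dZl g v c (p (Fin.last a)) e) * dmext (insert e (spath (by omega) p)) f (Zs g 0 s v) =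
      ∑ j : NN t, Wm (p (Fin.last a)) j * (g * Xl v (Fin.castLE h (Fin.last (a + 1)), j) *
        dmext (insert (Fin.castLE h (Fin.last (a + 1)), j) (spath (by omega) p)) f (Zs g 0 s v)) := by
    intro v
    rw [one_mul]
    symm
    have himg : ∑ j : NN t, Wm (p (Fin.last a)) j * (g * Xl v (Fin.castLE h (Fin.last (a + 1)), j) *
        dmext (insert (Fin.castLE h (Fin.last (a + 1)), j) (spath (by omega) p)) f (Zs g 0 s v)) =
        ∑ e ∈ univ.image (fun j : NN t => (Fin.castLE h (Fin.last (a + 1)), j)),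
          Wm (p (Fin.last a)) e.2 * (g * Xl v e *
            dmext (insert e (spath (by omega : a + 1 ≤ k + 1) p)) f (Zs g 0 s v)) := by
      rw [Finset.sum_image]
      intro x _ y _ hxy
      exact (Prod.mk.inj hxy).2
    rw [himg]
    have hsub : univ.image (fun j : NN t => (Fin.castLE h (Fin.last (a + 1)), j)) ⊆
        univ.filter (fun e => e ∉ spath (by omega : a + 1 ≤ k + 1) p) := by
      intro e he
      simp only [mem_image, mem_univ, true_and] at he
      obtain ⟨j, rfl⟩ := he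
      simp only [mem_filter, mem_univ, true_and, spath, mem_image, not_exists]
      intro b hb
      have := congrArg (fun x => x.1.val) hb
      simp at this
      have := b.isLt; omega
    rw [← Finset.sum_subset hsub]
    · apply Finset.sum_congr rfl
      intro e he
      simp only [mem_image, mem_univ, true_and] at he
      obtain ⟨j, rfl⟩ := he
      have h3 : scl 0 s (Fin.castLE h (Fin.last (a + 1))) = 1 := by
        unfold scl; simp
      have h4 : dZl g v c (p (Fin.last a)) (Fin.castLE h (Fin.last (a + 1)), j) =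
          g * Xl v (Fin.castLE h (Fin.last (a + 1)), j) * Wm j (p (Fin.last a)) := by
        unfold dZl
        have h5 : dXl c (p (Fin.last a)) (Fin.castLE h (Fin.last (a + 1)), j) = 0 := by
          unfold dXl; rw [if_neg]; rintro ⟨h6, _⟩; simp [hc] at h6
        have h6 : dYl c (p (Fin.last a)) (Fin.castLE h (Fin.last (a + 1)), j) = Wm j (p (Fin.last a)) := by
          unfold dYl; rw [if_pos]; simp [hc]
        rw [h5, h6]; ring
      rw [h3, h4, Wm_symm j]
      ring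
    · intro e he hne
      simp only [mem_filter, mem_univ, true_and] at he
      simp only [mem_image, mem_univ, true_and, not_exists] at hne
      have h5 : dXl c (p (Fin.last a)) e = 0 := by
        unfold dXl; rw [if_neg]
        rintro ⟨h6, h7⟩
        apply he
        simp only [spath, mem_image, mem_univ, true_and]
        refine ⟨Fin.last a, ?_⟩
        apply Prod.ext
        · apply Fin.ext; simp [hc] at h6 ⊢; omega
        · exact h7.symm
      have h6 : dYl c (p (Fin.last a)) e = 0 := by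
        unfold dYl; rw [if_neg]
        intro h7
        apply hne e.2
        apply Prod.ext
        · apply Fin.ext; simp [hc] at h7 ⊢; omega
        · rfl
      unfold dZl
      rw [h5, h6]; ring
  simp only [h2]
  rw [integral_finsetSum]
  · rw [Finset.mul_sum, Finset.mul_sum]
    apply Finset.sum_congr rfl
    intro j _
    have h3 : (Fin.snocEquiv (fun _ : Fin (a + 1 + 1) => NN t)) (j, p) =
        (Fin.snoc (α := fun _ => NN t) p j : Fin (a + 1 + 1) → NN t) := rfl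
    rw [h3, wpath_snoc, spath_snoc h p j, Fin.snoc_last, integral_const_mul]
    ring
  · intro j _
    apply PolyFn.integrable
    exact PolyFn.mul (PolyFn.const _) (PolyFn.mul (PolyFn.mul (PolyFn.const _) (polyFn_Xl _))
      (polyFn_dmext _ f _ (polyFn_Zs g 0 s)))

/-- **Interpolation identity.** -/
theorem interp_deriv (hk : 1 ≤ k) (g s : ℝ) (f : (Fin (k + 1) × NN t → Bool) → ℝ) :
    HasDerivAt (fun s => Fb g 0 s f)
      (∑ p : Fin (k + 1) → NN t, (g ^ (k + 1) * wpath p) *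
        ∫ v, dmext (spath le_rfl p) f (Zs g 0 s v) ∂(gaus (Fin k × NN t))) s := by
  have h0 : Tp g s f 0 (by omega) = Tp g s f k le_rfl := by
    have : ∀ a (h : a + 1 ≤ k + 1), Tp g s f 0 (by omega) = Tp g s f a h := by
      intro a
      induction a with
      | zero => intro h; rfl
      | succ a ih => intro h; rw [ih (by omega), Tp_succ g s f a h]
    exact this k le_rfl
  have h1 := hasDerivAt_Fb g (0 : Fin (k + 1)) s f
  have h2 : (∑ i : NN t, ∫ v, Zl g v ((0 : Fin (k + 1)), i) * dmext {((0 : Fin (k + 1)), i)} f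
      (Zs g (0 : Fin (k + 1)).val s v) ∂(gaus (Fin k × NN t))) = Tp g s f 0 (by omega) := by
    unfold Tp
    rw [← (Equiv.funUnique (Fin 1) (NN t)).symm.sum_comp]
    apply Finset.sum_congr rfl
    intro i _
    have e1 : wpath ((Equiv.funUnique (Fin 1) (NN t)).symm i) = 1 := by
      unfold wpath; simp
    have e2 : spath (k := k) (a := 0) (by omega) ((Equiv.funUnique (Fin 1) (NN t)).symm i)
        = {((0 : Fin (k + 1)), i)} := by
      unfold spath
      ext ⟨x, y⟩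
      simp only [mem_image, mem_univ, true_and, mem_singleton]
      constructor
      · rintro ⟨b, hb⟩
        have : b = 0 := by apply Fin.ext; have := b.isLt; simp
        subst this
        exact hb.symm
      · intro hxy
        refine ⟨0, hxy.symm⟩
    rw [e1, e2, pow_zero, one_mul, one_mul]
    congr 1
    funext v
    have e3 : Zl g v ((0 : Fin (k + 1)), i) = g * Xl v ((0 : Fin (k + 1)), i) := by
      unfold Zl Yl; simp
    rw [e3]
    rfl
  rw [h2, h0] at h1
  have h3 : Tp g s f k le_rfl = ∑ p : Fin (k + 1) → NN t, (g ^ (k + 1) * wpath p) *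
        ∫ v, dmext (spath le_rfl p) f (Zs g 0 s v) ∂(gaus (Fin k × NN t)) := by
    unfold Tp
    apply Finset.sum_congr rfl
    intro p _
    have e4 : ∀ v : Fin k × NN t → ℝ, g * Xl v (Fin.castLE le_rfl (Fin.last k), p (Fin.last k)) *
        dmext (spath le_rfl p) f (Zs g 0 s v) = g * dmext (spath le_rfl p) f (Zs g 0 s v) := by
      intro v
      have : Xl v (Fin.castLE le_rfl (Fin.last k), p (Fin.last k)) = 1 := by
        unfold Xl; simp
      rw [this]; ring
    simp only [e4]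
    rw [integral_const_mul, pow_succ]; ring
  rw [h3] at h1
  exact h1

end Crest.Agent.R350
end

-- ▼ part R350/Level
section

/-! Row 350, T5c: level bound in path form. -/

set_option autoImplicit false

namespace Crest.Agent.R350

open Finset

theorem DTC.toDTF {ι : Type} [Fintype ι] [DecidableEq ι] {d : ℕ} {f : (ι → Bool) → ℝ}
    (h : DTC d f) : DTF d f := by
  induction h with
  | const d c h0 h1 => exact DTF.const c (by rw [abs_of_nonneg h0]; exact h1)
  | ask d i f g hf hg ihf ihg =>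
    have := DTF.node i (fun b => if b then g else f) (fun b => by cases b <;> simpa)
    convert this using 2 with x
    cases x i <;> simp

theorem spath_injective {k t : ℕ} :
    Function.Injective (fun p : Fin (k + 1) → NN t => spath (k := k) le_rfl p) := by
  intro p p' h
  funext b
  have hb : ((Fin.castLE le_rfl b, p b) : Fin (k + 1) × NN t) ∈ spath (k := k) le_rfl p :=
    mem_image.2 ⟨b, mem_univ _, rfl⟩
  simp only at h
  rw [h] at hb
  obtain ⟨c, _, hc⟩ := mem_image.1 hb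
  simp only [Prod.mk.injEq] at hc
  have : c = b := by
    have := hc.1
    ext
    simpa [Fin.ext_iff] using congrArg Fin.val this
  rw [← hc.2, this]

theorem spath_card {k t : ℕ} (p : Fin (k + 1) → NN t) :
    (spath (k := k) le_rfl p).card = k + 1 := by
  unfold spath
  rw [card_image_of_injective, card_univ, Fintype.card_fin]
  intro a b hab
  simp only [Prod.mk.injEq] at hab
  ext
  simpa [Fin.ext_iff] using congrArg Fin.val hab.1

theorem wpath_sq {a t : ℕ} (p : Fin (a + 1) → NN t) :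
    wpath p ^ 2 = (((2 : ℝ) ^ t)⁻¹) ^ a := by
  unfold wpath
  rw [← Finset.prod_pow]
  have : ∀ b : Fin a, Wm (p b.castSucc) (p b.succ) ^ 2 = ((2 : ℝ) ^ t)⁻¹ := by
    intro b
    unfold Wm
    rw [div_pow, Real.sq_sqrt (by positivity), ← sq_abs, abs_wal]
    simp
  simp only [this, prod_const, card_univ, Fintype.card_fin]

theorem level_bound (k t d q : ℕ) (hq : 1 ≤ q) (g : ℝ) (hg : 0 ≤ g)
    (f : (Fin (k + 1) × NN t → Bool) → ℝ) (hf : DTC d f) (z : Fin (k + 1) × NN t → ℝ)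
    (hz : ∀ c, |z c| ≤ 1 / 2) :
    (∑ p : Fin (k + 1) → NN t, (g ^ (k + 1) * wpath p) * dmext (spath le_rfl p) f z) ^ 2 ≤
      (d * (4 * 9 ^ q)) ^ (k + 1) * (g ^ (k + 1)) ^ 2 * ((2 : ℝ) ^ t) ^ (-(k : ℝ)) *
        ((2 : ℝ) ^ t) ^ (((k : ℝ) + 1) / q) := by
  classical
  have hq0 : (0 : ℝ) < q := by exact_mod_cast hq
  set a : Finset (Fin (k + 1) × NN t) → ℝ := fun S =>
    ∑ p : Fin (k + 1) → NN t, if spath (k := k) le_rfl p = S then g ^ (k + 1) * wpath p else 0
    with ha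
  -- the sum is `Lam`
  have h1 : ∑ p : Fin (k + 1) → NN t, (g ^ (k + 1) * wpath p) * dmext (spath le_rfl p) f z
      = Lam z a f := by
    unfold Lam
    simp only [ha, Finset.sum_mul]
    rw [Finset.sum_comm]
    refine Finset.sum_congr rfl fun p _ => ?_
    rw [Finset.sum_eq_single (spath (k := k) le_rfl p)]
    · simp
    · intro S _ hS
      rw [if_neg (Ne.symm hS), zero_mul]
    · intro h; exact absurd (mem_univ _) h
  rw [h1]
  refine (Lam_sq_le q hq z hz d f hf.toDTF a).trans ?_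
  -- values of `a`
  have ha1 : ∀ p, a (spath (k := k) le_rfl p) = g ^ (k + 1) * wpath p := by
    intro p
    simp only [ha]
    rw [Finset.sum_eq_single p]
    · simp
    · intro p' _ hp'
      rw [if_neg]
      intro h
      exact hp' (spath_injective h)
    · intro h; exact absurd (mem_univ _) h
  have ha0 : ∀ S, S ∉ univ.image (fun p : Fin (k + 1) → NN t => spath (k := k) le_rfl p) →
      a S = 0 := by
    intro S hS
    simp only [ha]
    refine Finset.sum_eq_zero fun p _ => ?_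
    rw [if_neg]
    intro h
    exact hS (mem_image.2 ⟨p, mem_univ _, h⟩)
  -- levels other than `k+1` vanish
  have hB0 : ∀ j, j ≠ k + 1 → Bn q j a = 0 := by
    intro j hj
    unfold Bn
    rw [Finset.sum_eq_zero, Real.zero_rpow (by positivity)]
    intro S hS
    have hc := (mem_powersetCard.1 hS).2
    rw [ha0 S]
    · simp; omega
    · intro hS'
      obtain ⟨p, _, hp⟩ := mem_image.1 hS'
      apply hj
      rw [← hc, ← hp, spath_card]
  -- level `k+1`
  have hB1 : Bn q (k + 1) a = (g ^ (k + 1)) ^ 2 * ((2 : ℝ) ^ t) ^ (-(k : ℝ)) *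
        ((2 : ℝ) ^ t) ^ (((k : ℝ) + 1) / q) := by
    have hsum : ∑ S ∈ powersetCard (k + 1) univ, (a S ^ 2) ^ q
        = ∑ p : Fin (k + 1) → NN t, ((g ^ (k + 1) * wpath p) ^ 2) ^ q := by
      have hsub : univ.image (fun p : Fin (k + 1) → NN t => spath (k := k) le_rfl p)
          ⊆ powersetCard (k + 1) univ := by
        intro S hS
        obtain ⟨p, _, hp⟩ := mem_image.1 hS
        rw [mem_powersetCard]
        exact ⟨subset_univ _, by rw [← hp, spath_card]⟩
      rw [← Finset.sum_subset hsub]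
      · rw [Finset.sum_image (fun x _ y _ h => spath_injective h)]
        refine Finset.sum_congr rfl fun p _ => ?_
        rw [ha1]
      · intro S _ hS
        rw [ha0 S hS]
        simp; omega
    unfold Bn
    rw [hsum]
    have hval : ∀ p : Fin (k + 1) → NN t, ((g ^ (k + 1) * wpath p) ^ 2) ^ q
        = ((g ^ (k + 1)) ^ 2 * (((2 : ℝ) ^ t)⁻¹) ^ k) ^ q := by
      intro p
      rw [mul_pow, wpath_sq]
    simp only [hval, sum_const, card_univ, nsmul_eq_mul]
    have hcard : (Fintype.card (Fin (k + 1) → NN t) : ℝ) = ((2 : ℝ) ^ t) ^ ((k : ℝ) + 1) := by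
      rw [Fintype.card_fun, Fintype.card_fun, Fintype.card_bool, Fintype.card_fin,
        Fintype.card_fin]
      push_cast
      rw [← Real.rpow_natCast ((2 : ℝ) ^ t)]
      norm_num
    have hn : (0 : ℝ) < (2 : ℝ) ^ t := by positivity
    rw [hcard, Real.mul_rpow (by positivity) (by positivity), ← Real.rpow_mul hn.le,
      ← Real.rpow_natCast (((g ^ (k + 1)) ^ 2 * (((2 : ℝ) ^ t)⁻¹) ^ k)) q,
      ← Real.rpow_mul (by positivity), mul_one_div_cancel hq0.ne', Real.rpow_one,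
      Real.rpow_neg hn.le, Real.rpow_natCast, inv_pow]
    rw [show ((k : ℝ) + 1) * (1 / q) = ((k : ℝ) + 1) / q by ring]
    ring
  -- assemble
  unfold Gp
  have hnn : 0 ≤ Bn q (k + 1) a := Bn_nonneg _ _ _
  by_cases hd : k + 1 ≤ d
  · rw [Finset.sum_eq_single (k + 1)]
    · rw [hB1] at hnn ⊢
      have hch : (d.choose (k + 1) : ℝ) ≤ (d : ℝ) ^ (k + 1) := by
        exact_mod_cast Nat.choose_le_pow d (k + 1)
      calc ((d.choose (k + 1) : ℝ) * (4 * 9 ^ q) ^ (k + 1)) *
            ((g ^ (k + 1)) ^ 2 * ((2 : ℝ) ^ t) ^ (-(k : ℝ)) * ((2 : ℝ) ^ t) ^ (((k : ℝ) + 1) / q))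
          ≤ ((d : ℝ) ^ (k + 1) * (4 * 9 ^ q) ^ (k + 1)) *
            ((g ^ (k + 1)) ^ 2 * ((2 : ℝ) ^ t) ^ (-(k : ℝ)) *
              ((2 : ℝ) ^ t) ^ (((k : ℝ) + 1) / q)) := by
            apply mul_le_mul_of_nonneg_right _ hnn
            exact mul_le_mul_of_nonneg_right hch (by positivity)
        _ = _ := by rw [mul_pow]; ring
    · intro j _ hj
      rw [hB0 j hj, mul_zero]
    · intro h
      exact absurd (mem_range.2 (by omega)) h
  · rw [Finset.sum_eq_zero]
    · positivity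
    · intro j hj
      rw [hB0 j (by have := mem_range.1 hj; omega), mul_zero]

end Crest.Agent.R350
end

-- ▼ part R350/PhiDeriv
section

/-! Row 350, T5d (`phi_deriv`) and T5e (`abs_dmext_le`). -/

set_option autoImplicit false

namespace Crest.Agent.R350

open Finset

lemma pd_prod_sum {ι : Type*} [Fintype ι] [DecidableEq ι] (w : ι → Bool → ℝ) :
    ∑ x : ι → Bool, ∏ i, w i (x i) = ∏ i, ∑ b, w i b := by
  rw [Finset.prod_univ_sum, Fintype.piFinset_univ]

/-- T5e: values off the cube. -/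
theorem abs_dmext_le {ι : Type*} [Fintype ι] [DecidableEq ι] (S : Finset ι)
    (f : (ι → Bool) → ℝ) (hf : ∀ x, |f x| ≤ 1) (z : ι → ℝ) :
    |dmext S f z| ≤ ∏ i, max 1 |z i| := by
  unfold dmext
  calc |∑ x : ι → Bool, f x * ∏ i, (if i ∈ S then sg (x i) / 2 else qw (z i) (x i))|
      ≤ ∑ x : ι → Bool, |f x * ∏ i, (if i ∈ S then sg (x i) / 2 else qw (z i) (x i))| :=
        Finset.abs_sum_le_sum_abs _ _
    _ ≤ ∑ x : ι → Bool, ∏ i, |if i ∈ S then sg (x i) / 2 else qw (z i) (x i)| := by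
        apply Finset.sum_le_sum
        intro x _
        rw [abs_mul, Finset.abs_prod]
        calc |f x| * ∏ i, |if i ∈ S then sg (x i) / 2 else qw (z i) (x i)|
            ≤ 1 * ∏ i, |if i ∈ S then sg (x i) / 2 else qw (z i) (x i)| := by
              apply mul_le_mul_of_nonneg_right (hf x)
              exact Finset.prod_nonneg (fun i _ => abs_nonneg _)
          _ = _ := one_mul _
    _ = ∏ i, ∑ b, |if i ∈ S then sg b / 2 else qw (z i) b| :=
        pd_prod_sum (fun i b => |if i ∈ S then sg b / 2 else qw (z i) b|)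
    _ ≤ ∏ i, max 1 |z i| := by
        apply Finset.prod_le_prod
        · intro i _
          exact Finset.sum_nonneg (fun b _ => abs_nonneg _)
        · intro i _
          by_cases h : i ∈ S
          · simp only [h, if_true, Fintype.sum_bool, sg_true, sg_false]
            refine le_trans ?_ (le_max_left _ _)
            norm_num [abs_of_neg, abs_of_pos]
          · simp only [h, if_false, Fintype.sum_bool, qw, sg_true, sg_false]
            rcases abs_cases (z i) with ⟨h1, h2⟩ | ⟨h1, h2⟩ <;>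
            rcases abs_cases ((1 + -1 * z i) / 2) with ⟨h3, h4⟩ | ⟨h3, h4⟩ <;>
            rcases abs_cases ((1 + 1 * z i) / 2) with ⟨h5, h6⟩ | ⟨h5, h6⟩ <;>
            rw [h1, h3, h5] <;>
            first
              | (refine le_trans ?_ (le_max_left _ _); linarith)
              | (refine le_trans ?_ (le_max_right _ _); linarith)

/-- mixed derivatives of a character. -/
lemma dmext_char {ι : Type*} [Fintype ι] [DecidableEq ι] (S T : Finset ι) (z : ι → ℝ) :
    dmext S (fun x => ∏ i ∈ T, sg (x i)) z =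
      ∏ i, (if i ∈ S then (if i ∈ T then (1 : ℝ) else 0) else (if i ∈ T then z i else 1)) := by
  unfold dmext
  have h1 : ∀ x : ι → Bool, (∏ i ∈ T, sg (x i)) *
      ∏ i, (if i ∈ S then sg (x i) / 2 else qw (z i) (x i)) =
      ∏ i, ((if i ∈ T then sg (x i) else 1) *
        (if i ∈ S then sg (x i) / 2 else qw (z i) (x i))) := by
    intro x
    rw [Finset.prod_mul_distrib]
    congr 1
    rw [Finset.prod_ite_mem, Finset.univ_inter]
  simp only [h1]
  rw [pd_prod_sum (fun i b => (if i ∈ T then sg b else 1) *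
        (if i ∈ S then sg b / 2 else qw (z i) b))]
  apply Finset.prod_congr rfl
  intro i _
  by_cases hS : i ∈ S <;> by_cases hT : i ∈ T <;>
    simp [hS, hT, qw] <;> ring

lemma dmext_char_self {ι : Type*} [Fintype ι] [DecidableEq ι] (S : Finset ι) (z : ι → ℝ) :
    dmext S (fun x => ∏ i ∈ S, sg (x i)) z = 1 := by
  rw [dmext_char]
  apply Finset.prod_eq_one
  intro i _
  by_cases hS : i ∈ S <;> simp [hS]

lemma dmext_char_zero {ι : Type*} [Fintype ι] [DecidableEq ι] (S T : Finset ι) (z : ι → ℝ)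
    (h : ¬ S ⊆ T) : dmext S (fun x => ∏ i ∈ T, sg (x i)) z = 0 := by
  rw [dmext_char]
  obtain ⟨i, hi, hi'⟩ := Finset.not_subset.1 h
  apply Finset.prod_eq_zero (Finset.mem_univ i)
  simp [hi, hi']

lemma dmext_sum {ι κ : Type*} [Fintype ι] [DecidableEq ι] (S : Finset ι) (A : Finset κ)
    (F : κ → (ι → Bool) → ℝ) (z : ι → ℝ) :
    dmext S (fun x => ∑ q ∈ A, F q x) z = ∑ q ∈ A, dmext S (F q) z := by
  unfold dmext
  rw [Finset.sum_comm]
  apply Finset.sum_congr rfl
  intro x _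
  rw [Finset.sum_mul]

lemma dmext_smul {ι : Type*} [Fintype ι] [DecidableEq ι] (S : Finset ι) (c : ℝ)
    (F : (ι → Bool) → ℝ) (z : ι → ℝ) :
    dmext S (fun x => c * F x) z = c * dmext S F z := by
  unfold dmext
  rw [Finset.mul_sum]
  apply Finset.sum_congr rfl
  intro x _
  ring

lemma mem_spath_full {k t : ℕ} (p : Fin (k + 1) → NN t) (c : Fin (k + 1) × NN t) :
    c ∈ spath (k := k) le_rfl p ↔ p c.1 = c.2 := by
  unfold spath
  simp only [mem_image, mem_univ, true_and]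
  constructor
  · rintro ⟨b, rfl⟩; rfl
  · intro h
    exact ⟨c.1, Prod.ext rfl h⟩

lemma prod_spath_full {k t : ℕ} (p : Fin (k + 1) → NN t) (F : Fin (k + 1) × NN t → ℝ) :
    ∏ c ∈ spath (k := k) le_rfl p, F c = ∏ a, F (a, p a) := by
  unfold spath
  rw [Finset.prod_image]
  · rfl
  · intro a _ b _ h
    exact congrArg Prod.fst h

lemma spath_subset_iff {k t : ℕ} (p q : Fin (k + 1) → NN t) :
    spath (k := k) le_rfl p ⊆ spath (k := k) le_rfl q ↔ p = q := by
  constructor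
  · intro h
    funext a
    have h1 : (a, p a) ∈ spath (k := k) le_rfl p := (mem_spath_full p _).2 rfl
    exact ((mem_spath_full q _).1 (h h1)).symm
  · rintro rfl
    exact Finset.Subset.refl _

lemma pd_wal_sq {t : ℕ} (x y : NN t) : wal x y * wal x y = 1 := by
  unfold wal
  rw [← Finset.prod_mul_distrib]
  apply Finset.prod_eq_one
  intro i _
  by_cases h : (x i && y i) = true <;> simp [h]

/-- T5d: the `(k+1)`-fold derivative of `phi`. -/
theorem phi_deriv (k t : ℕ) (g : ℝ) (z : Fin (k + 1) × NN t → ℝ) :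
    ∑ p : Fin (k + 1) → NN t, (g ^ (k + 1) * wpath p) *
      dmext (spath le_rfl p) (fun x => phi k t (fun a i => x (a, i))) z = g ^ (k + 1) := by
  have hs : (0 : ℝ) < Real.sqrt (2 ^ t) := Real.sqrt_pos.2 (by positivity)
  have h0 : ∀ p : Fin (k + 1) → NN t,
      dmext (spath le_rfl p) (fun x => phi k t (fun a i => x (a, i))) z =
        (∏ a : Fin k, wal (p a.castSucc) (p a.succ)) / Real.sqrt (2 ^ t) ^ (k + 2) := by
    intro p
    have h1 : (fun x : Fin (k + 1) × NN t → Bool => phi k t (fun a i => x (a, i))) =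
        fun x => ∑ q : Fin (k + 1) → NN t,
          ((∏ a : Fin k, wal (q a.castSucc) (q a.succ)) / Real.sqrt (2 ^ t) ^ (k + 2)) *
            ∏ c ∈ spath (k := k) le_rfl q, sg (x c) := by
      funext x
      unfold phi
      rw [Finset.sum_div]
      apply Finset.sum_congr rfl
      intro q _
      rw [prod_spath_full q (fun c => sg (x c))]
      ring
    rw [h1, dmext_sum, Finset.sum_eq_single p]
    · rw [dmext_smul, dmext_char_self, mul_one]
    · intro q _ hq
      rw [dmext_smul, dmext_char_zero, mul_zero]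
      rw [spath_subset_iff]
      exact fun h => hq h.symm
    · intro h; exact absurd (Finset.mem_univ _) h
  have h2 : ∀ p : Fin (k + 1) → NN t, (g ^ (k + 1) * wpath p) *
      dmext (spath le_rfl p) (fun x => phi k t (fun a i => x (a, i))) z =
        g ^ (k + 1) * (1 / Real.sqrt (2 ^ t) ^ (2 * (k + 1))) := by
    intro p
    rw [h0 p]
    have h3 : wpath p = (∏ a : Fin k, wal (p a.castSucc) (p a.succ)) / Real.sqrt (2 ^ t) ^ k := by
      unfold wpath Wm
      rw [Finset.prod_div_distrib]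
      simp
    rw [h3]
    have h4 : (∏ a : Fin k, wal (p a.castSucc) (p a.succ)) *
        (∏ a : Fin k, wal (p a.castSucc) (p a.succ)) = 1 := by
      rw [← Finset.prod_mul_distrib]
      exact Finset.prod_eq_one (fun a _ => pd_wal_sq _ _)
    have h5 : Real.sqrt (2 ^ t) ^ (2 * (k + 1)) =
        Real.sqrt (2 ^ t) ^ k * Real.sqrt (2 ^ t) ^ (k + 2) := by
      rw [← pow_add]; congr 1; ring
    rw [h5]
    have h6 : Real.sqrt (2 ^ t) ^ k ≠ 0 := by positivity
    have h7 : Real.sqrt (2 ^ t) ^ (k + 2) ≠ 0 := by positivity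
    calc g ^ (k + 1) * ((∏ a : Fin k, wal (p a.castSucc) (p a.succ)) / Real.sqrt (2 ^ t) ^ k) *
          ((∏ a : Fin k, wal (p a.castSucc) (p a.succ)) / Real.sqrt (2 ^ t) ^ (k + 2))
        = g ^ (k + 1) * (((∏ a : Fin k, wal (p a.castSucc) (p a.succ)) *
          (∏ a : Fin k, wal (p a.castSucc) (p a.succ))) /
            (Real.sqrt (2 ^ t) ^ k * Real.sqrt (2 ^ t) ^ (k + 2))) := by ring
      _ = _ := by rw [h4]
  simp only [h2]
  rw [Finset.sum_const, Finset.card_univ, nsmul_eq_mul]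
  have h8 : (Fintype.card (Fin (k + 1) → NN t) : ℝ) = Real.sqrt (2 ^ t) ^ (2 * (k + 1)) := by
    rw [pow_mul, Real.sq_sqrt (by positivity)]
    simp [Fintype.card_pi]
  rw [h8]
  have h9 : Real.sqrt (2 ^ t) ^ (2 * (k + 1)) ≠ 0 := by positivity
  field_simp

end Crest.Agent.R350
end

-- ▼ part R350/TailB
section

/-! Row 350, T5b: off-cube tail bound. -/

set_option autoImplicit false

namespace Crest.Agent.R350

open Finset MeasureTheory ProbabilityTheory

section rot

variable (k t : ℕ)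

/-- blockwise Walsh transform -/
noncomputable def rot (v : Fin k × NN t → ℝ) : Fin k × NN t → ℝ :=
  fun c => ∑ j, Wm c.2 j * v (c.1, j)

theorem rot_sq (v : Fin k × NN t → ℝ) : ∑ c, rot k t v c ^ 2 = ∑ c, v c ^ 2 := by
  rw [Fintype.sum_prod_type, Fintype.sum_prod_type]
  refine Finset.sum_congr rfl fun a _ => ?_
  have h1 : ∀ i : NN t, rot k t v (a, i) ^ 2
      = ∑ j, ∑ j', (Wm i j * Wm i j') * (v (a, j) * v (a, j')) := by
    intro i
    simp only [rot, sq, Finset.sum_mul_sum]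
    refine Finset.sum_congr rfl fun j _ => Finset.sum_congr rfl fun j' _ => ?_
    ring
  simp only [h1]
  rw [Finset.sum_comm]
  refine Finset.sum_congr rfl fun j _ => ?_
  rw [Finset.sum_comm]
  have h2 : ∀ j' : NN t, ∑ i : NN t, Wm i j * Wm i j' * (v (a, j) * v (a, j'))
      = (if j = j' then 1 else 0) * (v (a, j) * v (a, j')) := by
    intro j'
    rw [← Finset.sum_mul]
    congr 1
    have := Wm_orth j j'
    simp only [Wm_symm j, Wm_symm j'] at this
    exact this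
  simp only [h2, ite_mul, one_mul, zero_mul, Finset.sum_ite_eq, Finset.mem_univ, if_true]
  ring

/-- blockwise Walsh transform as a linear isometry -/
noncomputable def rotL : EuclideanSpace ℝ (Fin k × NN t) →ₗᵢ[ℝ] EuclideanSpace ℝ (Fin k × NN t) where
  toFun v := WithLp.toLp 2 (rot k t (WithLp.ofLp v))
  map_add' v w := by
    ext c
    simp [rot, mul_add, Finset.sum_add_distrib]
  map_smul' r v := by
    ext c
    simp only [rot, PiLp.smul_apply, WithLp.ofLp_smul, Pi.smul_apply, smul_eq_mul, RingHom.id_apply,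
      Finset.mul_sum]
    refine Finset.sum_congr rfl fun j _ => ?_
    ring
  norm_map' v := by
    have h : ‖(WithLp.toLp 2 (rot k t (WithLp.ofLp v)) : EuclideanSpace ℝ (Fin k × NN t))‖ ^ 2
        = ‖v‖ ^ 2 := by
      rw [EuclideanSpace.real_norm_sq_eq, EuclideanSpace.real_norm_sq_eq]
      exact rot_sq k t _
    exact (sq_eq_sq₀ (norm_nonneg _) (norm_nonneg _)).1 h

theorem map_rot : (gaus (Fin k × NN t)).map (rot k t) = gaus (Fin k × NN t) := by
  have hL : (stdGaussian (EuclideanSpace ℝ (Fin k × NN t))).map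
      ((rotL k t).toLinearIsometryEquiv rfl) = stdGaussian (EuclideanSpace ℝ (Fin k × NN t)) :=
    stdGaussian_map _
  have hp : (gaus (Fin k × NN t)).map (WithLp.toLp 2)
      = stdGaussian (EuclideanSpace ℝ (Fin k × NN t)) := map_pi_eq_stdGaussian
  have hm1 : Measurable (WithLp.toLp 2 : (Fin k × NN t → ℝ) → EuclideanSpace ℝ (Fin k × NN t)) := by
    fun_prop
  have hm2 : Measurable (WithLp.ofLp : EuclideanSpace ℝ (Fin k × NN t) → (Fin k × NN t → ℝ)) := by
    fun_prop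
  have hm3 : Measurable ((rotL k t).toLinearIsometryEquiv rfl) := by fun_prop
  have hcomp : rot k t = WithLp.ofLp ∘ ((rotL k t).toLinearIsometryEquiv rfl) ∘ WithLp.toLp 2 := by
    funext v
    rfl
  have hback : (stdGaussian (EuclideanSpace ℝ (Fin k × NN t))).map WithLp.ofLp
      = gaus (Fin k × NN t) := by
    rw [← hp, Measure.map_map hm2 hm1]
    have : (WithLp.ofLp ∘ WithLp.toLp 2 : (Fin k × NN t → ℝ) → (Fin k × NN t → ℝ)) = id := by
      funext v; rfl
    rw [this, Measure.map_id]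
  rw [hcomp, ← Measure.map_map hm2 (hm3.comp hm1), ← Measure.map_map hm3 hm1, hp, hL, hback]

end rot


section tail

variable {k t : ℕ}

/-- the polynomial majorant -/
noncomputable def GG (p : ℕ) (g : ℝ) (w : Fin k × NN t → ℝ) : ℝ :=
  (1 + g ^ p) ^ (2 ^ t) * ∏ c, (1 + g ^ p * (w c) ^ (2 * p))

theorem prod_Xl (p : ℕ) (g : ℝ) (v : Fin k × NN t → ℝ) :
    ∏ c : Fin (k + 1) × NN t, (1 + g ^ p * (Xl v c) ^ (2 * p)) = GG p g v := by
  rw [Fintype.prod_prod_type, Fin.prod_univ_castSucc]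
  have h1 : ∀ i : NN t, Xl v (Fin.last k, i) = 1 := by
    intro i; simp [Xl]
  have h2 : ∀ (a : Fin k) (i : NN t), Xl v (a.castSucc, i) = v (a, i) := by
    intro a i
    simp [Xl]
  simp only [h1, h2, one_pow, mul_one, Finset.prod_const, Finset.card_univ, Fintype.card_fun,
    Fintype.card_bool, Fintype.card_fin]
  unfold GG
  rw [Fintype.prod_prod_type, mul_comm]

theorem prod_Yl (p : ℕ) (g : ℝ) (v : Fin k × NN t → ℝ) :
    ∏ c : Fin (k + 1) × NN t, (1 + g ^ p * (Yl v c) ^ (2 * p)) = GG p g (rot k t v) := by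
  rw [Fintype.prod_prod_type, Fin.prod_univ_succ]
  have h1 : ∀ i : NN t, Yl v ((0 : Fin (k + 1)), i) = 1 := by
    intro i; simp [Yl]
  have h2 : ∀ (a : Fin k) (i : NN t), Yl v (a.succ, i) = rot k t v (a, i) := by
    intro a i
    simp [Yl, rot]
  simp only [h1, h2, one_pow, mul_one, Finset.prod_const, Finset.card_univ, Fintype.card_fun,
    Fintype.card_bool, Fintype.card_fin]
  unfold GG
  rw [Fintype.prod_prod_type]

theorem le_one_add_pow (p : ℕ) (hp : 1 ≤ p) (a : ℝ) (ha : 0 ≤ a) : a ≤ 1 + a ^ p := by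
  by_cases h : a ≤ 1
  · have := pow_nonneg ha p
    linarith
  · have h' : 1 ≤ a := by linarith
    have := le_self_pow₀ h' (by omega : p ≠ 0)
    linarith

theorem max_le_prod (p : ℕ) (hp : 1 ≤ p) (g X Y : ℝ) (hg : 0 ≤ g) :
    max 1 |g * X * Y| ≤ (1 + g ^ p * X ^ (2 * p)) * (1 + g ^ p * Y ^ (2 * p)) := by
  set a := g * X ^ 2 with ha
  set b := g * Y ^ 2 with hb
  have ha0 : 0 ≤ a := by positivity
  have hb0 : 0 ≤ b := by positivity
  have h1 : g ^ p * X ^ (2 * p) = a ^ p := by rw [ha, mul_pow, ← pow_mul]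
  have h2 : g ^ p * Y ^ (2 * p) = b ^ p := by rw [hb, mul_pow, ← pow_mul]
  rw [h1, h2]
  have hap := pow_nonneg ha0 p
  have hbp := pow_nonneg hb0 p
  apply max_le
  · nlinarith [mul_nonneg hap hbp]
  · have h3 : |g * X * Y| ≤ (a + b) / 2 := by
      rw [abs_le]
      constructor
      · nlinarith [mul_nonneg hg (sq_nonneg (X + Y))]
      · nlinarith [mul_nonneg hg (sq_nonneg (X - Y))]
    have h4 := le_one_add_pow p hp a ha0
    have h5 := le_one_add_pow p hp b hb0
    nlinarith [mul_nonneg hap hbp]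

theorem Rmax_le (p : ℕ) (hp : 1 ≤ p) (g : ℝ) (hg : 0 ≤ g) (v : Fin k × NN t → ℝ) :
    Rmax g v ≤ GG p g v * GG p g (rot k t v) := by
  rw [← prod_Xl, ← prod_Yl, ← Finset.prod_mul_distrib]
  unfold Rmax Zl
  exact Finset.prod_le_prod (fun c _ => le_trans zero_le_one (le_max_left _ _))
    (fun c _ => max_le_prod p hp g _ _ hg)

theorem GG_nonneg (p : ℕ) (g : ℝ) (hg : 0 ≤ g) (w : Fin k × NN t → ℝ) : 0 ≤ GG p g w := by
  unfold GG
  refine mul_nonneg (by positivity) (Finset.prod_nonneg fun c _ => ?_)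
  have : 0 ≤ (w c) ^ (2 * p) := by rw [pow_mul]; positivity
  positivity

theorem polyFn_GG (p : ℕ) (g : ℝ) : PolyFn (fun v : Fin k × NN t → ℝ => GG p g v) := by
  unfold GG
  refine (PolyFn.const _).mul (PolyFn.prod _ fun c _ => ?_)
  exact (PolyFn.const _).add ((PolyFn.const _).mul ((PolyFn.coord c).pow _))

theorem polyFn_rot (c : Fin k × NN t) : PolyFn (fun v : Fin k × NN t → ℝ => rot k t v c) := by
  unfold rot
  exact PolyFn.sum _ fun j _ => (PolyFn.const _).mul (PolyFn.coord _)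

theorem polyFn_GG_rot (p : ℕ) (g : ℝ) :
    PolyFn (fun v : Fin k × NN t → ℝ => GG p g (rot k t v)) := by
  unfold GG
  refine (PolyFn.const _).mul (PolyFn.prod _ fun c _ => ?_)
  exact (PolyFn.const _).add ((PolyFn.const _).mul ((polyFn_rot c).pow _))

theorem PolyFn.continuous' {κ : Type*} {F : (κ → ℝ) → ℝ} (hF : PolyFn F) : Continuous F := by
  obtain ⟨P, hP⟩ := hF
  have : F = fun v => MvPolynomial.eval v P := funext hP
  rw [this]
  exact MvPolynomial.continuous_eval P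

theorem measurable_rot : Measurable (rot k t) := by
  refine measurable_pi_lambda _ fun c => ?_
  exact (polyFn_rot c).continuous'.measurable

/-- invariance, for polynomial functions -/
theorem integral_rot {F : (Fin k × NN t → ℝ) → ℝ} (hF : Continuous F) :
    ∫ v, F (rot k t v) ∂(gaus (Fin k × NN t)) = ∫ v, F v ∂(gaus (Fin k × NN t)) := by
  conv_rhs => rw [← map_rot k t]
  rw [integral_map measurable_rot.aemeasurable hF.aestronglyMeasurable]

/-- the constant of the one dimensional majorant -/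
noncomputable def Kp (p : ℕ) : ℝ := ∫ u, (1 + u ^ (2 * p)) ^ 4 ∂(gaussianReal 0 1)

theorem integrable_Kp (p : ℕ) (c : ℝ) :
    Integrable (fun u : ℝ => (1 + c * u ^ (2 * p)) ^ 4) (gaussianReal 0 1) := by
  have : (fun u : ℝ => (1 + c * u ^ (2 * p)) ^ 4) = fun u => 1 * u ^ 0 + (4 * c) * u ^ (2 * p)
      + (6 * c ^ 2) * u ^ (2 * p * 2) + (4 * c ^ 3) * u ^ (2 * p * 3) + c ^ 4 * u ^ (2 * p * 4) := by
    funext u
    rw [pow_mul u (2 * p) 2, pow_mul u (2 * p) 3, pow_mul u (2 * p) 4]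
    ring
  rw [this]
  exact ((((integrable_pow_gauss 0).const_mul _).add ((integrable_pow_gauss _).const_mul _)).add
    ((integrable_pow_gauss _).const_mul _)).add ((integrable_pow_gauss _).const_mul _) |>.add
    ((integrable_pow_gauss _).const_mul _)

theorem Kp_nonneg (p : ℕ) : 0 ≤ Kp p := integral_nonneg fun u => by positivity

theorem one_dim (p : ℕ) (c : ℝ) (hc0 : 0 ≤ c) (hc1 : c ≤ 1) :
    ∫ u, (1 + c * u ^ (2 * p)) ^ 4 ∂(gaussianReal 0 1) ≤ 1 + c * Kp p := by
  have h1 : 1 + c * Kp p = ∫ u, (1 + c * (1 + u ^ (2 * p)) ^ 4) ∂(gaussianReal 0 1) := by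
    have hi := integrable_Kp p 1
    simp only [one_mul] at hi
    rw [integral_add (integrable_const _) (hi.const_mul c), integral_const_mul]
    simp [Kp]
  rw [h1]
  have hi := integrable_Kp p 1
  simp only [one_mul] at hi
  refine integral_mono (integrable_Kp p c) ((integrable_const _).add (hi.const_mul c)) ?_
  intro u
  simp only
  have hy : 0 ≤ u ^ (2 * p) := by rw [pow_mul]; positivity
  set y := u ^ (2 * p)
  have hc2 : c ^ 2 ≤ c := by nlinarith
  have hc3 : c ^ 3 ≤ c := by nlinarith [mul_nonneg hc0 hc0]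
  have hc4 : c ^ 4 ≤ c := by nlinarith [mul_nonneg hc0 hc0, mul_nonneg (mul_nonneg hc0 hc0) hc0]
  have e1 : (1 + c * y) ^ 4 = 1 + 4 * (c * y) + 6 * (c ^ 2 * y ^ 2) + 4 * (c ^ 3 * y ^ 3)
      + c ^ 4 * y ^ 4 := by ring
  have e2 : 1 + c * (1 + y) ^ 4 = 1 + c + 4 * (c * y) + 6 * (c * y ^ 2) + 4 * (c * y ^ 3)
      + c * y ^ 4 := by ring
  rw [e1, e2]
  have f2 := mul_le_mul_of_nonneg_right hc2 (by positivity : 0 ≤ y ^ 2)
  have f3 := mul_le_mul_of_nonneg_right hc3 (by positivity : 0 ≤ y ^ 3)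
  have f4 := mul_le_mul_of_nonneg_right hc4 (by positivity : 0 ≤ y ^ 4)
  linarith

theorem integral_GG4 (p : ℕ) (g : ℝ) (hg : 0 ≤ g) (hg1 : g ≤ 1) (hgp : g ^ p * 2 ^ t ≤ 1) :
    ∫ v : Fin k × NN t → ℝ, GG p g v ^ 4 ∂(gaus (Fin k × NN t)) ≤ Real.exp (4 + k * Kp p) := by
  have h1 : ∀ v : Fin k × NN t → ℝ, GG p g v ^ 4
      = (1 + g ^ p) ^ (2 ^ t * 4) * ∏ c, (1 + g ^ p * (v c) ^ (2 * p)) ^ 4 := by
    intro v
    unfold GG
    rw [mul_pow, ← pow_mul, Finset.prod_pow]
  simp only [h1]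
  rw [integral_const_mul]
  have h2 : ∫ v : Fin k × NN t → ℝ, ∏ c, (1 + g ^ p * (v c) ^ (2 * p)) ^ 4
        ∂(gaus (Fin k × NN t))
      = ∏ _c : Fin k × NN t, ∫ u, (1 + g ^ p * u ^ (2 * p)) ^ 4 ∂(gaussianReal 0 1) :=
    integral_fintype_prod_eq_prod (f := fun _ x => (1 + g ^ p * x ^ (2 * p)) ^ 4)
  rw [h2, Finset.prod_const, Finset.card_univ, Fintype.card_prod, Fintype.card_fin,
    Fintype.card_fun, Fintype.card_bool, Fintype.card_fin]
  have hgp0 : 0 ≤ g ^ p := pow_nonneg hg p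
  have hgp1 : g ^ p ≤ 1 := pow_le_one₀ hg hg1
  have hK := Kp_nonneg p
  have h3 : ∫ u, (1 + g ^ p * u ^ (2 * p)) ^ 4 ∂(gaussianReal 0 1) ≤ Real.exp (g ^ p * Kp p) :=
    (one_dim p _ hgp0 hgp1).trans (by have := Real.add_one_le_exp (g ^ p * Kp p); linarith)
  have h3' : 0 ≤ ∫ u, (1 + g ^ p * u ^ (2 * p)) ^ 4 ∂(gaussianReal 0 1) :=
    integral_nonneg fun u => by positivity
  have h4 : (1 + g ^ p) ≤ Real.exp (g ^ p) := by
    have := Real.add_one_le_exp (g ^ p); linarith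
  calc (1 + g ^ p) ^ (2 ^ t * 4) *
        (∫ u, (1 + g ^ p * u ^ (2 * p)) ^ 4 ∂(gaussianReal 0 1)) ^ (k * 2 ^ t)
      ≤ (Real.exp (g ^ p)) ^ (2 ^ t * 4) * (Real.exp (g ^ p * Kp p)) ^ (k * 2 ^ t) := by
        apply mul_le_mul
        · exact pow_le_pow_left₀ (by positivity) h4 _
        · exact pow_le_pow_left₀ h3' h3 _
        · positivity
        · positivity
    _ = Real.exp (4 * (g ^ p * 2 ^ t) + k * Kp p * (g ^ p * 2 ^ t)) := by
        rw [← Real.exp_nat_mul, ← Real.exp_nat_mul, ← Real.exp_add]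
        congr 1
        push_cast
        ring
    _ ≤ Real.exp (4 + k * Kp p) := by
        apply Real.exp_le_exp.2
        have : 0 ≤ (k : ℝ) * Kp p := by positivity
        nlinarith


/-! ### the moment bounds -/

/-- moments of the standard Gaussian -/
noncomputable def mom (r : ℕ) : ℝ := ∫ u, u ^ r ∂(gaussianReal 0 1)

theorem mom_nonneg (r : ℕ) : 0 ≤ mom (8 * r) :=
  integral_nonneg fun u => by
    have : u ^ (8 * r) = (u ^ (4 * r)) ^ 2 := by rw [← pow_mul]; congr 1; ring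
    simp only [this]
    positivity

theorem integral_coord_pow (d : Fin k × NN t) (r : ℕ) :
    ∫ v : Fin k × NN t → ℝ, v d ^ r ∂(gaus (Fin k × NN t)) = mom r := by
  have h := (measurePreserving_eval (fun _ : Fin k × NN t => gaussianReal 0 1) d).map_eq
  unfold mom gaus
  conv_rhs => rw [← h]
  rw [integral_map (measurable_pi_apply d).aemeasurable
    (by fun_prop : Continuous fun u : ℝ => u ^ r).aestronglyMeasurable]

theorem integral_Xl_pow (c : Fin (k + 1) × NN t) (r : ℕ) :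
    ∫ v : Fin k × NN t → ℝ, Xl v c ^ (8 * r) ∂(gaus (Fin k × NN t)) ≤ 1 + mom (8 * r) := by
  have h0 := mom_nonneg r
  unfold Xl
  by_cases h : c.1.val < k
  · simp only [h, dif_pos]
    rw [integral_coord_pow]
    linarith
  · simp only [h, dif_neg, not_false_eq_true]
    simp
    exact h0

theorem integral_Yl_pow (c : Fin (k + 1) × NN t) (r : ℕ) :
    ∫ v : Fin k × NN t → ℝ, Yl v c ^ (8 * r) ∂(gaus (Fin k × NN t)) ≤ 1 + mom (8 * r) := by
  have h0 := mom_nonneg r
  by_cases h : c.1.val = 0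
  · have : ∀ v : Fin k × NN t → ℝ, Yl v c = 1 := fun v => by unfold Yl; simp [h]
    simp only [this]
    simp
    exact h0
  · have hlt : c.1.val - 1 < k := by have := c.1.isLt; omega
    have : ∀ v : Fin k × NN t → ℝ, Yl v c = rot k t v (⟨c.1.val - 1, hlt⟩, c.2) := fun v => by
      unfold Yl rot; simp [h]
    simp only [this]
    have h2 := integral_rot (k := k) (t := t)
      (F := fun w => w (⟨c.1.val - 1, hlt⟩, c.2) ^ (8 * r)) (by fun_prop)
    rw [h2, integral_coord_pow]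
    linarith

/-- the polynomial detecting badness -/
noncomputable def BB (m : ℕ) (g : ℝ) (v : Fin k × NN t → ℝ) : ℝ :=
  ∑ c : Fin (k + 1) × NN t, (2 * Zl g v c) ^ (2 * m)

theorem polyFn_BB (m : ℕ) (g : ℝ) : PolyFn (fun v : Fin k × NN t → ℝ => BB m g v) := by
  unfold BB
  exact PolyFn.sum _ fun c _ => ((PolyFn.const _).mul (polyFn_Zl g c)).pow _


theorem one_le_BB (m : ℕ) (g : ℝ) (v : Fin k × NN t → ℝ) (hv : v ∈ badSet k t g) :
    1 ≤ BB m g v := by
  obtain ⟨c, hc⟩ := hv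
  have h1 : 1 ≤ (2 * Zl g v c) ^ (2 * m) := by
    rw [pow_mul]
    apply one_le_pow₀
    rw [← sq_abs, abs_mul]
    have : |(2 : ℝ)| = 2 := abs_of_pos (by norm_num)
    rw [this]
    nlinarith
  refine h1.trans ?_
  unfold BB
  refine Finset.single_le_sum (f := fun c => (2 * Zl g v c) ^ (2 * m)) (fun c _ => ?_)
    (Finset.mem_univ c)
  rw [pow_mul]; positivity

theorem BB_sq_le (m : ℕ) (g : ℝ) (hg : 0 ≤ g) (v : Fin k × NN t → ℝ) :
    BB m g v ^ 2 ≤ ((k + 1 : ℕ) * 2 ^ t : ℝ) *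
      ∑ c : Fin (k + 1) × NN t, (2 * g) ^ (4 * m) * ((Xl v c ^ (8 * m) + Yl v c ^ (8 * m)) / 2) := by
  unfold BB
  have h1 := sq_sum_le_card_mul_sum_sq (s := (Finset.univ : Finset (Fin (k + 1) × NN t)))
    (f := fun c => (2 * Zl g v c) ^ (2 * m))
  rw [Finset.card_univ, Fintype.card_prod, Fintype.card_fin, Fintype.card_fun, Fintype.card_bool,
    Fintype.card_fin] at h1
  refine h1.trans ?_
  push_cast
  refine mul_le_mul_of_nonneg_left ?_ (by positivity)
  refine Finset.sum_le_sum fun c _ => ?_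
  unfold Zl
  have e1 : ((2 * (g * Xl v c * Yl v c)) ^ (2 * m)) ^ 2
      = (2 * g) ^ (4 * m) * (Xl v c ^ (4 * m) * Yl v c ^ (4 * m)) := by
    rw [← pow_mul, show 2 * m * 2 = 4 * m by ring]
    rw [show 2 * (g * Xl v c * Yl v c) = (2 * g) * (Xl v c * Yl v c) by ring, mul_pow (2 * g),
      mul_pow (Xl v c)]
  rw [e1]
  refine mul_le_mul_of_nonneg_left ?_ (by positivity)
  have e2 : Xl v c ^ (8 * m) = (Xl v c ^ (4 * m)) ^ 2 := by rw [← pow_mul]; congr 1; ring
  have e3 : Yl v c ^ (8 * m) = (Yl v c ^ (4 * m)) ^ 2 := by rw [← pow_mul]; congr 1; ring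
  rw [e2, e3]
  nlinarith [sq_nonneg (Xl v c ^ (4 * m) - Yl v c ^ (4 * m))]

theorem integral_BB_sq (m : ℕ) (g : ℝ) (hg : 0 ≤ g) :
    ∫ v : Fin k × NN t → ℝ, BB m g v ^ 2 ∂(gaus (Fin k × NN t)) ≤
      ((k + 1 : ℕ) * 2 ^ t : ℝ) ^ 2 * ((2 * g) ^ (4 * m) * (1 + mom (8 * m))) := by
  have hX : ∀ c : Fin (k + 1) × NN t,
      PolyFn (fun v : Fin k × NN t → ℝ => Xl v c ^ (8 * m)) := fun c => (polyFn_Xl c).pow _
  have hY : ∀ c : Fin (k + 1) × NN t,
      PolyFn (fun v : Fin k × NN t → ℝ => Yl v c ^ (8 * m)) := fun c => (polyFn_Yl c).pow _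
  have h1 : ∫ v : Fin k × NN t → ℝ, BB m g v ^ 2 ∂(gaus (Fin k × NN t)) ≤
      ∫ v : Fin k × NN t → ℝ, ((k + 1 : ℕ) * 2 ^ t : ℝ) *
      ∑ c : Fin (k + 1) × NN t, (2 * g) ^ (4 * m) * ((Xl v c ^ (8 * m) + Yl v c ^ (8 * m)) / 2)
        ∂(gaus (Fin k × NN t)) := by
    refine integral_mono ((polyFn_BB m g).pow 2).integrable ?_ (fun v => BB_sq_le m g hg v)
    refine Integrable.const_mul (integrable_finsetSum _ fun c _ => ?_) _
    exact (((hX c).integrable.add (hY c).integrable).div_const 2).const_mul _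
  refine h1.trans ?_
  rw [integral_const_mul, integral_finsetSum]
  · have h2 : ∀ c ∈ (Finset.univ : Finset (Fin (k + 1) × NN t)),
        ∫ v : Fin k × NN t → ℝ, (2 * g) ^ (4 * m) * ((Xl v c ^ (8 * m) + Yl v c ^ (8 * m)) / 2)
          ∂(gaus (Fin k × NN t)) ≤ (2 * g) ^ (4 * m) * (1 + mom (8 * m)) := by
      intro c _
      rw [integral_const_mul, integral_div, integral_add (hX c).integrable (hY c).integrable]
      refine mul_le_mul_of_nonneg_left ?_ (by positivity)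
      have := integral_Xl_pow (k := k) (t := t) c m
      have := integral_Yl_pow (k := k) (t := t) c m
      linarith
    have h3 := Finset.sum_le_sum h2
    rw [Finset.sum_const, Finset.card_univ, Fintype.card_prod, Fintype.card_fin, Fintype.card_fun,
      Fintype.card_bool, Fintype.card_fin, nsmul_eq_mul] at h3
    have h4 := mul_le_mul_of_nonneg_left h3 (by positivity : (0 : ℝ) ≤ ((k + 1 : ℕ) * 2 ^ t : ℝ))
    refine h4.trans (le_of_eq ?_)
    push_cast
    ring
  · intro c _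
    exact (((hX c).integrable.add (hY c).integrable).div_const 2).const_mul _

theorem continuous_Rmax (g : ℝ) : Continuous (fun v : Fin k × NN t → ℝ => Rmax g v) := by
  unfold Rmax
  refine continuous_finsetProd _ fun c _ => ?_
  exact continuous_const.max (polyFn_Zl g c).continuous'.abs

theorem integrable_Rmax (g : ℝ) (hg : 0 ≤ g) :
    Integrable (fun v : Fin k × NN t → ℝ => Rmax g v) (gaus (Fin k × NN t)) := by
  have h1 : Integrable (fun v : Fin k × NN t → ℝ => GG 1 g v * GG 1 g (rot k t v))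
      (gaus (Fin k × NN t)) := ((polyFn_GG 1 g).mul (polyFn_GG_rot 1 g)).integrable
  refine h1.mono' (continuous_Rmax g).aestronglyMeasurable (ae_of_all _ fun v => ?_)
  rw [Real.norm_eq_abs, abs_of_nonneg]
  · exact Rmax_le 1 le_rfl g hg v
  · unfold Rmax
    exact Finset.prod_nonneg fun c _ => le_trans zero_le_one (le_max_left _ _)

theorem measurableSet_bad (g : ℝ) : MeasurableSet (badSet k t g) := by
  have : badSet k t g = ⋃ c : Fin (k + 1) × NN t, {v | 1 / 2 < |Zl g v c|} := by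
    ext v; simp [badSet]
  rw [this]
  refine MeasurableSet.iUnion fun c => ?_
  exact (isOpen_lt continuous_const (polyFn_Zl g c).continuous'.abs).measurableSet

/-- the quantitative bound -/
theorem bad_integral_le (p m : ℕ) (hp : 1 ≤ p) (g l : ℝ) (hg : 0 ≤ g) (hg1 : g ≤ 1)
    (hgp : g ^ p * 2 ^ t ≤ 1) (hl : 0 < l) :
    ∫ v in badSet k t g, Rmax g v ∂(gaus (Fin k × NN t)) ≤
      (l * (((k + 1 : ℕ) * 2 ^ t : ℝ) ^ 2 * ((2 * g) ^ (4 * m) * (1 + mom (8 * m))))
        + l⁻¹ * Real.exp (4 + k * Kp p)) / 2 := by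
  set μ := gaus (Fin k × NN t) with hμ
  set H : (Fin k × NN t → ℝ) → ℝ := fun v =>
    (l * BB m g v ^ 2 + l⁻¹ * ((GG p g v ^ 4 + GG p g (rot k t v) ^ 4) / 2)) / 2 with hH
  have iB : Integrable (fun v : Fin k × NN t → ℝ => BB m g v ^ 2) μ :=
    ((polyFn_BB m g).pow 2).integrable
  have iU : Integrable (fun v : Fin k × NN t → ℝ => GG p g v ^ 4) μ :=
    ((polyFn_GG p g).pow 4).integrable
  have iV : Integrable (fun v : Fin k × NN t → ℝ => GG p g (rot k t v) ^ 4) μ :=
    ((polyFn_GG_rot p g).pow 4).integrable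
  have iH : Integrable H μ :=
    ((iB.const_mul l).add (((iU.add iV).div_const 2).const_mul l⁻¹)).div_const 2
  have hH0 : ∀ v, 0 ≤ H v := fun v => by
    simp only [hH]
    have := inv_pos.2 hl
    positivity
  have hle : ∀ v ∈ badSet k t g, Rmax g v ≤ H v := by
    intro v hv
    have h1 := Rmax_le p hp g hg v
    have hU := GG_nonneg p g hg v
    have hV := GG_nonneg p g hg (rot k t v)
    have hB := one_le_BB m g v hv
    set U := GG p g v
    set V := GG p g (rot k t v)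
    set B := BB m g v
    have h2 : U * V ≤ B * (U * V) := le_mul_of_one_le_left (mul_nonneg hU hV) hB
    have h3 : B * (U * V) ≤ (l * B ^ 2 + l⁻¹ * (U * V) ^ 2) / 2 := by
      have h4 : 0 ≤ l⁻¹ * (l * B - U * V) ^ 2 := by
        have := inv_pos.2 hl
        positivity
      have h5 : l⁻¹ * (l * B - U * V) ^ 2 = l * B ^ 2 - 2 * (B * (U * V)) + l⁻¹ * (U * V) ^ 2 := by
        field_simp
        ring
      linarith
    have h6 : (U * V) ^ 2 ≤ (U ^ 4 + V ^ 4) / 2 := by nlinarith [sq_nonneg (U ^ 2 - V ^ 2)]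
    have h7 : l⁻¹ * (U * V) ^ 2 ≤ l⁻¹ * ((U ^ 4 + V ^ 4) / 2) :=
      mul_le_mul_of_nonneg_left h6 (inv_pos.2 hl).le
    simp only [hH]
    linarith
  have h1 : ∫ v in badSet k t g, Rmax g v ∂μ ≤ ∫ v in badSet k t g, H v ∂μ :=
    setIntegral_mono_on (integrable_Rmax g hg).integrableOn iH.integrableOn
      (measurableSet_bad g) hle
  have h2 : ∫ v in badSet k t g, H v ∂μ ≤ ∫ v, H v ∂μ :=
    setIntegral_le_integral iH (ae_of_all _ hH0)
  have h3 : ∫ v, H v ∂μ = (l * ∫ v, BB m g v ^ 2 ∂μ + l⁻¹ * ((∫ v, GG p g v ^ 4 ∂μ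
      + ∫ v, GG p g (rot k t v) ^ 4 ∂μ) / 2)) / 2 := by
    have iUV : Integrable (fun v : Fin k × NN t → ℝ =>
        l⁻¹ * ((GG p g v ^ 4 + GG p g (rot k t v) ^ 4) / 2)) μ :=
      ((iU.add iV).div_const 2).const_mul l⁻¹
    simp only [hH]
    rw [integral_div, integral_add (iB.const_mul l) iUV,
      integral_const_mul, integral_const_mul, integral_div, integral_add iU iV]
  have h4 : ∫ v, GG p g (rot k t v) ^ 4 ∂μ = ∫ v, GG p g v ^ 4 ∂μ :=
    integral_rot (F := fun w => GG p g w ^ 4) ((polyFn_GG p g).pow 4).continuous'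
  have h5 := integral_GG4 (k := k) (t := t) p g hg hg1 hgp
  have h6 := integral_BB_sq (k := k) (t := t) m g hg
  rw [h4] at h3
  rw [← hμ] at h5 h6
  refine (h1.trans h2).trans ?_
  rw [h3]
  have h7 := mul_le_mul_of_nonneg_left h6 hl.le
  have h8 := mul_le_mul_of_nonneg_left h5 (inv_pos.2 hl).le
  linarith

/-- T5b: off-cube contribution is smaller than any power of `n = 2^t`. -/
theorem tail_bound (k : ℕ) (δ C : ℝ) (hδ : 0 < δ) :
    ∃ t₀ : ℕ, ∀ t : ℕ, t₀ ≤ t → ∀ g : ℝ, 0 ≤ g → g ≤ ((2 : ℝ) ^ t) ^ (-δ) →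
      Integrable (Rmax (k := k) (t := t) g) (gam k t) ∧ MeasurableSet (badSet k t g) ∧
      ∫ v in badSet k t g, Rmax g v ∂(gam k t) ≤ ((2 : ℝ) ^ t) ^ (-C) := by
  obtain ⟨p0, hp0⟩ := exists_nat_ge (1 / δ)
  obtain ⟨m, hm⟩ := exists_nat_ge ((2 * C + 4) / (4 * δ))
  set p := max p0 1 with hpdef
  have hp1 : 1 ≤ p := le_max_right _ _
  have hpδ : 1 ≤ p * δ := by
    have h1 : (p0 : ℝ) ≤ p := by exact_mod_cast le_max_left _ _
    have h2 : 1 / δ ≤ p := hp0.trans h1
    rw [div_le_iff₀ hδ] at h2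
    exact h2
  have hmδ : 2 * C + 4 ≤ 4 * m * δ := by
    rw [div_le_iff₀ (by positivity)] at hm
    linarith
  set K1 : ℝ := ((k + 1 : ℕ) : ℝ) ^ 2 * (2 ^ (4 * m) * (1 + mom (8 * m))) with hK1
  set D : ℝ := Real.exp (4 + k * Kp p) with hD
  obtain ⟨t0, ht0⟩ := pow_unbounded_of_one_lt ((K1 + D) / 2) (one_lt_two : (1 : ℝ) < 2)
  refine ⟨t0, fun t ht g hg hgle => ⟨integrable_Rmax g hg, measurableSet_bad g, ?_⟩⟩
  set n : ℝ := (2 : ℝ) ^ t with hn
  have hn1 : 1 ≤ n := one_le_pow₀ (by norm_num)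
  have hn0 : 0 < n := by linarith
  have hnt : (K1 + D) / 2 ≤ n := ht0.le.trans (pow_le_pow_right₀ (by norm_num) ht)
  have hg1 : g ≤ 1 := hgle.trans (Real.rpow_le_one_of_one_le_of_nonpos hn1 (by linarith))
  have hgp : g ^ p * 2 ^ t ≤ 1 := by
    have h1 : g ^ p ≤ (n ^ (-δ)) ^ p := pow_le_pow_left₀ hg hgle p
    have h2 : (n ^ (-δ)) ^ p = n ^ (-δ * p) := by
      rw [← Real.rpow_natCast, ← Real.rpow_mul hn0.le]
    have h3 : n ^ (-δ * p) ≤ n ^ (-1 : ℝ) :=
      Real.rpow_le_rpow_of_exponent_le hn1 (by linarith)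
    have h4 : g ^ p ≤ n⁻¹ := by
      rw [h2] at h1
      rw [Real.rpow_neg_one] at h3
      exact h1.trans h3
    calc g ^ p * 2 ^ t ≤ n⁻¹ * n := mul_le_mul_of_nonneg_right h4 hn0.le
      _ = 1 := inv_mul_cancel₀ hn0.ne'
  have hl : 0 < n ^ (C + 1) := Real.rpow_pos_of_pos hn0 _
  have hmain := bad_integral_le (k := k) (t := t) p m hp1 g (n ^ (C + 1)) hg hg1 hgp hl
  change ∫ v in badSet k t g, Rmax g v ∂(gaus (Fin k × NN t)) ≤ n ^ (-C)
  refine hmain.trans ?_
  have hg4 : g ^ (4 * m) ≤ n ^ (-(2 * C + 4)) := by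
    have h1 : g ^ (4 * m) ≤ (n ^ (-δ)) ^ (4 * m) := pow_le_pow_left₀ hg hgle _
    have h2 : (n ^ (-δ)) ^ (4 * m) = n ^ (-δ * ((4 * m : ℕ) : ℝ)) := by
      rw [← Real.rpow_natCast, ← Real.rpow_mul hn0.le]
    have h3 : n ^ (-δ * ((4 * m : ℕ) : ℝ)) ≤ n ^ (-(2 * C + 4)) := by
      apply Real.rpow_le_rpow_of_exponent_le hn1
      push_cast
      linarith
    rw [h2] at h1
    exact h1.trans h3
  have hμ0 := mom_nonneg m
  have h1 : n ^ (C + 1) * (((k + 1 : ℕ) * 2 ^ t : ℝ) ^ 2 * ((2 * g) ^ (4 * m) * (1 + mom (8 * m))))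
      ≤ K1 * n ^ (-C - 1) := by
    have e1 : n ^ (C + 1) * (((k + 1 : ℕ) * 2 ^ t : ℝ) ^ 2 *
        ((2 * g) ^ (4 * m) * (1 + mom (8 * m)))) = K1 * (n ^ (C + 1) * n ^ 2 * g ^ (4 * m)) := by
      rw [hK1, mul_pow 2 g, ← hn]
      push_cast
      ring
    rw [e1]
    refine mul_le_mul_of_nonneg_left ?_ (by positivity)
    calc n ^ (C + 1) * n ^ 2 * g ^ (4 * m) ≤ n ^ (C + 1) * n ^ 2 * n ^ (-(2 * C + 4)) :=
          mul_le_mul_of_nonneg_left hg4 (by positivity)
      _ = n ^ (-C - 1) := by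
          rw [← Real.rpow_natCast n 2, ← Real.rpow_add hn0, ← Real.rpow_add hn0]
          congr 1
          push_cast
          ring
  have h2 : (n ^ (C + 1))⁻¹ = n ^ (-C - 1) := by
    rw [← Real.rpow_neg hn0.le]
    congr 1
    ring
  rw [h2]
  have h3 : n ^ (-C) = n * n ^ (-C - 1) := by
    conv_rhs => rw [← Real.rpow_one n]
    rw [Real.rpow_one, Real.rpow_sub_one hn0.ne']
    field_simp
  rw [h3]
  have h4 : (K1 + D) / 2 * n ^ (-C - 1) ≤ n * n ^ (-C - 1) :=
    mul_le_mul_of_nonneg_right hnt (Real.rpow_pos_of_pos hn0 _).le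
  linarith

end tail

end Crest.Agent.R350
end

-- ▼ part R350/ForrLB
section

/-!
Row 350, part T5: the Forrelation lower bound (assembly).
-/

set_option autoImplicit false

namespace Crest.Agent.R350

open Finset MeasureTheory ProbabilityTheory


section general

variable {κ : Type*} [Fintype κ]

omit [Fintype κ] in
lemma PolyFn.continuous {F : (κ → ℝ) → ℝ} (hF : PolyFn F) : Continuous F := by
  obtain ⟨P, hP⟩ := hF
  have : F = fun v => MvPolynomial.eval v P := funext hP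
  rw [this]
  exact MvPolynomial.continuous_eval P

end general

variable {k t : ℕ}

/-- clamp to `[-1,1]` -/
noncomputable def clampz {ι : Type*} (z : ι → ℝ) (c : ι) : ℝ := max (-1) (min 1 (z c))

lemma abs_clampz_le {ι : Type*} (z : ι → ℝ) (c : ι) : |clampz z c| ≤ 1 := by
  unfold clampz
  rw [abs_le]
  constructor
  · exact le_max_left _ _
  · exact max_le (by norm_num) (min_le_left _ _)

lemma clampz_eq {ι : Type*} (z : ι → ℝ) (h : ∀ c, |z c| ≤ 1 / 2) : clampz z = z := by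
  funext c
  have := abs_le.1 (h c)
  unfold clampz
  rw [min_eq_right (by linarith), max_eq_right (by linarith)]

lemma qw_nonneg (u : ℝ) (hu : |u| ≤ 1) (b : Bool) : 0 ≤ qw u b := by
  have := abs_le.1 hu
  unfold qw
  cases b <;> simp <;> linarith

lemma qw_le_one (u : ℝ) (hu : |u| ≤ 1) (b : Bool) : qw u b ≤ 1 := by
  have := abs_le.1 hu
  unfold qw
  cases b <;> simp <;> linarith

lemma qw_half (b : Bool) : qw 0 b = 1 / 2 := by unfold qw; simp

/-- the planted distribution -/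
noncomputable def muF (g : ℝ) (x : Fin (k + 1) × NN t → Bool) : ℝ :=
  ∫ v, ∏ c, qw (clampz (Zl g v) c) (x c) ∂(gaus (Fin k × NN t))

lemma integrable_prod_qw (g : ℝ) (x : Fin (k + 1) × NN t → Bool) :
    Integrable (fun v : Fin k × NN t → ℝ => ∏ c, qw (clampz (Zl g v) c) (x c))
      (gaus (Fin k × NN t)) := by
  refine Integrable.of_bound (C := 1) ?_ ?_
  · apply Continuous.aestronglyMeasurable
    apply continuous_finsetProd
    intro c _
    unfold qw clampz
    have := (polyFn_Zl (k := k) (t := t) g c).continuous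
    fun_prop
  · filter_upwards with v
    rw [Real.norm_eq_abs, Finset.abs_prod]
    apply Finset.prod_le_one
    · intro c _; exact abs_nonneg _
    · intro c _
      rw [abs_of_nonneg (qw_nonneg _ (abs_clampz_le _ _) _)]
      exact qw_le_one _ (abs_clampz_le _ _) _

lemma muF_nonneg (g : ℝ) (x : Fin (k + 1) × NN t → Bool) : 0 ≤ muF g x := by
  unfold muF
  apply integral_nonneg
  intro v
  exact Finset.prod_nonneg fun c _ => qw_nonneg _ (abs_clampz_le _ _) _

lemma sum_muF_mul (g : ℝ) (F : (Fin (k + 1) × NN t → Bool) → ℝ) :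
    ∑ x, muF g x * F x = ∫ v, dmext ∅ F (clampz (Zl g v)) ∂(gaus (Fin k × NN t)) := by
  unfold muF dmext
  rw [integral_finsetSum]
  · apply Finset.sum_congr rfl
    intro x _
    simp only [Finset.notMem_empty, if_false]
    rw [integral_const_mul, mul_comm]
  · intro x _
    simp only [Finset.notMem_empty, if_false]
    exact (integrable_prod_qw g x).const_mul _

lemma sum_muF (g : ℝ) : ∑ x : Fin (k + 1) × NN t → Bool, muF g x = 1 := by
  have h := sum_muF_mul (k := k) (t := t) g (fun _ => 1)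
  simp only [mul_one] at h
  rw [h]
  simp only [dmext_const, if_true]
  simp

lemma dmext_zero_eq (F : (Fin (k + 1) × NN t → Bool) → ℝ) :
    dmext ∅ F (fun _ => 0) = (∑ x, F x) / Fintype.card (Fin (k + 1) × NN t → Bool) := by
  unfold dmext
  simp only [Finset.notMem_empty, if_false, qw_half]
  rw [← Finset.sum_mul]
  rw [Finset.prod_const, Fintype.card_fun, Fintype.card_bool, Finset.card_univ]
  push_cast
  rw [one_div, inv_pow]
  rfl

lemma Zs_zero_one (g : ℝ) (v : Fin k × NN t → ℝ) : Zs g 0 1 v = Zl g v := by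
  funext c
  unfold Zs scl
  by_cases h : c.1.val = 0 <;> simp

lemma abs_scl_le (b : ℕ) (s : ℝ) (hs : |s| ≤ 1) (a : Fin (k + 1)) : |scl b s a| ≤ 1 := by
  unfold scl
  split_ifs <;> simp [hs]

lemma abs_Zs_le (g : ℝ) (b : ℕ) (s : ℝ) (hs : |s| ≤ 1) (v : Fin k × NN t → ℝ)
    (c : Fin (k + 1) × NN t) : |Zs g b s v c| ≤ |Zl g v c| := by
  unfold Zs
  rw [abs_mul]
  have := abs_scl_le b s hs c.1
  have h2 := abs_nonneg (Zl g v c)
  nlinarith

lemma prod_max_Zs_le (g : ℝ) (b : ℕ) (s : ℝ) (hs : |s| ≤ 1) (v : Fin k × NN t → ℝ) :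
    ∏ c : Fin (k + 1) × NN t, max 1 |Zs g b s v c| ≤ Rmax g v := by
  unfold Rmax
  apply Finset.prod_le_prod
  · intro c _; positivity
  · intro c _
    exact max_le_max le_rfl (abs_Zs_le g b s hs v c)

lemma one_le_Rmax (g : ℝ) (v : Fin k × NN t → ℝ) : 1 ≤ Rmax g v := by
  unfold Rmax
  have : ∏ c : Fin (k + 1) × NN t, (1:ℝ) ≤ ∏ c : Fin (k + 1) × NN t, max 1 |Zl g v c| := by
    apply Finset.prod_le_prod
    · intro c _; norm_num
    · intro c _; exact le_max_left _ _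
  simpa using this

lemma notBad_iff (g : ℝ) (v : Fin k × NN t → ℝ) :
    v ∉ badSet k t g ↔ ∀ c, |Zl g v c| ≤ 1 / 2 := by
  unfold badSet
  simp

/-- rounding error -/
lemma rounding_error (g ε : ℝ) (F : (Fin (k + 1) × NN t → Bool) → ℝ) (hF : ∀ x, |F x| ≤ 1)
    (hint : Integrable (Rmax (k := k) (t := t) g) (gaus (Fin k × NN t)))
    (hmeas : MeasurableSet (badSet k t g))
    (htail : ∫ v in badSet k t g, Rmax g v ∂(gaus (Fin k × NN t)) ≤ ε) :
    |∑ x, muF g x * F x - Fb g 0 1 F| ≤ 2 * ε := by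
  rw [sum_muF_mul]
  unfold Fb
  have hi1 : Integrable (fun v : Fin k × NN t → ℝ => dmext ∅ F (clampz (Zl g v)))
      (gaus (Fin k × NN t)) := by
    unfold dmext
    apply integrable_finsetSum
    intro x _
    simp only [Finset.notMem_empty, if_false]
    exact (integrable_prod_qw g x).const_mul _
  have hi2 : Integrable (fun v : Fin k × NN t → ℝ => dmext ∅ F (Zs g 0 1 v))
      (gaus (Fin k × NN t)) := (polyFn_dmext ∅ F _ (polyFn_Zs g 0 1)).integrable
  rw [← integral_sub hi1 hi2]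
  calc |∫ v, (dmext ∅ F (clampz (Zl g v)) - dmext ∅ F (Zs g 0 1 v)) ∂(gaus (Fin k × NN t))|
      ≤ ∫ v, |dmext ∅ F (clampz (Zl g v)) - dmext ∅ F (Zs g 0 1 v)| ∂(gaus (Fin k × NN t)) :=
        abs_integral_le_integral_abs
    _ ≤ ∫ v, (badSet k t g).indicator (fun v => 2 * Rmax g v) v ∂(gaus (Fin k × NN t)) := by
        apply integral_mono (hi1.sub hi2).abs ((hint.const_mul 2).indicator hmeas)
        intro v
        by_cases hv : v ∈ badSet k t g
        · simp only [Set.indicator_of_mem hv]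
          have h1 : |dmext ∅ F (clampz (Zl g v))| ≤ Rmax g v := by
            refine (abs_dmext_le ∅ F hF _).trans ?_
            have : ∏ i, max 1 |clampz (Zl g v) i| = 1 := by
              apply Finset.prod_eq_one
              intro c _
              exact max_eq_left (abs_clampz_le _ _)
            rw [this]
            exact one_le_Rmax g v
          have h2 : |dmext ∅ F (Zs g 0 1 v)| ≤ Rmax g v :=
            (abs_dmext_le ∅ F hF _).trans (prod_max_Zs_le g 0 1 (by simp) v)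
          calc |dmext ∅ F (clampz (Zl g v)) - dmext ∅ F (Zs g 0 1 v)|
              ≤ |dmext ∅ F (clampz (Zl g v))| + |dmext ∅ F (Zs g 0 1 v)| := abs_sub _ _
            _ ≤ 2 * Rmax g v := by linarith
        · simp only [Set.indicator_of_notMem hv, Pi.sub_apply]
          rw [notBad_iff] at hv
          rw [clampz_eq _ hv, Zs_zero_one, sub_self, abs_zero]
    _ = ∫ v in badSet k t g, 2 * Rmax g v ∂(gaus (Fin k × NN t)) := integral_indicator hmeas
    _ = 2 * ∫ v in badSet k t g, Rmax g v ∂(gaus (Fin k × NN t)) := integral_const_mul _ _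
    _ ≤ 2 * ε := by linarith

lemma abs_wpath_le {a : ℕ} (p : Fin (a + 1) → NN t) : |wpath p| ≤ 1 := by
  unfold wpath
  rw [Finset.abs_prod]
  apply Finset.prod_le_one
  · intro b _; exact abs_nonneg _
  · intro b _
    rw [abs_Wm]
    rw [div_le_one (Real.sqrt_pos.2 (by positivity))]
    rw [Real.one_le_sqrt]
    exact one_le_pow₀ (by norm_num)

/-- derivative bound -/
lemma deriv_bound (g s ε B : ℝ) (hg0 : 0 ≤ g) (hg1 : g ≤ 1) (hs : |s| ≤ 1) (hB : 0 ≤ B)
    (F : (Fin (k + 1) × NN t → Bool) → ℝ) (hF : ∀ x, |F x| ≤ 1)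
    (hint : Integrable (Rmax (k := k) (t := t) g) (gaus (Fin k × NN t)))
    (hmeas : MeasurableSet (badSet k t g))
    (htail : ∫ v in badSet k t g, Rmax g v ∂(gaus (Fin k × NN t)) ≤ ε)
    (hlev : ∀ z : Fin (k + 1) × NN t → ℝ, (∀ c, |z c| ≤ 1 / 2) →
      |∑ p : Fin (k + 1) → NN t, (g ^ (k + 1) * wpath p) * dmext (spath le_rfl p) F z| ≤ B) :
    |∑ p : Fin (k + 1) → NN t, (g ^ (k + 1) * wpath p) *
        ∫ v, dmext (spath le_rfl p) F (Zs g 0 s v) ∂(gaus (Fin k × NN t))| ≤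
      B + ((2:ℝ) ^ t) ^ (k + 1) * ε := by
  have hi : ∀ p : Fin (k + 1) → NN t, Integrable (fun v : Fin k × NN t → ℝ =>
      (g ^ (k + 1) * wpath p) * dmext (spath le_rfl p) F (Zs g 0 s v)) (gaus (Fin k × NN t)) :=
    fun p => ((polyFn_dmext (spath le_rfl p) F _ (polyFn_Zs g 0 s)).integrable).const_mul _
  have h1 : ∑ p : Fin (k + 1) → NN t, (g ^ (k + 1) * wpath p) *
        ∫ v, dmext (spath le_rfl p) F (Zs g 0 s v) ∂(gaus (Fin k × NN t)) =
      ∫ v, ∑ p : Fin (k + 1) → NN t, (g ^ (k + 1) * wpath p) *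
        dmext (spath le_rfl p) F (Zs g 0 s v) ∂(gaus (Fin k × NN t)) := by
    rw [integral_finsetSum _ (fun p _ => hi p)]
    apply Finset.sum_congr rfl
    intro p _
    rw [integral_const_mul]
  rw [h1]
  have hisum : Integrable (fun v : Fin k × NN t → ℝ => ∑ p : Fin (k + 1) → NN t,
      (g ^ (k + 1) * wpath p) * dmext (spath le_rfl p) F (Zs g 0 s v)) (gaus (Fin k × NN t)) :=
    integrable_finsetSum _ (fun p _ => hi p)
  have hpow : 0 ≤ ((2:ℝ) ^ t) ^ (k + 1) := by positivity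
  calc |∫ v, ∑ p : Fin (k + 1) → NN t, (g ^ (k + 1) * wpath p) *
        dmext (spath le_rfl p) F (Zs g 0 s v) ∂(gaus (Fin k × NN t))|
      ≤ ∫ v, |∑ p : Fin (k + 1) → NN t, (g ^ (k + 1) * wpath p) *
        dmext (spath le_rfl p) F (Zs g 0 s v)| ∂(gaus (Fin k × NN t)) := abs_integral_le_integral_abs
    _ ≤ ∫ v, (B + (badSet k t g).indicator (fun v => ((2:ℝ) ^ t) ^ (k + 1) * Rmax g v) v)
          ∂(gaus (Fin k × NN t)) := by
        apply integral_mono hisum.abs
          ((integrable_const B).add ((hint.const_mul _).indicator hmeas))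
        intro v
        simp only [Pi.add_apply]
        by_cases hv : v ∈ badSet k t g
        · simp only [Set.indicator_of_mem hv]
          have h2 : |∑ p : Fin (k + 1) → NN t, (g ^ (k + 1) * wpath p) *
              dmext (spath le_rfl p) F (Zs g 0 s v)| ≤ ((2:ℝ) ^ t) ^ (k + 1) * Rmax g v := by
            calc |∑ p : Fin (k + 1) → NN t, (g ^ (k + 1) * wpath p) *
                  dmext (spath le_rfl p) F (Zs g 0 s v)|
                ≤ ∑ p : Fin (k + 1) → NN t, |(g ^ (k + 1) * wpath p) *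
                  dmext (spath le_rfl p) F (Zs g 0 s v)| := Finset.abs_sum_le_sum_abs _ _
              _ ≤ ∑ p : Fin (k + 1) → NN t, Rmax g v := by
                  apply Finset.sum_le_sum
                  intro p _
                  rw [abs_mul, abs_mul]
                  have e1 : |g ^ (k + 1)| ≤ 1 := by
                    rw [abs_of_nonneg (by positivity)]
                    exact pow_le_one₀ hg0 hg1
                  have e2 := abs_wpath_le p
                  have e3 : |dmext (spath le_rfl p) F (Zs g 0 s v)| ≤ Rmax g v :=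
                    (abs_dmext_le _ F hF _).trans (prod_max_Zs_le g 0 s hs v)
                  have e4 : |g ^ (k + 1)| * |wpath p| ≤ 1 := by
                    have := abs_nonneg (g ^ (k + 1)); have := abs_nonneg (wpath p); nlinarith
                  have e5 := abs_nonneg (dmext (spath le_rfl p) F (Zs g 0 s v))
                  calc |g ^ (k + 1)| * |wpath p| * |dmext (spath le_rfl p) F (Zs g 0 s v)|
                      ≤ 1 * |dmext (spath le_rfl p) F (Zs g 0 s v)| :=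
                        mul_le_mul_of_nonneg_right e4 e5
                    _ ≤ Rmax g v := by rw [one_mul]; exact e3
              _ = ((2:ℝ) ^ t) ^ (k + 1) * Rmax g v := by
                  rw [Finset.sum_const, nsmul_eq_mul, Finset.card_univ]
                  congr 1
                  simp [Fintype.card_pi]
          linarith
        · simp only [Set.indicator_of_notMem hv, add_zero]
          rw [notBad_iff] at hv
          exact hlev _ (fun c => (abs_Zs_le g 0 s hs v c).trans (hv c))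
    _ = B + ∫ v in badSet k t g, ((2:ℝ) ^ t) ^ (k + 1) * Rmax g v ∂(gaus (Fin k × NN t)) := by
        rw [integral_add (integrable_const B) ((hint.const_mul _).indicator hmeas),
          integral_indicator hmeas]
        simp
    _ = B + ((2:ℝ) ^ t) ^ (k + 1) * ∫ v in badSet k t g, Rmax g v ∂(gaus (Fin k × NN t)) := by
        rw [integral_const_mul]
    _ ≤ _ := by
        have := mul_le_mul_of_nonneg_left htail hpow
        linarith

/-- advantage of a test function -/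
lemma advantage (hk : 1 ≤ k) (g ε B : ℝ) (hg0 : 0 ≤ g) (hg1 : g ≤ 1) (hB : 0 ≤ B)
    (F : (Fin (k + 1) × NN t → Bool) → ℝ) (hF : ∀ x, |F x| ≤ 1)
    (hint : Integrable (Rmax (k := k) (t := t) g) (gaus (Fin k × NN t)))
    (hmeas : MeasurableSet (badSet k t g))
    (htail : ∫ v in badSet k t g, Rmax g v ∂(gaus (Fin k × NN t)) ≤ ε)
    (hlev : ∀ z : Fin (k + 1) × NN t → ℝ, (∀ c, |z c| ≤ 1 / 2) →
      |∑ p : Fin (k + 1) → NN t, (g ^ (k + 1) * wpath p) * dmext (spath le_rfl p) F z| ≤ B) :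
    |∑ x, muF g x * F x - (∑ x, F x) / Fintype.card (Fin (k + 1) × NN t → Bool)| ≤
      B + (((2:ℝ) ^ t) ^ (k + 1) + 2) * ε := by
  have h1 := rounding_error g ε F hF hint hmeas htail
  have h2 : |Fb g 0 1 F - Fb g 0 0 F| ≤ B + ((2:ℝ) ^ t) ^ (k + 1) * ε := by
    obtain ⟨s, hs, hs'⟩ := exists_hasDerivAt_eq_slope (fun s => Fb g 0 s F) _
      (by norm_num : (0:ℝ) < 1)
      (fun s _ => (interp_deriv hk g s F).continuousAt.continuousWithinAt)
      (fun s _ => interp_deriv hk g s F)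
    have h3 : Fb g 0 1 F - Fb g 0 0 F = ∑ p : Fin (k + 1) → NN t, (g ^ (k + 1) * wpath p) *
        ∫ v, dmext (spath le_rfl p) F (Zs g 0 s v) ∂(gaus (Fin k × NN t)) := by
      rw [hs']; simp
    rw [h3]
    exact deriv_bound g s ε B hg0 hg1 (by rw [abs_of_pos hs.1]; exact hs.2.le) hB F hF hint hmeas htail hlev
  rw [Fb_zero_zero, dmext_zero_eq] at h2
  have h4 := abs_add_le (∑ x, muF g x * F x - Fb g 0 1 F)
    (Fb g 0 1 F - (∑ x, F x) / Fintype.card (Fin (k + 1) × NN t → Bool))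
  rw [sub_add_sub_cancel] at h4
  calc _ ≤ _ := h4
    _ ≤ 2 * ε + (B + ((2:ℝ) ^ t) ^ (k + 1) * ε) := add_le_add h1 h2
    _ = _ := by ring

/-- mean of `phi` -/
lemma mean_phi (hk : 1 ≤ k) (g ε : ℝ)
    (hint : Integrable (Rmax (k := k) (t := t) g) (gaus (Fin k × NN t)))
    (hmeas : MeasurableSet (badSet k t g))
    (htail : ∫ v in badSet k t g, Rmax g v ∂(gaus (Fin k × NN t)) ≤ ε) :
    g ^ (k + 1) - 2 * ε ≤ ∑ x : Fin (k + 1) × NN t → Bool, muF g x * phi k t (fun a i => x (a, i)) := by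
  set F : (Fin (k + 1) × NN t → Bool) → ℝ := fun x => phi k t (fun a i => x (a, i)) with hFdef
  have hF : ∀ x, |F x| ≤ 1 := fun x => phi_abs_le k t _
  have h1 := rounding_error g ε F hF hint hmeas htail
  have h2 : Fb g 0 1 F - Fb g 0 0 F = g ^ (k + 1) := by
    obtain ⟨s, hs, hs'⟩ := exists_hasDerivAt_eq_slope (fun s => Fb g 0 s F) _
      (by norm_num : (0:ℝ) < 1)
      (fun s _ => (interp_deriv hk g s F).continuousAt.continuousWithinAt)
      (fun s _ => interp_deriv hk g s F)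
    have h3 : Fb g 0 1 F - Fb g 0 0 F = ∑ p : Fin (k + 1) → NN t, (g ^ (k + 1) * wpath p) *
        ∫ v, dmext (spath le_rfl p) F (Zs g 0 s v) ∂(gaus (Fin k × NN t)) := by
      rw [hs']; simp
    rw [h3]
    have h4 : ∑ p : Fin (k + 1) → NN t, (g ^ (k + 1) * wpath p) *
        ∫ v, dmext (spath le_rfl p) F (Zs g 0 s v) ∂(gaus (Fin k × NN t)) =
      ∫ v, ∑ p : Fin (k + 1) → NN t, (g ^ (k + 1) * wpath p) *
        dmext (spath le_rfl p) F (Zs g 0 s v) ∂(gaus (Fin k × NN t)) := by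
      rw [integral_finsetSum _ (fun p _ =>
        ((polyFn_dmext (spath le_rfl p) F _ (polyFn_Zs g 0 s)).integrable).const_mul _)]
      apply Finset.sum_congr rfl
      intro p _
      rw [integral_const_mul]
    rw [h4]
    have h5 : ∀ v : Fin k × NN t → ℝ, ∑ p : Fin (k + 1) → NN t, (g ^ (k + 1) * wpath p) *
        dmext (spath le_rfl p) F (Zs g 0 s v) = g ^ (k + 1) := fun v => phi_deriv k t g _
    simp only [h5]
    simp
  have h6 : Fb g 0 0 F = 0 := by
    rw [Fb_zero_zero, dmext_zero_eq]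
    have := phi_avg k t
    rw [hFdef, this, zero_div]
  rw [h6, sub_zero] at h2
  rw [h2] at h1
  have := (abs_le.1 h1).1
  linarith


lemma tendsto_two_pow_rpow_neg (a : ℝ) (ha : 0 < a) :
    Filter.Tendsto (fun t : ℕ => ((2:ℝ) ^ t) ^ (-a)) Filter.atTop (nhds 0) :=
  (tendsto_rpow_neg_atTop ha).comp (tendsto_pow_atTop_atTop_of_one_lt one_lt_two)

lemma DTC_abs_le {ι : Type} {d : ℕ} {f : (ι → Bool) → ℝ} (hf : DTC d f) (x : ι → Bool) :
    |f x| ≤ 1 := by
  induction hf with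
  | const d c h0 h1 => rw [abs_of_nonneg h0]; exact h1
  | ask d i f g _ _ ihf ihg =>
    by_cases h : x i = true
    · simpa [h] using ihg
    · simpa [h] using ihf

/-- T5 -/
theorem forr_hard (k : ℕ) (hk : 1 ≤ k) (δ : ℝ) (hδ : 0 < δ) (hδ1 : δ ≤ 1 / 100) :
    ∃ t₀ : ℕ, ∀ t : ℕ, t₀ ≤ t → ∃ μ : (Fin (k + 1) × NN t → Bool) → ℝ,
      (∀ x, 0 ≤ μ x) ∧ ∑ x, μ x = 1 ∧
      ((2 : ℝ) ^ t) ^ (-δ) ≤ ∑ x, μ x * phi k t (fun a i => x (a, i)) ∧
      ∀ d : ℕ, (d : ℝ) ≤ ((2 : ℝ) ^ t) ^ (1 - 1 / ((k : ℝ) + 1) - 8 * δ) →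
        ∀ f : (Fin (k + 1) × NN t → Bool) → ℝ, DTC d f →
          |∑ x, μ x * f x - (∑ x, f x) / Fintype.card (Fin (k + 1) × NN t → Bool)|
            ≤ ((2 : ℝ) ^ t) ^ (-(4 * δ)) := by
  have hk1 : (0:ℝ) < (k:ℝ) + 1 := by positivity
  set δ' : ℝ := δ / (2 * ((k:ℝ) + 1)) with hδ'
  have hδ'0 : 0 < δ' := by positivity
  obtain ⟨t₁, ht₁⟩ := tail_bound k δ' ((k:ℝ) + 5) hδ'0
  set q : ℕ := ⌈1 / δ⌉₊ with hq
  have hq1 : 1 / δ ≤ (q:ℝ) := Nat.le_ceil _
  have hq0 : 1 ≤ q := by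
    have h1 : (0:ℝ) < 1 / δ := by positivity
    have h2 : (0:ℝ) < q := lt_of_lt_of_le h1 hq1
    exact_mod_cast h2
  set K : ℝ := (4 * 9 ^ q) ^ (k + 1) with hK
  have hK0 : 0 ≤ K := by positivity
  have e1 : ∀ᶠ t : ℕ in Filter.atTop, Real.sqrt K * ((2:ℝ) ^ t) ^ (-(7 / 2 * δ)) ≤ 1 / 2 := by
    have h := (tendsto_two_pow_rpow_neg (7 / 2 * δ) (by positivity)).const_mul (Real.sqrt K)
    rw [mul_zero] at h
    exact h.eventually (eventually_le_nhds (by norm_num))
  have e2 : ∀ᶠ t : ℕ in Filter.atTop, 3 * ((2:ℝ) ^ t) ^ (-(4 - 4 * δ)) ≤ 1 / 2 := by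
    have h := (tendsto_two_pow_rpow_neg (4 - 4 * δ) (by linarith)).const_mul 3
    rw [mul_zero] at h
    exact h.eventually (eventually_le_nhds (by norm_num))
  have e3 : ∀ᶠ t : ℕ in Filter.atTop, ((2:ℝ) ^ t) ^ (-(δ / 2)) ≤ 1 / 2 :=
    (tendsto_two_pow_rpow_neg (δ / 2) (by positivity)).eventually (eventually_le_nhds (by norm_num))
  have e4 : ∀ᶠ t : ℕ in Filter.atTop, 2 * ((2:ℝ) ^ t) ^ (-((k:ℝ) + 5 - δ / 2)) ≤ 1 / 2 := by
    have h := (tendsto_two_pow_rpow_neg ((k:ℝ) + 5 - δ / 2) (by linarith)).const_mul 2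
    rw [mul_zero] at h
    exact h.eventually (eventually_le_nhds (by norm_num))
  obtain ⟨t₀, ht₀⟩ := Filter.eventually_atTop.1 ((e1.and e2).and (e3.and e4))
  refine ⟨max t₀ t₁, fun t ht => ?_⟩
  obtain ⟨⟨c1, c2⟩, c3, c4⟩ := ht₀ t (le_trans (le_max_left _ _) ht)
  set n : ℝ := (2:ℝ) ^ t with hn
  have hn0 : 0 < n := by positivity
  have hn1 : 1 ≤ n := one_le_pow₀ (by norm_num)
  set g : ℝ := n ^ (-δ') with hg
  have hg0 : 0 < g := Real.rpow_pos_of_pos hn0 _
  have hg1 : g ≤ 1 := Real.rpow_le_one_of_one_le_of_nonpos hn1 (by linarith)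
  have hgk : g ^ (k + 1) = n ^ (-(δ / 2)) := by
    rw [hg, ← Real.rpow_natCast, ← Real.rpow_mul hn0.le]
    congr 1
    rw [hδ']; push_cast; field_simp
  obtain ⟨hint, hmeas, htail⟩ := ht₁ t (le_trans (le_max_right _ _) ht) g hg0.le le_rfl
  refine ⟨muF g, muF_nonneg g, sum_muF g, ?_, ?_⟩
  · have h1 := mean_phi hk g _ hint hmeas htail
    refine le_trans ?_ h1
    rw [hgk]
    have h2 : n ^ (-δ) = n ^ (-(δ / 2)) * n ^ (-(δ / 2)) := by
      rw [← Real.rpow_add hn0]; congr 1; ring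
    have h3 : 2 * n ^ (-((k:ℝ) + 5)) = n ^ (-(δ / 2)) * (2 * n ^ (-((k:ℝ) + 5 - δ / 2))) := by
      rw [mul_left_comm, ← Real.rpow_add hn0]; congr 2; ring
    have h4 : 0 ≤ n ^ (-(δ / 2)) := Real.rpow_nonneg hn0.le _
    rw [h2, h3]
    nlinarith [mul_le_mul_of_nonneg_left c3 h4, mul_le_mul_of_nonneg_left c4 h4]
  · intro d hd f hf
    have hlev : ∀ z : Fin (k + 1) × NN t → ℝ, (∀ c, |z c| ≤ 1 / 2) →
        |∑ p : Fin (k + 1) → NN t, (g ^ (k + 1) * wpath p) * dmext (spath le_rfl p) f z| ≤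
          Real.sqrt K * n ^ (-(15 / 2 * δ)) := by
      intro z hz
      have h1 := level_bound k t d q hq0 g hg0.le f hf z hz
      rw [← hn] at h1
      apply abs_le_of_sq_le_sq _ (by positivity)
      refine h1.trans ?_
      have hd' : (d:ℝ) ^ (k + 1) ≤ n ^ ((k:ℝ) - 8 * δ * ((k:ℝ) + 1)) := by
        calc (d:ℝ) ^ (k + 1) ≤ (n ^ (1 - 1 / ((k : ℝ) + 1) - 8 * δ)) ^ (k + 1) :=
              pow_le_pow_left₀ (by positivity) hd _
          _ = n ^ ((k:ℝ) - 8 * δ * ((k:ℝ) + 1)) := by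
              rw [← Real.rpow_natCast, ← Real.rpow_mul hn0.le]
              congr 1
              push_cast; field_simp; ring
      have hg2 : (g ^ (k + 1)) ^ 2 = n ^ (-δ) := by
        rw [hgk, ← Real.rpow_natCast, ← Real.rpow_mul hn0.le]
        congr 1
        push_cast; ring
      have hq2 : n ^ (((k:ℝ) + 1) / q) ≤ n ^ (((k:ℝ) + 1) * δ) := by
        apply Real.rpow_le_rpow_of_exponent_le hn1
        have hqpos : (0:ℝ) < q := by exact_mod_cast hq0
        rw [div_le_iff₀ hqpos]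
        have : 1 ≤ δ * q := by
          rw [div_le_iff₀ hδ] at hq1; linarith
        nlinarith
      calc ((d:ℝ) * (4 * 9 ^ q)) ^ (k + 1) * (g ^ (k + 1)) ^ 2 * n ^ (-(k:ℝ)) *
            n ^ (((k:ℝ) + 1) / q)
          = ((4 * 9 ^ q) ^ (k + 1) * (g ^ (k + 1)) ^ 2 * n ^ (-(k:ℝ))) * ((d:ℝ) ^ (k + 1) *
            n ^ (((k:ℝ) + 1) / q)) := by rw [mul_pow]; ring
        _ ≤ ((4 * 9 ^ q) ^ (k + 1) * (g ^ (k + 1)) ^ 2 * n ^ (-(k:ℝ))) *
            (n ^ ((k:ℝ) - 8 * δ * ((k:ℝ) + 1)) * n ^ (((k:ℝ) + 1) * δ)) := by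
            apply mul_le_mul_of_nonneg_left _ (by positivity)
            exact mul_le_mul hd' hq2 (by positivity) (by positivity)
        _ = K * n ^ (-δ + -(k:ℝ) + ((k:ℝ) - 8 * δ * ((k:ℝ) + 1)) + ((k:ℝ) + 1) * δ) := by
            rw [hg2, Real.rpow_add hn0, Real.rpow_add hn0, Real.rpow_add hn0, hK]; ring
        _ ≤ K * n ^ (-(15 * δ)) := by
            apply mul_le_mul_of_nonneg_left _ hK0
            apply Real.rpow_le_rpow_of_exponent_le hn1
            have hk' : (1:ℝ) ≤ k := by exact_mod_cast hk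
            nlinarith
        _ = (Real.sqrt K * n ^ (-(15 / 2 * δ))) ^ 2 := by
            rw [mul_pow, Real.sq_sqrt hK0, ← Real.rpow_natCast, ← Real.rpow_mul hn0.le]
            congr 2
            push_cast; ring
    have h2 := advantage hk g _ _ hg0.le hg1 (by positivity : 0 ≤ Real.sqrt K * n ^ (-(15 / 2 * δ)))
      f (DTC_abs_le hf) hint hmeas htail hlev
    refine h2.trans ?_
    rw [← hn]
    have h3 : (n ^ (k + 1) + 2) * n ^ (-((k:ℝ) + 5)) ≤ 3 * n ^ (-(4:ℝ)) := by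
      have h4 : n ^ (k + 1) * n ^ (-((k:ℝ) + 5)) = n ^ (-(4:ℝ)) := by
        rw [← Real.rpow_natCast, ← Real.rpow_add hn0]; congr 1; push_cast; ring
      have h5 : n ^ (-((k:ℝ) + 5)) ≤ n ^ (-(4:ℝ)) := by
        apply Real.rpow_le_rpow_of_exponent_le hn1
        have : (0:ℝ) ≤ k := by positivity
        linarith
      rw [add_mul, h4]; linarith
    have h6 : Real.sqrt K * n ^ (-(15 / 2 * δ)) =
        n ^ (-(4 * δ)) * (Real.sqrt K * n ^ (-(7 / 2 * δ))) := by
      rw [mul_left_comm, ← Real.rpow_add hn0]; congr 2; ring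
    have h7 : 3 * n ^ (-(4:ℝ)) = n ^ (-(4 * δ)) * (3 * n ^ (-(4 - 4 * δ))) := by
      rw [mul_left_comm, ← Real.rpow_add hn0]; congr 2; ring
    have h8 : 0 ≤ n ^ (-(4 * δ)) := Real.rpow_nonneg hn0.le _
    calc Real.sqrt K * n ^ (-(15 / 2 * δ)) + (n ^ (k + 1) + 2) * n ^ (-((k:ℝ) + 5))
        ≤ n ^ (-(4 * δ)) * (Real.sqrt K * n ^ (-(7 / 2 * δ))) +
            n ^ (-(4 * δ)) * (3 * n ^ (-(4 - 4 * δ))) := by rw [← h6, ← h7]; linarith
      _ ≤ n ^ (-(4 * δ)) * (1 / 2) + n ^ (-(4 * δ)) * (1 / 2) :=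
          add_le_add (mul_le_mul_of_nonneg_left c1 h8) (mul_le_mul_of_nonneg_left c2 h8)
      _ = n ^ (-(4 * δ)) := by ring

end Crest.Agent.R350
end

-- ▼ part R350/Final

/-! Row 350 (S0554): final assembly (T9). -/

set_option autoImplicit false

namespace Crest.Agent.R350.Final

open Finset Crest.Agent.R350 Crest.MathPhysics.Query


/-- a product of probability vectors over independent copies is a probability vector -/
theorem sum_prod_copies {L ξ : Type} [Fintype L] [DecidableEq L] [Fintype ξ] [DecidableEq ξ]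
    (φ : L → (ξ → Bool) → ℝ) (h : ∀ l, ∑ y, φ l y = 1) :
    ∑ z : L × ξ → Bool, ∏ l, φ l (fun i => z (l, i)) = 1 := by
  have h1 : ∑ z : L × ξ → Bool, ∏ l, φ l (fun i => z (l, i))
      = ∑ z : L → ξ → Bool, ∏ l, φ l (z l) := by
    refine Fintype.sum_equiv (Equiv.curry L ξ Bool) _ _ ?_
    intro z
    rfl
  rw [h1]
  have h2 := Finset.prod_univ_sum (κ := fun _ : L => (ξ → Bool)) (fun _ => Finset.univ) φ
  rw [Fintype.piFinset_univ] at h2
  rw [← h2]
  exact Finset.prod_eq_one (fun l _ => h l)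

/-- the secret length -/
def tau (t : ℕ) : ℕ := 2 * t + 10

/-- number of copies -/
noncomputable def SS (δ : ℝ) (t : ℕ) : ℕ := ⌈384 * (tau t : ℝ) * (((2 : ℝ) ^ t) ^ δ) ^ 2⌉₊

/-- number of samples of the decoder -/
noncomputable def TT0 (δ : ℝ) (t : ℕ) : ℕ := ⌈32 * (tau t : ℝ) * (((2 : ℝ) ^ t) ^ δ) ^ 2⌉₊

/-- Grover bound -/
def TT (t : ℕ) : ℕ := 2 ^ ((t + 2) / 2)

/-- `A0` -/
noncomputable def AA (k : ℕ) (δ : ℝ) (t : ℕ) : ℕ :=
  2 + tau t * SS δ t * (k + 1) * (t + 1) + tau t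

/-- depth of the block algorithm -/
noncomputable def dd (k : ℕ) (δ : ℝ) (t : ℕ) : ℕ :=
  ⌊((2 : ℝ) ^ t) ^ (1 - 1 / ((k : ℝ) + 1) - 8 * δ)⌋₊

/-- query cost for parameter `t` -/
noncomputable def QQ (k : ℕ) (δ : ℝ) (t : ℕ) : ℕ :=
  Qbound (TT t) (TT t * AA k δ t) (100 * (t + 1)) (24 * (t + tau t + 1)) (t + 1)
    ((SS δ t + 3) * (t * (k + 1) + 3) + t + 2) (tau t * (TT0 δ t * (k + 1)))

/-- The combinatorial heart of the assembly, for one value of `t`. -/
theorem one_t (k : ℕ) (δ : ℝ) (hδ : 0 < δ) (t : ℕ)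
    (μ : (Fin (k + 1) × NN t → Bool) → ℝ) (h0 : ∀ x, 0 ≤ μ x) (h1 : ∑ x, μ x = 1)
    (hμ : ((2 : ℝ) ^ t) ^ (-δ) ≤ ∑ x, μ x * phi k t (fun a i => x (a, i)))
    (hadv : ∀ d : ℕ, (d : ℝ) ≤ ((2 : ℝ) ^ t) ^ (1 - 1 / ((k : ℝ) + 1) - 8 * δ) →
        ∀ f : (Fin (k + 1) × NN t → Bool) → ℝ, DTC d f →
          |∑ x, μ x * f x - (∑ x, f x) / Fintype.card (Fin (k + 1) × NN t → Bool)|
            ≤ ((2 : ℝ) ^ t) ^ (-(4 * δ)))
    (hd : 1 ≤ dd k δ t)
    (hsmall : (dd k δ t : ℝ) / 2 ^ t + (dd k δ t : ℝ) / 2 ^ (tau t)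
      + 2 * ((tau t : ℝ) * SS δ t * ((2 : ℝ) ^ t) ^ (-(4 * δ))) ≤ 1 / 24) :
    ∃ (n : ℕ) (F : (Fin n → Bool) → Bool), QuantumComputes F (QQ k δ t) ∧
      ∀ r : ℕ, RandomizedComputes F r → (dd k δ t : ℝ) * 2 ^ t / 4 ≤ r := by
  classical
  set X : ℝ := ((2 : ℝ) ^ t) ^ δ with hX
  have h2t : (1 : ℝ) ≤ (2 : ℝ) ^ t := one_le_pow₀ (by norm_num)
  have h2t0 : (0 : ℝ) < (2 : ℝ) ^ t := by positivity
  have hX0 : 0 < X := Real.rpow_pos_of_pos h2t0 _
  have hX1 : 1 ≤ X := Real.one_le_rpow h2t hδ.le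
  have hXinv : ((2 : ℝ) ^ t) ^ (-δ) = X⁻¹ := by rw [Real.rpow_neg h2t0.le]
  set θ : ℝ := X⁻¹ with hθ
  have hθ0 : 0 < θ := inv_pos.mpr hX0
  have hτ1 : 1 ≤ tau t := by unfold tau; omega
  have hτ1' : (1 : ℝ) ≤ tau t := by exact_mod_cast hτ1
  set τ := tau t with hτ
  set S := SS δ t with hSdef
  have hSle : 384 * (τ : ℝ) * X ^ 2 ≤ S := by
    rw [hSdef]; unfold SS; exact Nat.le_ceil _
  have hS1 : 1 ≤ S := by
    have : (0 : ℝ) < S := lt_of_lt_of_le (by positivity) hSle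
    exact_mod_cast this
  have hT0le : 32 * (τ : ℝ) * X ^ 2 ≤ TT0 δ t := by
    unfold TT0; exact Nat.le_ceil _
  obtain ⟨η, C, iη, dη, iC, dC, nC, content, ref, chk, href, hchk, hcard, hgood, hrefj, hrefb,
    hplant, hnull⟩ := func_exists k t τ S hS1 (θ / 4) (3 * θ / 4)
  let ι : Type := (NN t × NN t) ⊕ (NN t × ZI k t τ S) ⊕ (NN t × (Fin τ → Bool) × η)
  haveI : Nonempty ι := ⟨Sum.inl (fun _ => false, fun _ => false)⟩
  have hθd : 3 * θ / 4 - θ / 4 = θ / 2 := by ring
  have hdec : ∀ b : NN t, ∃ dec : (ι → Bool) → (Fin τ → Bool) → ℝ,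
      QSamp (ι := ι) (Fin τ → Bool) (τ * (TT0 δ t * (k + 1))) dec ∧
      ∀ x κ, Good k t τ S (θ / 4) (3 * θ / 4) κ (fun w => x (Sum.inr (Sum.inl (b, w)))) →
        1 / 2 ≤ dec x κ := by
    intro b
    refine decode_exists (ι := ι) k t τ S (TT0 δ t) hS1 hτ1 (θ / 4) (3 * θ / 4) (by linarith) ?_
      (fun w => Sum.inr (Sum.inl (b, w)))
    rw [hθd]
    have : 8 * (τ : ℝ) / (θ / 2) ^ 2 = 32 * (τ : ℝ) * X ^ 2 := by
      rw [hθ]; field_simp; ring
    rw [this]; exact hT0le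
  choose dec hdec1 hdec2 using hdec
  -- the quantum algorithm
  have hTT : 2 * Fintype.card (NN t) ≤ (TT t) ^ 2 := by
    have : Fintype.card (NN t) = 2 ^ t := by simp [NN]
    rw [this]; unfold TT
    rw [← pow_mul, ← pow_succ']
    exact Nat.pow_le_pow_right (by norm_num) (by omega)
  have hTT' : Fintype.card C ≤ (TT t * AA k δ t) ^ 2 := by
    refine hcard.trans ?_
    have h3 : 2 ^ t ≤ (TT t) ^ 2 := by
      have : Fintype.card (NN t) = 2 ^ t := by simp [NN]
      rw [this] at hTT; omega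
    have h4 : 2 + τ * S * (k + 1) * (t + 1) + τ ≤ (AA k δ t) ^ 2 := by
      have : 2 + τ * S * (k + 1) * (t + 1) + τ = AA k δ t := rfl
      rw [this]
      exact Nat.le_self_pow (by norm_num) _
    calc 2 ^ t * (2 + τ * S * (k + 1) * (t + 1) + τ) ≤ (TT t) ^ 2 * (AA k δ t) ^ 2 :=
          Nat.mul_le_mul h3 h4
      _ = _ := by ring
  have hR : (Fintype.card (NN t) : ℝ) * (47 / 48) ^ (100 * (t + 1)) ≤ 1 / 2 := by
    have : Fintype.card (NN t) = 2 ^ t := by simp [NN]
    rw [this, pow_mul]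
    have h5 : ((47 : ℝ) / 48) ^ 100 ≤ 1 / 2 := by norm_num
    have h6 : (((47 : ℝ) / 48) ^ 100) ^ (t + 1) ≤ (1 / 2) ^ (t + 1) :=
      pow_le_pow_left₀ (by positivity) h5 _
    calc ((2 ^ t : ℕ) : ℝ) * (((47 : ℝ) / 48) ^ 100) ^ (t + 1)
        ≤ ((2 ^ t : ℕ) : ℝ) * (1 / 2) ^ (t + 1) := by gcongr
      _ = 1 / 2 := by
          push_cast
          rw [pow_succ, ← mul_assoc, ← mul_pow]; norm_num
  have hs : (Fintype.card (NN t) : ℝ) * Fintype.card (Fin τ → Bool)
      * (23 / 24) ^ (24 * (t + τ + 1)) ≤ 1 / 2 := by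
    have : Fintype.card (NN t) = 2 ^ t := by simp [NN]
    rw [this]
    have : Fintype.card (Fin τ → Bool) = 2 ^ τ := by simp
    rw [this, pow_mul]
    have h5 : ((23 : ℝ) / 24) ^ 24 ≤ 1 / 2 := by norm_num
    have h6 : (((23 : ℝ) / 24) ^ 24) ^ (t + τ + 1) ≤ (1 / 2) ^ (t + τ + 1) :=
      pow_le_pow_left₀ (by positivity) h5 _
    calc ((2 ^ t : ℕ) : ℝ) * ((2 ^ τ : ℕ) : ℝ) * (((23 : ℝ) / 24) ^ 24) ^ (t + τ + 1)
        ≤ ((2 ^ t : ℕ) : ℝ) * ((2 ^ τ : ℕ) : ℝ) * (1 / 2) ^ (t + τ + 1) := by gcongr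
      _ = 1 / 2 := by
          push_cast
          rw [← pow_add, pow_succ, ← mul_assoc, ← mul_pow]; norm_num
  obtain ⟨ρ, hρ1, hρ2⟩ := abstract_search (ι := ι) (NN t) (Fin τ → Bool) C (t + 1)
    ((S + 3) * (t * (k + 1) + 3) + t + 2) (τ * (TT0 δ t * (k + 1))) ref href chk hchk dec hdec1
    (fun x b κ h => hdec2 b x κ (hgood x b κ h)) hrefj hrefb (TT t) (TT t * AA k δ t)
    (100 * (t + 1)) (24 * (t + τ + 1)) hTT hTT' hR hs
  let F0 : (ι → Bool) → Bool := fun x => decide (∃ b κ, ∀ c, chk b κ c x = true)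
  let e : ι ≃ Fin (Fintype.card ι) := Fintype.equivFin ι
  refine ⟨Fintype.card ι, fun y => F0 (fun i => y (e i)), ?_, ?_⟩
  · have hq := QSamp_reindex e hρ1
    refine QSamp_computes hq ?_
    intro y
    refine hρ2 _ _ ?_
    simp only [F0, decide_eq_true_eq]
  · intro r hr
    have hcomp : RComp F0 r := rcomp_of e F0 r hr
    set L := Fin τ × Fin S with hL
    set μ0 : (Fin (k + 1) × NN t → Bool) → ℝ :=
      fun _ => 1 / (Fintype.card (Fin (k + 1) × NN t → Bool) : ℝ) with hμ0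
    have hcardpos : (0 : ℝ) < (Fintype.card (Fin (k + 1) × NN t → Bool) : ℝ) := by
      exact_mod_cast Fintype.card_pos
    let ν : (Fin τ → Bool) → (ZI k t τ S → Bool) → ℝ := fun κ z =>
      ∏ l : Fin τ × Fin S, (if κ l.1 then μ (fun i => z (l, i))
        else 1 / (Fintype.card (Fin (k + 1) × NN t → Bool) : ℝ))
    have hν0 : ∀ κ z, 0 ≤ ν κ z := by
      intro κ z
      refine Finset.prod_nonneg (fun l _ => ?_)
      split_ifs
      · exact h0 _
      · positivity
    have hν1 : ∀ κ, ∑ z, ν κ z = 1 := by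
      intro κ
      have := sum_prod_copies (L := Fin τ × Fin S) (ξ := Fin (k + 1) × NN t)
        (fun l y => if κ l.1 then μ y
          else 1 / (Fintype.card (Fin (k + 1) × NN t → Bool) : ℝ)) ?_
      · exact this
      · intro l
        by_cases h : κ l.1
        · simp only [h, if_true]; exact h1
        · simp only [h, if_false, Bool.false_eq_true]
          rw [Finset.sum_const, Finset.card_univ, nsmul_eq_mul]
          field_simp
    have hα0 : ∀ f : (Fin (k + 1) × NN t → Bool) → ℝ, DTC (dd k δ t) f →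
        |∑ x, μ x * f x - (∑ x, f x) / Fintype.card (Fin (k + 1) × NN t → Bool)|
            ≤ ((2 : ℝ) ^ t) ^ (-(4 * δ)) := by
      refine hadv (dd k δ t) ?_
      unfold dd
      exact Nat.floor_le (by positivity)
    have hadv' : ∀ κ, ∀ f : (ZI k t τ S → Bool) → ℝ, DTC (dd k δ t) f →
      |∑ z, ν κ z * f z - (∑ z, f z) / Fintype.card (ZI k t τ S → Bool)|
        ≤ (τ : ℝ) * S * ((2 : ℝ) ^ t) ^ (-(4 * δ)) := by
      intro κ f hf
      have := hybrid_copies (ξ := Fin (k + 1) × NN t) (L := Fin τ × Fin S) μ h0 h1 (dd k δ t) _ hα0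
        (fun l => κ l.1) f hf
      have hc : ((Fintype.card (Fin τ × Fin S) : ℕ) : ℝ) = (τ : ℝ) * S := by simp
      rw [hc] at this
      exact this
    have hG : ∀ κ, 1 - (1 / 24 : ℝ) ≤ ∑ z, if Good k t τ S (θ / 4) (3 * θ / 4) κ z
        then ν κ z else 0 := by
      intro κ
      refine good_prob k t τ S hS1 (1 / 24) θ (by norm_num) hθ0 ?_ μ h0 h1 ?_ κ
      · have : 16 * (τ : ℝ) / (1 / 24 * θ ^ 2) = 384 * (τ : ℝ) * X ^ 2 := by
          rw [hθ]; field_simp; ring
        rw [this]; exact hSle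
      · rw [← hXinv]; exact hμ
    have hF0 : ∀ x : ι → Bool, (∀ c, ∃ r, x (Sum.inl (r, c)) = false) → F0 x = false := by
      intro x hx
      simp only [F0, decide_eq_false_iff_not, not_exists, not_forall]
      intro b κ
      obtain ⟨c, hc⟩ := hnull x hx b κ
      exact ⟨c, by simp [hc]⟩
    have hF1 : ∀ (b : NN t) (κ : Fin τ → Bool) (e : NN t → NN t) (z : NN t → ZI k t τ S → Bool),
        Good k t τ S (θ / 4) (3 * θ / 4) κ (z b) → F0 (Crest.Agent.R350.build content b κ e z) = true := by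
      intro b κ e z hz
      simp only [F0, decide_eq_true_eq]
      exact ⟨b, κ, hplant b κ e z hz⟩
    have hlow := lower_abstract (N := NN t) (ζ := ZI k t τ S) (Kp := Fin τ → Bool) (η := η)
      F0 (dd k δ t) r hd _ (1 / 24) ν hν0 hν1 hadv' hF0 content
      (fun κ z => Good k t τ S (θ / 4) (3 * θ / 4) κ z) hG hF1 hcomp
    have hc1 : ((Fintype.card (NN t) : ℕ) : ℝ) = 2 ^ t := by simp [NN]
    have hc2 : ((Fintype.card (Fin τ → Bool) : ℕ) : ℝ) = 2 ^ τ := by simp
    rw [hc1, hc2] at hlow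
    have hdpos : (0 : ℝ) < dd k δ t := by exact_mod_cast hd
    have h7 : (1 / 4 : ℝ) ≤ (r : ℝ) / ((dd k δ t : ℝ) * 2 ^ t) := by linarith
    rw [le_div_iff₀ (by positivity)] at h7
    linarith

theorem mono_bd (κ u X T : ℝ) (hκ : 1 ≤ κ) (hu : 1 ≤ u) (hX : 1 ≤ X) (hT : 1 ≤ T) {a b c e : ℕ}
    (ha : a ≤ 2) (hb : b ≤ 5) (hc : c ≤ 4) (he : e ≤ 1) :
    κ ^ a * u ^ b * X ^ c * T ^ e ≤ κ ^ 2 * u ^ 5 * X ^ 4 * T := by
  have h1 : κ ^ a ≤ κ ^ 2 := pow_le_pow_right₀ hκ ha
  have h2 : u ^ b ≤ u ^ 5 := pow_le_pow_right₀ hu hb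
  have h3 : X ^ c ≤ X ^ 4 := pow_le_pow_right₀ hX hc
  have h4 : T ^ e ≤ T ^ 1 := pow_le_pow_right₀ hT he
  rw [pow_one] at h4
  have := zero_le_one.trans hκ
  have := zero_le_one.trans hu
  have := zero_le_one.trans hX
  have := zero_le_one.trans hT
  gcongr

/-- pure real-arithmetic bound -/
theorem real_bd (κ u X T τ S T0 qd g' A T' t : ℝ) (hκ : 1 ≤ κ) (hu : 1 ≤ u) (hX : 1 ≤ X)
    (hT : 1 ≤ T) (ht0 : 0 ≤ t) (ht : t + 1 = u) (hτ0 : 0 ≤ τ) (hS0 : 0 ≤ S) (hT00 : 0 ≤ T0)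
    (hτ : τ ≤ 10 * u) (hS : S ≤ 384 * τ * X ^ 2 + 1) (hT0 : T0 ≤ 32 * τ * X ^ 2 + 1)
    (hqd : qd = τ * (T0 * κ)) (hg' : g' = (S + 3) * (t * κ + 3) + t + 2)
    (hA : A = 2 + τ * S * κ * u + τ) (hT' : T' = T * A) :
    40 * (100 * u * (24 * (t + τ + 1) * ((2 * T + 1) * (100 * u * u)) + (2 * T + 1) *
      (qd + 24 * (t + τ + 1) * u)) + (2 * T + 1) * (100 * u * u)
      + qd + 40 * ((2 * T' + 1) * g')) ≤ 10 ^ 14 * (κ ^ 2 * u ^ 5 * X ^ 4 * T) := by
  have hκ0 : 0 ≤ κ := zero_le_one.trans hκ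
  have hu0 : 0 ≤ u := zero_le_one.trans hu
  have hX0 : 0 ≤ X := zero_le_one.trans hX
  have hT0' : 0 ≤ T := zero_le_one.trans hT
  have mb := fun {a b c e : ℕ} (ha : a ≤ 2) (hb : b ≤ 5) (hc : c ≤ 4) (he : e ≤ 1) =>
    mono_bd κ u X T hκ hu hX hT ha hb hc he
  have hX2 : 1 ≤ X ^ 2 := one_le_pow₀ hX
  have huX : 1 ≤ u * X ^ 2 := by nlinarith
  have hS1 : S ≤ 3841 * (u * X ^ 2) := by
    have : 384 * τ * X ^ 2 ≤ 384 * (10 * u) * X ^ 2 := by gcongr
    nlinarith
  have hT01 : T0 ≤ 321 * (u * X ^ 2) := by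
    have : 32 * τ * X ^ 2 ≤ 32 * (10 * u) * X ^ 2 := by gcongr
    nlinarith
  have hqd1 : qd ≤ 3210 * (κ ^ 1 * u ^ 2 * X ^ 2 * T ^ 0) := by
    rw [hqd]
    calc τ * (T0 * κ) ≤ 10 * u * (321 * (u * X ^ 2) * κ) := by gcongr
      _ = _ := by ring
  have hqd0 : 0 ≤ qd := by rw [hqd]; positivity
  have hg1 : g' ≤ 15379 * (κ ^ 1 * u ^ 2 * X ^ 2 * T ^ 0) := by
    have h1 : t * κ + 3 ≤ 4 * (κ * u) := by
      have : 1 ≤ κ * u := by nlinarith
      nlinarith
    have h2 : S + 3 ≤ 3844 * (u * X ^ 2) := by linarith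
    have h3 : (S + 3) * (t * κ + 3) ≤ 3844 * (u * X ^ 2) * (4 * (κ * u)) := by
      apply mul_le_mul h2 h1 (by positivity) (by positivity)
    have h4 : t + 2 ≤ 2 * u := by linarith
    have h5 : u ≤ κ ^ 1 * u ^ 2 * X ^ 2 * T ^ 0 := by
      have : 1 * (u * 1) * 1 * 1 ≤ κ ^ 1 * (u * u) * X ^ 2 * T ^ 0 := by
        have : κ ^ 1 = κ := pow_one κ
        rw [this, pow_zero]
        gcongr
      nlinarith
    rw [hg']
    nlinarith
  have hg0 : 0 ≤ g' := by rw [hg']; positivity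
  have hA1 : A ≤ 38422 * (κ ^ 1 * u ^ 3 * X ^ 2) := by
    have h1 : τ * S * κ * u ≤ (10 * u) * (3841 * (u * X ^ 2)) * κ * u := by gcongr
    have h2 : u ≤ κ ^ 1 * u ^ 3 * X ^ 2 := by
      have : 1 * (u ^ 1) * 1 ≤ κ ^ 1 * (u ^ 3) * X ^ 2 := by
        have : κ ^ 1 = κ := pow_one κ
        rw [this]
        gcongr
        norm_num
      simpa using this
    rw [hA]
    nlinarith
  have hA0 : 0 ≤ A := by rw [hA]; positivity
  have hT1 : 2 * T' + 1 ≤ 76845 * (κ ^ 1 * u ^ 3 * X ^ 2 * T) := by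
    have h1 : T' ≤ T * (38422 * (κ ^ 1 * u ^ 3 * X ^ 2)) := by rw [hT']; gcongr
    have h2 : 1 ≤ κ ^ 1 * u ^ 3 * X ^ 2 * T := by
      have : (1 : ℝ) * 1 * 1 * 1 ≤ κ ^ 1 * u ^ 3 * X ^ 2 * T := by
        have : κ ^ 1 = κ := pow_one κ
        rw [this]
        gcongr
        exact one_le_pow₀ hu
      simpa using this
    nlinarith
  have hT1' : 0 ≤ 2 * T' + 1 := by rw [hT']; positivity
  have h2T : 2 * T + 1 ≤ 3 * T := by linarith
  have hs1 : 24 * (t + τ + 1) ≤ 264 * u := by linarith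
  have hs0 : 0 ≤ 24 * (t + τ + 1) := by positivity
  have e1 : 100 * u * (24 * (t + τ + 1) * ((2 * T + 1) * (100 * u * u)))
      ≤ 7920000 * (κ ^ 0 * u ^ 4 * X ^ 0 * T ^ 1) := by
    calc 100 * u * (24 * (t + τ + 1) * ((2 * T + 1) * (100 * u * u)))
        ≤ 100 * u * (264 * u * (3 * T * (100 * u * u))) := by gcongr
      _ = _ := by ring
  have e2 : 100 * u * ((2 * T + 1) * qd) ≤ 963000 * (κ ^ 1 * u ^ 3 * X ^ 2 * T ^ 1) := by
    calc 100 * u * ((2 * T + 1) * qd)
        ≤ 100 * u * (3 * T * (3210 * (κ ^ 1 * u ^ 2 * X ^ 2 * T ^ 0))) := by gcongr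
      _ = _ := by ring
  have e3 : 100 * u * ((2 * T + 1) * (24 * (t + τ + 1) * u))
      ≤ 79200 * (κ ^ 0 * u ^ 3 * X ^ 0 * T ^ 1) := by
    calc 100 * u * ((2 * T + 1) * (24 * (t + τ + 1) * u))
        ≤ 100 * u * (3 * T * (264 * u * u)) := by gcongr
      _ = _ := by ring
  have e4 : (2 * T + 1) * (100 * u * u) ≤ 300 * (κ ^ 0 * u ^ 2 * X ^ 0 * T ^ 1) := by
    calc (2 * T + 1) * (100 * u * u) ≤ 3 * T * (100 * u * u) := by gcongr
      _ = _ := by ring
  have e5 : 40 * ((2 * T' + 1) * g')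
      ≤ (40 * 76845 * 15379) * (κ ^ 2 * u ^ 5 * X ^ 4 * T) := by
    calc 40 * ((2 * T' + 1) * g')
        ≤ 40 * (76845 * (κ ^ 1 * u ^ 3 * X ^ 2 * T) * (15379 * (κ ^ 1 * u ^ 2 * X ^ 2 * T ^ 0))) := by
          gcongr
      _ = _ := by ring
  have m1 := mb (a := 0) (b := 4) (c := 0) (e := 1) (by norm_num) (by norm_num) (by norm_num)
    (by norm_num)
  have m2 := mb (a := 1) (b := 3) (c := 2) (e := 1) (by norm_num) (by norm_num) (by norm_num)
    (by norm_num)
  have m3 := mb (a := 0) (b := 3) (c := 0) (e := 1) (by norm_num) (by norm_num) (by norm_num)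
    (by norm_num)
  have m4 := mb (a := 0) (b := 2) (c := 0) (e := 1) (by norm_num) (by norm_num) (by norm_num)
    (by norm_num)
  have m5 := mb (a := 1) (b := 2) (c := 2) (e := 0) (by norm_num) (by norm_num) (by norm_num)
    (by norm_num)
  have hM : 0 ≤ κ ^ 2 * u ^ 5 * X ^ 4 * T := by positivity
  generalize κ ^ 2 * u ^ 5 * X ^ 4 * T = M at *
  generalize κ ^ 0 * u ^ 4 * X ^ 0 * T ^ 1 = M1 at *
  generalize κ ^ 1 * u ^ 3 * X ^ 2 * T ^ 1 = M2 at *
  generalize κ ^ 0 * u ^ 3 * X ^ 0 * T ^ 1 = M3 at *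
  generalize κ ^ 0 * u ^ 2 * X ^ 0 * T ^ 1 = M4 at *
  generalize κ ^ 1 * u ^ 2 * X ^ 2 * T ^ 0 = M5 at *
  have expand : 40 * (100 * u * (24 * (t + τ + 1) * ((2 * T + 1) * (100 * u * u)) + (2 * T + 1) *
      (qd + 24 * (t + τ + 1) * u)) + (2 * T + 1) * (100 * u * u)
      + qd + 40 * ((2 * T' + 1) * g'))
      = 40 * (100 * u * (24 * (t + τ + 1) * ((2 * T + 1) * (100 * u * u))))
        + 40 * (100 * u * ((2 * T + 1) * qd)) + 40 * (100 * u * ((2 * T + 1) * (24 * (t + τ + 1) * u)))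
        + 40 * ((2 * T + 1) * (100 * u * u)) + 40 * qd + 40 * (40 * ((2 * T' + 1) * g')) := by ring
  rw [expand]
  linarith

/-- real upper bound for the query cost -/
theorem QQ_le (k : ℕ) (δ : ℝ) (hδ : 0 < δ) :
    ∃ B : ℝ, 0 < B ∧ ∀ t : ℕ, (QQ k δ t : ℝ) ≤
      B * ((t : ℝ) + 1) ^ 5 * ((2 : ℝ) ^ t) ^ (1 / 2 + 4 * δ) := by
  refine ⟨2 * 10 ^ 14 * ((k : ℝ) + 1) ^ 2, by positivity, ?_⟩
  intro t
  have h2t : (1 : ℝ) ≤ (2 : ℝ) ^ t := one_le_pow₀ (by norm_num)
  have h2t0 : (0 : ℝ) < (2 : ℝ) ^ t := by positivity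
  set X : ℝ := ((2 : ℝ) ^ t) ^ δ with hX
  have hX1 : 1 ≤ X := Real.one_le_rpow h2t hδ.le
  have hT1 : (1 : ℝ) ≤ (TT t : ℝ) := by
    unfold TT; push_cast; exact one_le_pow₀ (by norm_num)
  have hT2 : (TT t : ℝ) ≤ 2 * ((2 : ℝ) ^ t) ^ (1 / 2 : ℝ) := by
    rw [← Real.sqrt_eq_rpow]
    have h1 : (TT t : ℝ) ^ 2 ≤ 4 * 2 ^ t := by
      unfold TT; push_cast
      rw [← pow_mul]
      calc (2 : ℝ) ^ ((t + 2) / 2 * 2) ≤ 2 ^ (t + 2) :=
            pow_le_pow_right₀ (by norm_num) (by omega)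
        _ = 4 * 2 ^ t := by rw [pow_add]; ring
    have h2 : (2 * Real.sqrt ((2 : ℝ) ^ t)) ^ 2 = 4 * 2 ^ t := by
      rw [mul_pow, Real.sq_sqrt h2t0.le]; norm_num
    exact le_of_sq_le_sq (by rw [h2]; exact h1) (by positivity)
  have hk : (1 : ℝ) ≤ (k : ℝ) + 1 := by
    have : (0 : ℝ) ≤ k := Nat.cast_nonneg k
    linarith
  have hu : (1 : ℝ) ≤ (t : ℝ) + 1 := by
    have : (0 : ℝ) ≤ t := Nat.cast_nonneg t
    linarith
  have hτ : (tau t : ℝ) = 2 * (t : ℝ) + 10 := by unfold tau; push_cast; ring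
  have hτ10 : (tau t : ℝ) ≤ 10 * ((t : ℝ) + 1) := by
    have : (0 : ℝ) ≤ t := Nat.cast_nonneg t
    rw [hτ]; linarith
  have hSS : (SS δ t : ℝ) ≤ 384 * (tau t : ℝ) * X ^ 2 + 1 := by
    unfold SS
    exact (Nat.ceil_lt_add_one (by positivity)).le
  have hTT0 : (TT0 δ t : ℝ) ≤ 32 * (tau t : ℝ) * X ^ 2 + 1 := by
    unfold TT0
    exact (Nat.ceil_lt_add_one (by positivity)).le
  have main := real_bd ((k : ℝ) + 1) ((t : ℝ) + 1) X (TT t) (tau t) (SS δ t) (TT0 δ t)
    (tau t * (TT0 δ t * ((k : ℝ) + 1))) ((SS δ t + 3) * (t * ((k : ℝ) + 1) + 3) + t + 2)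
    (2 + tau t * SS δ t * ((k : ℝ) + 1) * ((t : ℝ) + 1) + tau t)
    (TT t * (2 + tau t * SS δ t * ((k : ℝ) + 1) * ((t : ℝ) + 1) + tau t)) t
    hk hu hX1 hT1 (Nat.cast_nonneg t) rfl (Nat.cast_nonneg _) (Nat.cast_nonneg _)
    (Nat.cast_nonneg _) hτ10 hSS hTT0 rfl rfl rfl rfl
  have hQ : (QQ k δ t : ℝ) = 40 * (100 * ((t : ℝ) + 1) * (24 * (t + tau t + 1) *
      ((2 * TT t + 1) * (100 * ((t : ℝ) + 1) * ((t : ℝ) + 1))) + (2 * TT t + 1) *
      (tau t * (TT0 δ t * ((k : ℝ) + 1)) + 24 * (t + tau t + 1) * ((t : ℝ) + 1)))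
      + (2 * TT t + 1) * (100 * ((t : ℝ) + 1) * ((t : ℝ) + 1))
      + tau t * (TT0 δ t * ((k : ℝ) + 1))
      + 40 * ((2 * (TT t * (2 + tau t * SS δ t * ((k : ℝ) + 1) * ((t : ℝ) + 1) + tau t)) + 1) *
        ((SS δ t + 3) * (t * ((k : ℝ) + 1) + 3) + t + 2))) := by
    unfold QQ Qbound AA
    push_cast
    ring
  rw [hQ]
  refine main.trans ?_
  have hpow : ((2 : ℝ) ^ t) ^ (1 / 2 + 4 * δ) = ((2 : ℝ) ^ t) ^ (1 / 2 : ℝ) * X ^ 4 := by
    have h4 : X ^ 4 = ((2 : ℝ) ^ t) ^ (4 * δ) := by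
      rw [hX, ← Real.rpow_natCast (((2 : ℝ) ^ t) ^ δ) 4, ← Real.rpow_mul h2t0.le]
      congr 1
      push_cast; ring
    rw [Real.rpow_add h2t0, h4]
  rw [hpow]
  have hX4 : 0 ≤ X ^ 4 := by positivity
  calc 10 ^ 14 * (((k : ℝ) + 1) ^ 2 * ((t : ℝ) + 1) ^ 5 * X ^ 4 * TT t)
      ≤ 10 ^ 14 * (((k : ℝ) + 1) ^ 2 * ((t : ℝ) + 1) ^ 5 * X ^ 4 *
        (2 * ((2 : ℝ) ^ t) ^ (1 / 2 : ℝ))) := by gcongr
    _ = _ := by ring

/-- smallness for large `t` -/
theorem small_event (δ : ℝ) (hδ : 0 < δ) : ∃ t₂ : ℕ, ∀ t : ℕ, t₂ ≤ t →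
    76821 * (((t : ℝ) + 1) ^ 2 * ((((2 : ℝ) ^ t) ^ δ) ^ 2)⁻¹) ≤ 1 / 48 := by
  set ρ : ℝ := (2 : ℝ) ^ (-(2 * δ)) with hρ
  have hρ0 : 0 < ρ := Real.rpow_pos_of_pos (by norm_num) _
  have hρ1 : ρ < 1 := Real.rpow_lt_one_of_one_lt_of_neg (by norm_num) (by linarith)
  have h1 : Filter.Tendsto (fun n : ℕ => (n : ℝ) ^ 2 * ρ ^ n) Filter.atTop (nhds 0) :=
    tendsto_pow_const_mul_const_pow_of_abs_lt_one 2 (by rw [abs_of_pos hρ0]; exact hρ1)
  have h2 : Filter.Tendsto (fun n : ℕ => (((n + 1 : ℕ) : ℝ)) ^ 2 * ρ ^ (n + 1)) Filter.atTop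
      (nhds 0) := (Filter.tendsto_add_atTop_iff_nat 1).mpr h1
  have h3 : ∀ᶠ n : ℕ in Filter.atTop, (((n + 1 : ℕ) : ℝ)) ^ 2 * ρ ^ (n + 1)
      < ρ * (1 / 48 / 76821) := h2.eventually (gt_mem_nhds (by positivity))
  obtain ⟨t₂, ht₂⟩ := Filter.eventually_atTop.mp h3
  refine ⟨t₂, fun t ht => ?_⟩
  have h4 := ht₂ t ht
  have h5 : ((((2 : ℝ) ^ t) ^ δ) ^ 2)⁻¹ = ρ ^ t := by
    rw [hρ, ← Real.rpow_natCast ((2 : ℝ) ^ (-(2 * δ))) t, ← Real.rpow_mul (by norm_num),
      ← Real.rpow_natCast (((2 : ℝ) ^ t) ^ δ) 2, ← Real.rpow_natCast (2 : ℝ) t,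
      ← Real.rpow_mul (by norm_num), ← Real.rpow_mul (by norm_num), ← Real.rpow_neg (by norm_num)]
    congr 1
    push_cast; ring
  rw [h5]
  rw [pow_succ] at h4
  push_cast at h4
  have h6 : ρ * (((t : ℝ) + 1) ^ 2 * ρ ^ t) < ρ * (1 / 48 / 76821) := by
    calc ρ * (((t : ℝ) + 1) ^ 2 * ρ ^ t) = ((t : ℝ) + 1) ^ 2 * (ρ ^ t * ρ) := by ring
      _ < _ := h4
  have h7 := lt_of_mul_lt_mul_left h6 hρ0.le
  linarith

theorem family_exists (k : ℕ) (hk : 1 ≤ k) (δ : ℝ) (hδ : 0 < δ) (hδ1 : δ ≤ 1 / 100)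
    (he : 0 ≤ 1 - 1 / ((k : ℝ) + 1) - 8 * δ) :
    ∃ (B : ℝ) (t₁ : ℕ), 0 < B ∧ ∀ t : ℕ, t₁ ≤ t → ∃ (n : ℕ) (F : (Fin n → Bool) → Bool) (q : ℕ),
      (q : ℝ) ≤ B * ((t : ℝ) + 1) ^ 5 * ((2 : ℝ) ^ t) ^ (1 / 2 + 4 * δ) ∧
      QuantumComputes F q ∧
      ∀ r : ℕ, RandomizedComputes F r →
        ((2 : ℝ) ^ t) ^ (2 - 1 / ((k : ℝ) + 1) - 8 * δ) / 8 ≤ r := by
  obtain ⟨B, hB, hQ⟩ := QQ_le k δ hδ
  obtain ⟨t₀, hforr⟩ := forr_hard k hk δ hδ hδ1
  obtain ⟨t₂, hsm⟩ := small_event δ hδ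
  refine ⟨B, max t₀ t₂, hB, fun t ht => ?_⟩
  obtain ⟨μ, h0, h1, hμ, hadv⟩ := hforr t ((le_max_left _ _).trans ht)
  have hs := hsm t ((le_max_right _ _).trans ht)
  have h2t : (1 : ℝ) ≤ (2 : ℝ) ^ t := one_le_pow₀ (by norm_num)
  have h2t0 : (0 : ℝ) < (2 : ℝ) ^ t := by positivity
  set x : ℝ := (2 : ℝ) ^ t with hx
  have hXdef : (x ^ δ) = x ^ δ := rfl
  set X : ℝ := x ^ δ with hX
  have hX1 : 1 ≤ X := Real.one_le_rpow h2t hδ.le
  have hX0 : 0 < X := lt_of_lt_of_le one_pos hX1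
  have hk0 : (0 : ℝ) < (k : ℝ) + 1 := by positivity
  set ex : ℝ := 1 - 1 / ((k : ℝ) + 1) - 8 * δ with hex
  have hy1 : 1 ≤ x ^ ex := Real.one_le_rpow h2t he
  have hdle : (dd k δ t : ℝ) ≤ x ^ ex := by
    unfold dd; exact Nat.floor_le (by positivity)
  have hd1 : 1 ≤ dd k δ t := by
    unfold dd
    exact (Nat.one_le_floor_iff _).mpr hy1
  have hdge : x ^ ex / 2 ≤ (dd k δ t : ℝ) := by
    have h3 : x ^ ex < (dd k δ t : ℝ) + 1 := by unfold dd; exact Nat.lt_floor_add_one _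
    have h4 : (1 : ℝ) ≤ dd k δ t := by exact_mod_cast hd1
    linarith
  have hX2 : (X ^ 2)⁻¹ = x ^ (-(2 * δ)) := by
    rw [hX, ← Real.rpow_natCast (x ^ δ) 2, ← Real.rpow_mul h2t0.le, ← Real.rpow_neg h2t0.le]
    congr 1; push_cast; ring
  have hu1 : (1 : ℝ) ≤ (t : ℝ) + 1 := by
    have : (0 : ℝ) ≤ t := Nat.cast_nonneg t
    linarith
  have hu2 : (1 : ℝ) ≤ ((t : ℝ) + 1) ^ 2 := one_le_pow₀ hu1
  -- first term
  have a1 : (dd k δ t : ℝ) / x ≤ ((t : ℝ) + 1) ^ 2 * (X ^ 2)⁻¹ := by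
    have h5 : (dd k δ t : ℝ) / x ≤ x ^ (ex - 1) := by
      rw [Real.rpow_sub_one h2t0.ne']
      gcongr
    have h6 : x ^ (ex - 1) ≤ x ^ (-(2 * δ)) := by
      apply Real.rpow_le_rpow_of_exponent_le h2t
      have : 0 < 1 / ((k : ℝ) + 1) := by positivity
      rw [hex]; linarith
    rw [hX2]
    have h7 : 0 ≤ x ^ (-(2 * δ)) := (Real.rpow_pos_of_pos h2t0 _).le
    nlinarith
  -- second term
  have a2 : (dd k δ t : ℝ) / 2 ^ (tau t) ≤ 1 / 1024 := by
    have h5 : (dd k δ t : ℝ) ≤ x := by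
      refine hdle.trans ?_
      calc x ^ ex ≤ x ^ (1 : ℝ) := by
            apply Real.rpow_le_rpow_of_exponent_le h2t
            have : 0 < 1 / ((k : ℝ) + 1) := by positivity
            rw [hex]; linarith
        _ = x := Real.rpow_one x
    have h6 : (2 : ℝ) ^ (tau t) = x * x * 1024 := by
      unfold tau
      rw [pow_add, mul_comm 2 t, pow_mul, hx]; norm_num; ring
    rw [h6, div_le_div_iff₀ (by positivity) (by norm_num)]
    nlinarith
  -- third term
  have hτ10 : (tau t : ℝ) ≤ 10 * ((t : ℝ) + 1) := by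
    have : (0 : ℝ) ≤ t := Nat.cast_nonneg t
    unfold tau; push_cast; linarith
  have hSS : (SS δ t : ℝ) ≤ 3841 * (((t : ℝ) + 1) * X ^ 2) := by
    have h5 : (SS δ t : ℝ) ≤ 384 * (tau t : ℝ) * X ^ 2 + 1 := by
      unfold SS
      exact (Nat.ceil_lt_add_one (by positivity)).le
    have h6 : 384 * (tau t : ℝ) * X ^ 2 ≤ 384 * (10 * ((t : ℝ) + 1)) * X ^ 2 := by gcongr
    have h7 : 1 ≤ X ^ 2 := one_le_pow₀ hX1
    have h8 : 1 ≤ ((t : ℝ) + 1) * X ^ 2 := by nlinarith
    nlinarith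
  have hX4 : x ^ (-(4 * δ)) = (X ^ 2)⁻¹ * (X ^ 2)⁻¹ := by
    rw [hX2, ← Real.rpow_add h2t0]; congr 1; ring
  have a3 : 2 * ((tau t : ℝ) * SS δ t * x ^ (-(4 * δ)))
      ≤ 76820 * (((t : ℝ) + 1) ^ 2 * (X ^ 2)⁻¹) := by
    rw [hX4]
    calc 2 * ((tau t : ℝ) * SS δ t * ((X ^ 2)⁻¹ * (X ^ 2)⁻¹))
        ≤ 2 * ((10 * ((t : ℝ) + 1)) * (3841 * (((t : ℝ) + 1) * X ^ 2)) *
          ((X ^ 2)⁻¹ * (X ^ 2)⁻¹)) := by gcongr
      _ = _ := by field_simp; ring
  have hsmall : (dd k δ t : ℝ) / x + (dd k δ t : ℝ) / 2 ^ (tau t)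
      + 2 * ((tau t : ℝ) * SS δ t * x ^ (-(4 * δ))) ≤ 1 / 24 := by
    linarith
  obtain ⟨n, F, hF1, hF2⟩ := one_t k δ hδ t μ h0 h1 hμ hadv hd1 hsmall
  refine ⟨n, F, QQ k δ t, hQ t, hF1, fun r hr => ?_⟩
  refine le_trans ?_ (hF2 r hr)
  have h9 : x ^ (2 - 1 / ((k : ℝ) + 1) - 8 * δ) = x ^ ex * x := by
    have : 2 - 1 / ((k : ℝ) + 1) - 8 * δ = ex + 1 := by rw [hex]; ring
    rw [this, Real.rpow_add_one h2t0.ne']
  rw [h9]
  calc x ^ ex * x / 8 = (x ^ ex / 2) * x / 4 := by ring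
    _ ≤ (dd k δ t : ℝ) * x / 4 := by gcongr

theorem result_aux (K : ℕ) (hK : 2 ≤ K) :
    ∃ (c C b : ℝ), 0 < c ∧ 0 < C ∧ 0 < b ∧ ∃ m₀ : ℕ, ∀ m : ℕ, m₀ ≤ m → (∃ j : ℕ, m = 4 ^ j) →
      ∃ (n : ℕ) (F : (Fin n → Bool) → Bool),
        (∃ q : ℕ, (q : ℝ) ≤ C * Real.sqrt m * Real.log m ^ b ∧ QuantumComputes F q) ∧
        (∀ r : ℕ, RandomizedComputes F r →
          c * (m : ℝ) ^ (2 - 1 / (K : ℝ)) / Real.log m ^ 2 ≤ r) := by
  have hK2 : (2 : ℝ) ≤ K := by exact_mod_cast hK
  have hK0 : (0 : ℝ) < K := by linarith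
  set v : ℝ := 1 / (K : ℝ) with hv
  have hv0 : 0 < v := by positivity
  have hv1 : v ≤ 1 / 2 := by
    rw [hv]; exact one_div_le_one_div_of_le (by norm_num) hK2
  set δ : ℝ := v / 100 with hδdef
  have hδ : 0 < δ := by positivity
  have hkk : ((2 * K - 1 : ℕ) : ℝ) + 1 = 2 * K := by
    have : ((2 * K - 1 : ℕ) : ℝ) = 2 * K - 1 := by
      rw [Nat.cast_sub (by omega)]; push_cast; ring
    rw [this]; ring
  have hinv : 1 / (((2 * K - 1 : ℕ) : ℝ) + 1) = v / 2 := by
    rw [hkk, hv]; field_simp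
  obtain ⟨B, t₁, hB, hfam⟩ := family_exists (2 * K - 1) (by omega) δ hδ
    (by rw [hδdef]; linarith) (by rw [hinv, hδdef]; linarith)
  refine ⟨1 / 32, 243 * B, 5, by norm_num, by positivity, by norm_num, 4 ^ (max t₁ 2), ?_⟩
  rintro m hm ⟨j, rfl⟩
  have hj : max t₁ 2 ≤ j := (Nat.pow_le_pow_iff_right (by norm_num)).mp hm
  have hj1 : t₁ ≤ j := (le_max_left _ _).trans hj
  have hj2 : 2 ≤ j := (le_max_right _ _).trans hj
  have hj2' : (2 : ℝ) ≤ j := by exact_mod_cast hj2
  set D : ℝ := 1 + 8 * δ with hD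
  have hD1 : 1 ≤ D := by rw [hD]; linarith
  have hD2 : D ≤ 1.04 := by rw [hD, hδdef]; linarith
  have hD0 : 0 < D := by linarith
  set t : ℕ := ⌊2 * (j : ℝ) / D⌋₊ with ht
  have ht1 : (t : ℝ) ≤ 2 * (j : ℝ) / D := Nat.floor_le (by positivity)
  have ht2 : 2 * (j : ℝ) / D < (t : ℝ) + 1 := Nat.lt_floor_add_one _
  have ht1' : (t : ℝ) * D ≤ 2 * j := by rwa [le_div_iff₀ hD0] at ht1
  have ht2' : 2 * (j : ℝ) < ((t : ℝ) + 1) * D := by rwa [div_lt_iff₀ hD0] at ht2
  have htj : j ≤ t := by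
    have h1 : (j : ℝ) < (t : ℝ) + 1 := by
      have : ((t : ℝ) + 1) * D ≤ ((t : ℝ) + 1) * 1.04 := by gcongr
      nlinarith
    have : j < t + 1 := by exact_mod_cast h1
    omega
  obtain ⟨n, F, q, hq1, hq2, hr⟩ := hfam t (hj1.trans htj)
  have h2t : (1 : ℝ) ≤ (2 : ℝ) ^ t := one_le_pow₀ (by norm_num)
  have h2t0 : (0 : ℝ) < (2 : ℝ) ^ t := by positivity
  have hlog4 : (1 : ℝ) ≤ Real.log 4 := by
    have h4 : Real.log 4 = 2 * Real.log 2 := by
      rw [show (4 : ℝ) = 2 ^ (2 : ℕ) by norm_num, Real.log_pow]; norm_num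
    rw [h4]
    have := Real.log_two_gt_d9
    linarith
  have hlogm : Real.log ((4 ^ j : ℕ) : ℝ) = j * Real.log 4 := by
    push_cast
    rw [Real.log_pow]
  have hlogmj : (j : ℝ) ≤ Real.log ((4 ^ j : ℕ) : ℝ) := by
    rw [hlogm]
    nlinarith
  have hlog1 : (1 : ℝ) ≤ Real.log ((4 ^ j : ℕ) : ℝ) := by linarith
  have hsqrt : Real.sqrt ((4 ^ j : ℕ) : ℝ) = 2 ^ j := by
    have : ((4 ^ j : ℕ) : ℝ) = (2 ^ j) ^ 2 := by
      push_cast
      rw [← pow_mul, mul_comm, pow_mul]; norm_num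
    rw [this, Real.sqrt_sq (by positivity)]
  refine ⟨n, F, ⟨q, ?_, hq2⟩, fun r hr' => ?_⟩
  · refine hq1.trans ?_
    have h1 : ((2 : ℝ) ^ t) ^ (1 / 2 + 4 * δ) ≤ 2 ^ j := by
      rw [← Real.rpow_natCast (2 : ℝ) t, ← Real.rpow_mul (by norm_num),
        ← Real.rpow_natCast (2 : ℝ) j]
      apply Real.rpow_le_rpow_of_exponent_le (by norm_num)
      have : (t : ℝ) * (1 / 2 + 4 * δ) = (t : ℝ) * D / 2 := by rw [hD]; ring
      rw [this]; linarith
    have h2 : (t : ℝ) + 1 ≤ 3 * Real.log ((4 ^ j : ℕ) : ℝ) := by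
      have : (t : ℝ) ≤ 2 * j := by nlinarith
      linarith
    have h3 : ((t : ℝ) + 1) ^ 5 ≤ 243 * Real.log ((4 ^ j : ℕ) : ℝ) ^ (5 : ℝ) := by
      have h4 : Real.log ((4 ^ j : ℕ) : ℝ) ^ (5 : ℝ) = Real.log ((4 ^ j : ℕ) : ℝ) ^ (5 : ℕ) := by
        rw [← Real.rpow_natCast]; norm_num
      rw [h4]
      calc ((t : ℝ) + 1) ^ 5 ≤ (3 * Real.log ((4 ^ j : ℕ) : ℝ)) ^ 5 := by gcongr
        _ = _ := by ring
    rw [hsqrt]
    calc B * ((t : ℝ) + 1) ^ 5 * ((2 : ℝ) ^ t) ^ (1 / 2 + 4 * δ)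
        ≤ B * (243 * Real.log ((4 ^ j : ℕ) : ℝ) ^ (5 : ℝ)) * 2 ^ j := by gcongr
      _ = _ := by ring
  · refine le_trans ?_ (hr r hr')
    rw [hinv]
    set E : ℝ := 2 - v / 2 - 8 * δ with hE
    have hE0 : 0 ≤ E := by rw [hE, hδdef]; linarith
    have hE2 : E ≤ 2 := by rw [hE]; linarith
    have hED : (2 - v) * D ≤ E := by
      rw [hE, hD, hδdef]; nlinarith
    have h1 : ((4 ^ j : ℕ) : ℝ) ^ (2 - v) ≤ 4 * ((2 : ℝ) ^ t) ^ E := by
      have h4j : ((4 ^ j : ℕ) : ℝ) = (2 : ℝ) ^ (2 * (j : ℝ)) := by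
        push_cast
        rw [Real.rpow_mul (by norm_num), Real.rpow_natCast]
        norm_num
      rw [h4j, ← Real.rpow_mul (by norm_num), ← Real.rpow_natCast (2 : ℝ) t,
        ← Real.rpow_mul (by norm_num), show (4 : ℝ) = 2 ^ (2 : ℝ) by norm_num,
        ← Real.rpow_add (by norm_num)]
      apply Real.rpow_le_rpow_of_exponent_le (by norm_num)
      have h5 : 2 * (j : ℝ) * (2 - v) ≤ ((t : ℝ) + 1) * E := by
        calc 2 * (j : ℝ) * (2 - v) ≤ (((t : ℝ) + 1) * D) * (2 - v) := by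
              apply mul_le_mul_of_nonneg_right ht2'.le; linarith
          _ = ((t : ℝ) + 1) * ((2 - v) * D) := by ring
          _ ≤ ((t : ℝ) + 1) * E := by gcongr
      linarith
    have h6 : 1 / 32 * ((4 ^ j : ℕ) : ℝ) ^ (2 - v) / Real.log ((4 ^ j : ℕ) : ℝ) ^ 2
        ≤ 1 / 32 * ((4 ^ j : ℕ) : ℝ) ^ (2 - v) := by
      apply div_le_self
      · positivity
      · exact one_le_pow₀ hlog1
    linarith

end Crest.Agent.R350.Final
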