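import Crest.Agent.R350.Defs

-- ▼ part R350/Fourier
section

/-!
Row 350, part B2: level-`k` bound for decision trees at biased points (structural induction).
-/

set_option autoImplicit false

namespace Crest.Agent.R350

open Finset

@[simp] lemma sg_true : sg true = -1 := by simp [sg]
@[simp] lemma sg_false : sg false = 1 := by simp [sg]

lemma one_add_pow_le (m : ℕ) (y : ℝ) (hy : |y| ≤ 1) :
    (1 + y) ^ m ≤ 1 + m * y + 3 ^ m * y ^ 2 := by
  have hy' := abs_le.1 hy
  induction m with
  | zero => simp; positivity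
  | succ m ih =>
    have h1 : (0:ℝ) ≤ 1 + y := by linarith
    have h2 : (1 + y) ^ (m + 1) ≤ (1 + y) * (1 + m * y + 3 ^ m * y ^ 2) := by
      rw [pow_succ, mul_comm]; exact mul_le_mul_of_nonneg_left ih h1
    have h3 : (m : ℝ) ≤ 3 ^ m := by
      have : m < 3 ^ m := Nat.lt_pow_self (by norm_num)
      exact_mod_cast this.le
    have h4 : (0:ℝ) ≤ y ^ 2 := sq_nonneg y
    have h5 : (0:ℝ) ≤ 3 ^ m := by positivity
    have h6 : y ^ 3 ≤ y ^ 2 := by nlinarith
    push_cast
    calc (1 + y) ^ (m + 1) ≤ (1 + y) * (1 + m * y + 3 ^ m * y ^ 2) := h2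
      _ = 1 + (m + 1) * y + m * y ^ 2 + 3 ^ m * y ^ 2 + 3 ^ m * y ^ 3 := by ring
      _ ≤ 1 + (m + 1) * y + 3 ^ m * y ^ 2 + 3 ^ m * y ^ 2 + 3 ^ m * y ^ 2 := by
          have := mul_le_mul_of_nonneg_right h3 h4
          have := mul_le_mul_of_nonneg_left h6 h5
          linarith
      _ = 1 + (m + 1) * y + 3 ^ (m + 1) * y ^ 2 := by ring

/-- Two-point inequality: mean-zero bounded increments in `L_{2p}`. -/
lemma two_point (p : ℕ) (hp : 1 ≤ p) (q ξ : Bool → ℝ) (hq0 : ∀ b, 0 ≤ q b)
    (hq1 : ∑ b, q b = 1) (hmean : ∑ b, q b * ξ b = 0) (hξ : ∀ b, |ξ b| ≤ 2) (a c : ℝ) :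
    ∑ b, q b * (a + ξ b * c) ^ (2 * p) ≤ (a ^ 2 + 4 * 9 ^ p * c ^ 2) ^ p := by
  by_cases hac : 2 * |c| ≤ |a|
  · by_cases ha : a = 0
    · have hc : c = 0 := by
        rw [ha, abs_zero] at hac
        have := abs_nonneg c
        exact abs_eq_zero.1 (by linarith)
      subst ha; subst hc
      have : 2 * p ≠ 0 := by omega
      have hp' : p ≠ 0 := by omega
      simp [hp']
    · have ha2 : 0 < a ^ 2 := by positivity
      have habs : 0 < |a| := abs_pos.2 ha
      have hy : ∀ b, |ξ b * c / a| ≤ 1 := by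
        intro b
        rw [abs_div, abs_mul, div_le_one habs]
        have := mul_le_mul_of_nonneg_right (hξ b) (abs_nonneg c)
        linarith
      have key : ∀ b, (a + ξ b * c) ^ (2 * p) ≤
          a ^ (2 * p) * (1 + (2 * p : ℕ) * (ξ b * c / a) + 3 ^ (2 * p) * (ξ b * c / a) ^ 2) := by
        intro b
        have h1 : a + ξ b * c = a * (1 + ξ b * c / a) := by field_simp
        rw [h1, mul_pow]
        apply mul_le_mul_of_nonneg_left (one_add_pow_le _ _ (hy b))
        rw [pow_mul]; positivity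
      calc ∑ b, q b * (a + ξ b * c) ^ (2 * p)
          ≤ ∑ b, q b * (a ^ (2 * p) * (1 + (2 * p : ℕ) * (ξ b * c / a) + 3 ^ (2 * p) * (ξ b * c / a) ^ 2)) := by
            apply Finset.sum_le_sum; intro b _
            exact mul_le_mul_of_nonneg_left (key b) (hq0 b)
        _ = a ^ (2 * p) * ((∑ b, q b) + (2 * p : ℕ) * (c / a) * (∑ b, q b * ξ b)
              + 3 ^ (2 * p) * (c / a) ^ 2 * (∑ b, q b * ξ b ^ 2)) := by
            simp only [Fintype.sum_bool]; ring
        _ ≤ a ^ (2 * p) * (1 + 3 ^ (2 * p) * (c / a) ^ 2 * 4) := by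
            rw [hq1, hmean]
            have h4 : ∑ b, q b * ξ b ^ 2 ≤ 4 := by
              calc ∑ b, q b * ξ b ^ 2 ≤ ∑ b, q b * 4 := by
                    apply Finset.sum_le_sum; intro b _
                    apply mul_le_mul_of_nonneg_left _ (hq0 b)
                    have := hξ b
                    rw [← sq_abs]
                    nlinarith [abs_nonneg (ξ b)]
                _ = 4 := by rw [← Finset.sum_mul, hq1]; norm_num
            have h5 : (0:ℝ) ≤ 3 ^ (2 * p) * (c / a) ^ 2 := by positivity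
            have h6 := mul_le_mul_of_nonneg_left h4 h5
            apply mul_le_mul_of_nonneg_left _ (by rw [pow_mul]; positivity)
            linarith
        _ = (a ^ 2) ^ p * (1 + 4 * 9 ^ p * (c / a) ^ 2) := by
            rw [pow_mul, pow_mul]; norm_num; ring_nf; simp
        _ ≤ (a ^ 2) ^ p * (1 + 4 * 9 ^ p * (c / a) ^ 2) ^ p := by
            apply mul_le_mul_of_nonneg_left _ (by positivity)
            apply le_self_pow₀ _ (by omega)
            have : (0:ℝ) ≤ 4 * 9 ^ p * (c / a) ^ 2 := by positivity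
            linarith
        _ = (a ^ 2 + 4 * 9 ^ p * c ^ 2) ^ p := by
            rw [← mul_pow]; congr 1; field_simp
  · push Not at hac
    have h1 : ∀ b, (a + ξ b * c) ^ (2 * p) ≤ (a ^ 2 + 4 * 9 ^ p * c ^ 2) ^ p := by
      intro b
      rw [pow_mul]
      apply pow_le_pow_left₀ (sq_nonneg _)
      have h2 : |a + ξ b * c| ≤ 4 * |c| := by
        calc |a + ξ b * c| ≤ |a| + |ξ b * c| := abs_add_le _ _
          _ ≤ 2 * |c| + 2 * |c| := by
              rw [abs_mul]
              have := mul_le_mul_of_nonneg_right (hξ b) (abs_nonneg c)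
              linarith
          _ = 4 * |c| := by ring
      have h3 : (a + ξ b * c) ^ 2 ≤ 16 * c ^ 2 := by
        rw [← sq_abs, ← sq_abs c]
        nlinarith [abs_nonneg (a + ξ b * c), abs_nonneg c]
      have h4 : (9:ℝ) ≤ 9 ^ p := le_self_pow₀ (by norm_num) (by omega)
      nlinarith [sq_nonneg a, sq_nonneg c]
    calc ∑ b, q b * (a + ξ b * c) ^ (2 * p) ≤ ∑ b, q b * (a ^ 2 + 4 * 9 ^ p * c ^ 2) ^ p := by
          apply Finset.sum_le_sum; intro b _
          exact mul_le_mul_of_nonneg_left (h1 b) (hq0 b)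
      _ = (a ^ 2 + 4 * 9 ^ p * c ^ 2) ^ p := by rw [← Finset.sum_mul, hq1, one_mul]


variable {ι : Type*} [Fintype ι] [DecidableEq ι]

/-- the weight vector at `z`: `(1 ± z i)/2`. -/
noncomputable def qw (t : ℝ) (b : Bool) : ℝ := (1 + sg b * t) / 2

/-- `S`-th mixed derivative of the multi-affine extension of `f` at `z`. -/
noncomputable def dmext (S : Finset ι) (f : (ι → Bool) → ℝ) (z : ι → ℝ) : ℝ :=
  ∑ x : ι → Bool, f x * ∏ i, (if i ∈ S then sg (x i) / 2 else qw (z i) (x i))

/-- product functional with coordinate weights `w`. -/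
noncomputable def pfun (w : ι → Bool → ℝ) (f : (ι → Bool) → ℝ) : ℝ :=
  ∑ x : ι → Bool, f x * ∏ i, w i (x i)

lemma dmext_eq_pfun (S : Finset ι) (f : (ι → Bool) → ℝ) (z : ι → ℝ) :
    dmext S f z = pfun (fun i b => if i ∈ S then sg b / 2 else qw (z i) b) f := rfl

/-- averaging a coordinate. -/
lemma sum_eq_half_update (i : ι) (G : (ι → Bool) → ℝ) :
    ∑ x : ι → Bool, G x = (1/2) * ∑ x : ι → Bool, ∑ b : Bool, G (Function.update x i b) := by
  rw [← (Equiv.funSplitAt i Bool).symm.sum_comp, ← (Equiv.funSplitAt i Bool).symm.sum_comp]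
  rw [Fintype.sum_prod_type, Fintype.sum_prod_type]
  have h : ∀ (b' b : Bool) (y : {j // j ≠ i} → Bool),
      Function.update ((Equiv.funSplitAt i Bool).symm (b', y)) i b =
        (Equiv.funSplitAt i Bool).symm (b, y) := by
    intro b' b y
    ext j
    by_cases hj : j = i
    · subst hj; simp [Equiv.funSplitAt]
    · simp [Equiv.funSplitAt, hj]
  simp only [h]
  simp only [Fintype.sum_bool, Finset.sum_add_distrib]
  ring

/-- the product over the other coordinates does not see an update at `i`. -/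
lemma prod_erase_update (i : ι) (w : ι → Bool → ℝ) (x : ι → Bool) (b : Bool) :
    ∏ j ∈ univ.erase i, w j (Function.update x i b j) = ∏ j ∈ univ.erase i, w j (x j) := by
  apply Finset.prod_congr rfl
  intro j hj
  rw [Function.update_of_ne (Finset.ne_of_mem_erase hj)]

lemma pfun_node (w : ι → Bool → ℝ) (i : ι) (u : Bool → ℝ) (hu : ∑ b, u b = 1)
    (f : (ι → Bool) → ℝ) (g : Bool → (ι → Bool) → ℝ)
    (hg : ∀ b b' x, g b (Function.update x i b') = g b x)
    (hf : ∀ x, f x = g (x i) x) :
    pfun w f = ∑ b, w i b * pfun (Function.update w i u) (g b) := by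
  have hL : pfun w f = (1/2) * ∑ b, w i b * ∑ x : ι → Bool, g b x * ∏ j ∈ univ.erase i, w j (x j) := by
    unfold pfun
    rw [sum_eq_half_update i]
    congr 1
    rw [Finset.sum_comm]
    apply Finset.sum_congr rfl
    intro b _
    rw [Finset.mul_sum]
    apply Finset.sum_congr rfl
    intro x _
    rw [← Finset.mul_prod_erase univ _ (Finset.mem_univ i), prod_erase_update, hf]
    simp only [Function.update_self]
    rw [hg]
    ring
  have hR : ∀ b, pfun (Function.update w i u) (g b) =
      (1/2) * ∑ x : ι → Bool, g b x * ∏ j ∈ univ.erase i, w j (x j) := by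
    intro b
    unfold pfun
    rw [sum_eq_half_update i]
    congr 1
    apply Finset.sum_congr rfl
    intro x _
    have : ∀ b', g b (Function.update x i b') * ∏ j, (Function.update w i u) j (Function.update x i b' j)
        = u b' * (g b x * ∏ j ∈ univ.erase i, w j (x j)) := by
      intro b'
      rw [← Finset.mul_prod_erase univ _ (Finset.mem_univ i), hg]
      simp only [Function.update_self]
      have : ∏ j ∈ univ.erase i, (Function.update w i u) j (Function.update x i b' j)
          = ∏ j ∈ univ.erase i, w j (x j) := by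
        apply Finset.prod_congr rfl
        intro j hj
        rw [Function.update_of_ne (Finset.ne_of_mem_erase hj), Function.update_of_ne (Finset.ne_of_mem_erase hj)]
      rw [this]; ring
    simp only [this]
    rw [← Finset.sum_mul, hu, one_mul]
  rw [hL]
  simp only [hR]
  rw [Finset.mul_sum]
  apply Finset.sum_congr rfl
  intro b _
  ring

/-- Functions with values computed by decision trees of depth at most `d`, leaves in `[-1,1]`. -/
inductive DTF : ℕ → ((ι → Bool) → ℝ) → Prop
  | const {d : ℕ} (c : ℝ) (hc : |c| ≤ 1) : DTF d (fun _ => c)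
  | node {d : ℕ} (i : ι) (g : Bool → (ι → Bool) → ℝ) (hg : ∀ b, DTF d (g b)) :
      DTF (d + 1) (fun x => g (x i) x)

omit [Fintype ι] [DecidableEq ι] in
lemma DTF.succ {d : ℕ} {f : (ι → Bool) → ℝ} (h : DTF d f) : DTF (d + 1) f := by
  induction h with
  | const c hc => exact DTF.const c hc
  | node i g _ ih => exact DTF.node i g ih

omit [Fintype ι] [DecidableEq ι] in
lemma DTF.mono {d d' : ℕ} (hd : d ≤ d') {f : (ι → Bool) → ℝ} (h : DTF d f) : DTF d' f := by
  induction hd with
  | refl => exact h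
  | step _ ih => exact ih.succ

omit [Fintype ι] in
lemma DTF.restrict {d : ℕ} {f : (ι → Bool) → ℝ} (h : DTF d f) (i : ι) (b : Bool) :
    DTF d (fun x => f (Function.update x i b)) := by
  induction h with
  | const c hc => exact DTF.const c hc
  | @node d j g _ ih =>
    by_cases hj : j = i
    · subst hj
      have : (fun x : ι → Bool => g (Function.update x j b j) (Function.update x j b))
          = fun x => g b (Function.update x j b) := by
        ext x; simp
      rw [this]
      exact (ih b).succ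
    · have : (fun x : ι → Bool => g (Function.update x i b j) (Function.update x i b))
          = fun x => (fun b' x => g b' (Function.update x i b)) (x j) x := by
        ext x; simp [Function.update_of_ne hj]
      rw [this]
      exact DTF.node j _ (fun b' => ih b')

/-- updated coefficient vector after reading coordinate `i`. -/
def upd (i : ι) (ξ : ℝ) (a : Finset ι → ℝ) (S : Finset ι) : ℝ :=
  if i ∈ S then 0 else a S + ξ * a (insert i S)

/-- `Λ(a,f) = ∑_S a_S ∂_S f(z)` -/
noncomputable def Lam (z : ι → ℝ) (a : Finset ι → ℝ) (f : (ι → Bool) → ℝ) : ℝ :=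
  ∑ S : Finset ι, a S * dmext S f z

lemma sum_qw (t : ℝ) : ∑ b, qw t b = 1 := by simp [qw]; ring

lemma dmext_node (z : ι → ℝ) (i : ι) (S : Finset ι) (hi : i ∉ S)
    (f : (ι → Bool) → ℝ) (g : Bool → (ι → Bool) → ℝ)
    (hg : ∀ b b' x, g b (Function.update x i b') = g b x)
    (hf : ∀ x, f x = g (x i) x) :
    dmext S f z = ∑ b, qw (z i) b * dmext S (g b) z := by
  rw [dmext_eq_pfun, pfun_node _ i (qw (z i)) (sum_qw _) f g hg hf]
  apply Finset.sum_congr rfl
  intro b _
  have : Function.update (fun i b => if i ∈ S then sg b / 2 else qw (z i) b) i (qw (z i))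
      = (fun i b => if i ∈ S then sg b / 2 else qw (z i) b) := by
    funext j b
    by_cases hj : j = i
    · subst hj; simp [hi]
    · simp [Function.update_of_ne hj]
  rw [this]
  simp only [hi, if_false]
  rw [← dmext_eq_pfun]

lemma dmext_node' (z : ι → ℝ) (i : ι) (S : Finset ι) (hi : i ∉ S)
    (f : (ι → Bool) → ℝ) (g : Bool → (ι → Bool) → ℝ)
    (hg : ∀ b b' x, g b (Function.update x i b') = g b x)
    (hf : ∀ x, f x = g (x i) x) :
    dmext (insert i S) f z = ∑ b, (sg b / 2) * dmext S (g b) z := by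
  rw [dmext_eq_pfun, pfun_node _ i (qw (z i)) (sum_qw _) f g hg hf]
  apply Finset.sum_congr rfl
  intro b _
  have : Function.update (fun j b => if j ∈ insert i S then sg b / 2 else qw (z j) b) i (qw (z i))
      = (fun i b => if i ∈ S then sg b / 2 else qw (z i) b) := by
    funext j b
    by_cases hj : j = i
    · subst hj; simp [hi]
    · simp [Function.update_of_ne hj, hj]
  rw [this]
  simp only [Finset.mem_insert_self, if_true]
  rw [← dmext_eq_pfun]

lemma sum_finset_split (i : ι) (G : Finset ι → ℝ) :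
    ∑ S : Finset ι, G S = ∑ S ∈ univ.filter (fun S : Finset ι => i ∉ S), (G S + G (insert i S)) := by
  rw [← Finset.sum_filter_add_sum_filter_not univ (fun S : Finset ι => i ∉ S) G,
    Finset.sum_add_distrib]
  congr 1
  symm
  apply Finset.sum_bij (fun S _ => insert i S)
  · intro S hS; simp
  · intro S hS T hT h
    simp only [mem_filter, mem_univ, true_and] at hS hT
    have := congrArg (fun U => U.erase i) h
    simpa [Finset.erase_insert hS, Finset.erase_insert hT] using this
  · intro T hT
    simp only [mem_filter, mem_univ, true_and, not_not] at hT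
    exact ⟨T.erase i, by simp, Finset.insert_erase hT⟩
  · intro S hS; rfl

lemma qw_mul_xi (t : ℝ) (ht : |t| ≤ 1/2) (b : Bool) :
    qw t b * (sg b / (1 + sg b * t)) = sg b / 2 := by
  have ht' := abs_le.1 ht
  unfold qw
  have : 1 + sg b * t ≠ 0 := by
    cases b
    · simp; linarith
    · simp; linarith
  field_simp

lemma Lam_node (z : ι → ℝ) (i : ι) (hz : |z i| ≤ 1/2) (a : Finset ι → ℝ)
    (f : (ι → Bool) → ℝ) (g : Bool → (ι → Bool) → ℝ)
    (hg : ∀ b b' x, g b (Function.update x i b') = g b x)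
    (hf : ∀ x, f x = g (x i) x) :
    Lam z a f = ∑ b, qw (z i) b * Lam z (upd i (sg b / (1 + sg b * z i)) a) (g b) := by
  unfold Lam
  rw [sum_finset_split i]
  have hz' := abs_le.1 hz
  have h2 : ∀ b, Lam z (upd i (sg b / (1 + sg b * z i)) a) (g b) =
      ∑ S ∈ univ.filter (fun S : Finset ι => i ∉ S),
        (a S + (sg b / (1 + sg b * z i)) * a (insert i S)) * dmext S (g b) z := by
    intro b
    unfold Lam
    rw [sum_finset_split i]
    apply Finset.sum_congr rfl
    intro S hS
    simp only [mem_filter, mem_univ, true_and] at hS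
    simp [upd, hS]
  unfold Lam at h2
  simp only [h2]
  simp only [Finset.mul_sum]
  rw [Finset.sum_comm]
  apply Finset.sum_congr rfl
  intro S hS
  simp only [mem_filter, mem_univ, true_and] at hS
  rw [dmext_node z i S hS f g hg hf, dmext_node' z i S hS f g hg hf]
  have h5 : ∀ b, qw (z i) b * (sg b / (1 + sg b * z i)) = sg b / 2 :=
    fun b => qw_mul_xi _ hz b
  have h6 : ∀ b, qw (z i) b * ((a S + sg b / (1 + sg b * z i) * a (insert i S)) * dmext S (g b) z)
      = a S * (qw (z i) b * dmext S (g b) z) + a (insert i S) * (sg b / 2 * dmext S (g b) z) := by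
    intro b
    rw [← h5 b]; ring
  simp only [h6]
  rw [Finset.sum_add_distrib, Finset.mul_sum, Finset.mul_sum]


/-- weighted `ℓ_p` mean over a bit -/
noncomputable def wn (p : ℕ) (q : Bool → ℝ) (h : Bool → ℝ) : ℝ :=
  (∑ b, q b * (h b) ^ p) ^ ((1:ℝ) / p)

lemma wn_eq (p : ℕ) (hp : 1 ≤ p) (q h : Bool → ℝ) (hq : ∀ b, 0 ≤ q b) (hh : ∀ b, 0 ≤ h b) :
    wn p q h = (∑ b, ((q b) ^ ((1:ℝ) / p) * h b) ^ (p:ℝ)) ^ ((1:ℝ) / p) := by
  unfold wn
  congr 1
  apply Finset.sum_congr rfl
  intro b _
  rw [Real.mul_rpow (Real.rpow_nonneg (hq b) _) (hh b), ← Real.rpow_mul (hq b)]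
  have : (p:ℝ) ≠ 0 := by positivity
  rw [one_div_mul_cancel this, Real.rpow_one, Real.rpow_natCast]

lemma wn_add (p : ℕ) (hp : 1 ≤ p) (q h h' : Bool → ℝ) (hq : ∀ b, 0 ≤ q b) (hh : ∀ b, 0 ≤ h b)
    (hh' : ∀ b, 0 ≤ h' b) : wn p q (fun b => h b + h' b) ≤ wn p q h + wn p q h' := by
  rw [wn_eq p hp q _ hq (fun b => add_nonneg (hh b) (hh' b)), wn_eq p hp q h hq hh,
    wn_eq p hp q h' hq hh']
  have := Real.Lp_add_le_of_nonneg (s := (univ : Finset Bool))
    (f := fun b => (q b) ^ ((1:ℝ) / p) * h b) (g := fun b => (q b) ^ ((1:ℝ) / p) * h' b)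
    (p := (p:ℝ)) (by exact_mod_cast hp)
    (fun b _ => mul_nonneg (Real.rpow_nonneg (hq b) _) (hh b))
    (fun b _ => mul_nonneg (Real.rpow_nonneg (hq b) _) (hh' b))
  simpa only [mul_add] using this

lemma wn_nonneg (p : ℕ) (q h : Bool → ℝ) (hq : ∀ b, 0 ≤ q b) (hh : ∀ b, 0 ≤ h b) :
    0 ≤ wn p q h :=
  Real.rpow_nonneg (Finset.sum_nonneg fun b _ => mul_nonneg (hq b) (pow_nonneg (hh b) _)) _

lemma wn_smul (p : ℕ) (hp : 1 ≤ p) (q h : Bool → ℝ) (hq : ∀ b, 0 ≤ q b) (hh : ∀ b, 0 ≤ h b)
    (c : ℝ) (hc : 0 ≤ c) : wn p q (fun b => c * h b) = c * wn p q h := by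
  unfold wn
  have : ∑ b, q b * (c * h b) ^ p = c ^ p * ∑ b, q b * h b ^ p := by
    rw [Finset.mul_sum]; apply Finset.sum_congr rfl; intro b _; ring
  rw [this, Real.mul_rpow (by positivity)
    (Finset.sum_nonneg fun b _ => mul_nonneg (hq b) (pow_nonneg (hh b) _))]
  congr 1
  rw [← Real.rpow_natCast, ← Real.rpow_mul hc]
  have : (p:ℝ) ≠ 0 := by positivity
  rw [mul_one_div_cancel this, Real.rpow_one]

lemma wn_sum (p : ℕ) (hp : 1 ≤ p) (q : Bool → ℝ) (hq : ∀ b, 0 ≤ q b) (s : Finset ℕ)
    (c : ℕ → ℝ) (hc : ∀ j, 0 ≤ c j) (h : ℕ → Bool → ℝ) (hh : ∀ j b, 0 ≤ h j b) :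
    wn p q (fun b => ∑ j ∈ s, c j * h j b) ≤ ∑ j ∈ s, c j * wn p q (h j) := by
  classical
  induction s using Finset.induction_on with
  | empty =>
    have hp' : p ≠ 0 := by omega
    have : (p:ℝ) ≠ 0 := by positivity
    simp [wn, hp']
  | insert j s hj ih =>
    simp only [Finset.sum_insert hj]
    calc wn p q (fun b => c j * h j b + ∑ j ∈ s, c j * h j b)
        ≤ wn p q (fun b => c j * h j b) + wn p q (fun b => ∑ j ∈ s, c j * h j b) :=
          wn_add p hp q _ _ hq (fun b => mul_nonneg (hc j) (hh j b))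
            (fun b => Finset.sum_nonneg fun j _ => mul_nonneg (hc j) (hh j b))
      _ ≤ c j * wn p q (h j) + ∑ j ∈ s, c j * wn p q (h j) := by
          rw [wn_smul p hp q (h j) hq (hh j) (c j) (hc j)]
          linarith

/-- level-`j` norm of a coefficient vector. -/
noncomputable def Bn (p j : ℕ) (a : Finset ι → ℝ) : ℝ :=
  (∑ S ∈ powersetCard j univ, (a S ^ 2) ^ p) ^ ((1:ℝ) / p)

omit [DecidableEq ι] in
lemma Bn_nonneg (p j : ℕ) (a : Finset ι → ℝ) : 0 ≤ Bn p j a :=
  Real.rpow_nonneg (Finset.sum_nonneg fun S _ => by positivity) _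

omit [DecidableEq ι] in
lemma Bn_pow (p j : ℕ) (hp : 1 ≤ p) (a : Finset ι → ℝ) :
    (Bn p j a) ^ p = ∑ S ∈ powersetCard j univ, (a S ^ 2) ^ p := by
  unfold Bn
  rw [← Real.rpow_natCast, ← Real.rpow_mul (Finset.sum_nonneg fun S _ => by positivity)]
  have : (p:ℝ) ≠ 0 := by positivity
  rw [one_div_mul_cancel this, Real.rpow_one]

lemma wn_Bn_upd (p j : ℕ) (hp : 1 ≤ p) (q ξ : Bool → ℝ) (hq0 : ∀ b, 0 ≤ q b)
    (hq1 : ∑ b, q b = 1) (hmean : ∑ b, q b * ξ b = 0) (hξ : ∀ b, |ξ b| ≤ 2) (i : ι)
    (a : Finset ι → ℝ) :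
    wn p q (fun b => Bn p j (upd i (ξ b) a)) ≤ Bn p j a + 4 * 9 ^ p * Bn p (j + 1) a := by
  have hp0 : (0:ℝ) < p := by exact_mod_cast hp
  set K : ℝ := 4 * 9 ^ p with hK
  have hK0 : 0 ≤ K := by positivity
  set F : Finset (Finset ι) := (powersetCard j univ).filter (fun S => i ∉ S) with hF
  have h1 : wn p q (fun b => Bn p j (upd i (ξ b) a)) ≤
      (∑ S ∈ F, (a S ^ 2 + K * a (insert i S) ^ 2) ^ (p:ℝ)) ^ ((1:ℝ) / p) := by
    unfold wn
    apply Real.rpow_le_rpow
    · exact Finset.sum_nonneg fun b _ => mul_nonneg (hq0 b) (pow_nonneg (Bn_nonneg _ _ _) _)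
    · simp only [Bn_pow p j hp, Finset.mul_sum]
      rw [Finset.sum_comm, ← Finset.sum_filter_add_sum_filter_not _ (fun S => i ∉ S)]
      have h0 : ∑ S ∈ (powersetCard j univ).filter (fun S => ¬ i ∉ S),
          ∑ b, q b * (upd i (ξ b) a S ^ 2) ^ p = 0 := by
        apply Finset.sum_eq_zero
        intro S hS
        simp only [mem_filter, not_not] at hS
        apply Finset.sum_eq_zero
        intro b _
        have hp' : p ≠ 0 := by omega
        simp [upd, hS.2, hp']
      rw [h0, add_zero]
      apply Finset.sum_le_sum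
      intro S hS
      simp only [mem_filter] at hS
      have h2 := two_point p hp q ξ hq0 hq1 hmean hξ (a S) (a (insert i S))
      rw [Real.rpow_natCast]
      calc ∑ b, q b * (upd i (ξ b) a S ^ 2) ^ p
          = ∑ b, q b * (a S + ξ b * a (insert i S)) ^ (2 * p) := by
            apply Finset.sum_congr rfl
            intro b _
            simp only [upd, hS.2, if_false]
            rw [pow_mul]
        _ ≤ _ := h2
    · positivity
  have h2 := Real.Lp_add_le_of_nonneg (s := F) (f := fun S => a S ^ 2)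
    (g := fun S => K * a (insert i S) ^ 2) (p := (p:ℝ)) (by exact_mod_cast hp)
    (fun S _ => by positivity) (fun S _ => by positivity)
  have h3 : (∑ S ∈ F, (a S ^ 2) ^ (p:ℝ)) ^ ((1:ℝ) / p) ≤ Bn p j a := by
    unfold Bn
    apply Real.rpow_le_rpow
    · exact Finset.sum_nonneg fun S _ => by positivity
    · simp only [Real.rpow_natCast]
      apply Finset.sum_le_sum_of_subset_of_nonneg (Finset.filter_subset _ _)
      intro S _ _; positivity
    · positivity
  have h4 : (∑ S ∈ F, (K * a (insert i S) ^ 2) ^ (p:ℝ)) ^ ((1:ℝ) / p) ≤ K * Bn p (j + 1) a := by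
    have h5 : ∑ S ∈ F, (K * a (insert i S) ^ 2) ^ (p:ℝ) = K ^ p * ∑ S ∈ F, (a (insert i S) ^ 2) ^ p := by
      rw [Finset.mul_sum]
      apply Finset.sum_congr rfl
      intro S _
      rw [Real.rpow_natCast, mul_pow]
    rw [h5, Real.mul_rpow (by positivity) (Finset.sum_nonneg fun S _ => by positivity)]
    have h6 : (K ^ p) ^ ((1:ℝ) / p) = K := by
      rw [← Real.rpow_natCast, ← Real.rpow_mul hK0, mul_one_div_cancel hp0.ne', Real.rpow_one]
    rw [h6]
    apply mul_le_mul_of_nonneg_left _ hK0
    unfold Bn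
    apply Real.rpow_le_rpow
    · exact Finset.sum_nonneg fun S _ => by positivity
    · have h7 : ∑ S ∈ F, (a (insert i S) ^ 2) ^ p = ∑ T ∈ F.image (fun S => insert i S), (a T ^ 2) ^ p := by
        rw [Finset.sum_image]
        intro S hS T hT h
        simp only [hF, mem_coe, mem_filter] at hS hT
        have := congrArg (fun U => U.erase i) h
        simpa [Finset.erase_insert hS.2, Finset.erase_insert hT.2] using this
      rw [h7]
      apply Finset.sum_le_sum_of_subset_of_nonneg
      · intro T hT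
        simp only [hF, mem_image, mem_filter, mem_powersetCard] at hT ⊢
        obtain ⟨S, ⟨⟨_, hS⟩, hiS⟩, rfl⟩ := hT
        refine ⟨Finset.subset_univ _, ?_⟩
        rw [Finset.card_insert_of_notMem hiS, hS]
      · intro S _ _; positivity
    · positivity
  linarith

/-- the potential -/
noncomputable def Gp (p d : ℕ) (a : Finset ι → ℝ) : ℝ :=
  ∑ j ∈ range (d + 1), ((d.choose j : ℝ) * (4 * 9 ^ p) ^ j) * Bn p j a

omit [DecidableEq ι] in
lemma Gp_nonneg (p d : ℕ) (a : Finset ι → ℝ) : 0 ≤ Gp p d a :=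
  Finset.sum_nonneg fun j _ => mul_nonneg (by positivity) (Bn_nonneg _ _ _)

omit [DecidableEq ι] in
lemma Bn_zero (p : ℕ) (hp : 1 ≤ p) (a : Finset ι → ℝ) : Bn p 0 a = a ∅ ^ 2 := by
  unfold Bn
  simp only [powersetCard_zero, sum_singleton]
  have : (p:ℝ) ≠ 0 := by positivity
  rw [← Real.rpow_natCast, ← Real.rpow_mul (by positivity), mul_one_div_cancel this, Real.rpow_one]

omit [DecidableEq ι] in
lemma Bn_zero_le_Gp (p d : ℕ) (a : Finset ι → ℝ) : Bn p 0 a ≤ Gp p d a := by
  unfold Gp
  rw [Finset.sum_range_succ']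
  simp only [Nat.choose_zero_right, Nat.cast_one, pow_zero, mul_one, one_mul]
  have : 0 ≤ ∑ k ∈ range d, ((d.choose (k+1) : ℝ) * (4 * 9 ^ p) ^ (k+1)) * Bn p (k+1) a :=
    Finset.sum_nonneg fun j _ => mul_nonneg (by positivity) (Bn_nonneg _ _ _)
  linarith

omit [DecidableEq ι] in
lemma Gp_succ (p d : ℕ) (a : Finset ι → ℝ) :
    ∑ j ∈ range (d + 1), ((d.choose j : ℝ) * (4 * 9 ^ p) ^ j) * (Bn p j a + 4 * 9 ^ p * Bn p (j + 1) a)
      = Gp p (d + 1) a := by
  unfold Gp
  set K : ℝ := 4 * 9 ^ p
  have h1 : ∑ j ∈ range (d + 1), ((d.choose j : ℝ) * K ^ j) * (Bn p j a + K * Bn p (j + 1) a)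
      = ∑ j ∈ range (d + 1), ((d.choose j : ℝ) * K ^ j) * Bn p j a
        + ∑ j ∈ range (d + 1), ((d.choose j : ℝ) * K ^ (j+1)) * Bn p (j + 1) a := by
    rw [← Finset.sum_add_distrib]
    apply Finset.sum_congr rfl; intro j _; ring
  rw [h1]
  have h2 : ∑ j ∈ range (d + 1), ((d.choose j : ℝ) * K ^ j) * Bn p j a
      = ∑ j ∈ range (d + 1), ((d.choose (j+1) : ℝ) * K ^ (j+1)) * Bn p (j+1) a
        + Bn p 0 a := by
    have h3 : ∑ j ∈ range (d + 1), ((d.choose j : ℝ) * K ^ j) * Bn p j a
      = ∑ j ∈ range (d + 2), ((d.choose j : ℝ) * K ^ j) * Bn p j a := by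
      rw [Finset.sum_range_succ _ (d+1)]
      simp
    rw [h3, Finset.sum_range_succ']
    simp
  rw [h2, Finset.sum_range_succ' _ (d+1)]
  simp only [Nat.choose_zero_right, Nat.cast_one, pow_zero, mul_one, one_mul]
  have h4 : ∀ j, (((d+1).choose (j+1) : ℝ) * K ^ (j+1)) * Bn p (j+1) a
      = ((d.choose (j+1) : ℝ) * K ^ (j+1)) * Bn p (j+1) a
        + ((d.choose j : ℝ) * K ^ (j+1)) * Bn p (j + 1) a := by
    intro j
    rw [Nat.choose_succ_succ]; push_cast; ring
  simp only [h4, Finset.sum_add_distrib]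
  ring

lemma dmext_const (S : Finset ι) (c : ℝ) (z : ι → ℝ) :
    dmext S (fun _ => c) z = if S = ∅ then c else 0 := by
  unfold dmext
  rw [← Finset.mul_sum]
  have h := Finset.prod_univ_sum (fun _ : ι => (univ : Finset Bool))
    (fun i b => if i ∈ S then sg b / 2 else qw (z i) b)
  have h' : ∑ x : ι → Bool, ∏ i, (if i ∈ S then sg (x i) / 2 else qw (z i) (x i))
      = ∏ i, ∑ b, (if i ∈ S then sg b / 2 else qw (z i) b) := by
    rw [h, Fintype.piFinset_univ]
  rw [h']
  by_cases hS : S = ∅
  · subst hS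
    have h1 : ∏ i : ι, ∑ b, (if i ∈ (∅ : Finset ι) then sg b / 2 else qw (z i) b) = 1 := by
      apply Finset.prod_eq_one
      intro i _
      simp only [Finset.notMem_empty, if_false]
      exact sum_qw _
    rw [h1]; simp
  · obtain ⟨i, hi⟩ := Finset.nonempty_iff_ne_empty.2 hS
    rw [Finset.prod_eq_zero (Finset.mem_univ i)]
    · simp [hS]
    · simp only [hi, if_true, Fintype.sum_bool, sg_true, sg_false]; norm_num

/-- **Level bound for decision trees at biased points.** -/
theorem Lam_sq_le (p : ℕ) (hp : 1 ≤ p) (z : ι → ℝ) (hz : ∀ i, |z i| ≤ 1/2) (d : ℕ) :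
    ∀ (f : (ι → Bool) → ℝ), DTF d f → ∀ a : Finset ι → ℝ, (Lam z a f) ^ 2 ≤ Gp p d a := by
  have hconst : ∀ (d : ℕ) (c : ℝ) (hc : |c| ≤ 1) (a : Finset ι → ℝ),
      (Lam z a (fun _ => c)) ^ 2 ≤ Gp p d a := by
    intro d c hc a
    have h1 : Lam z a (fun _ => c) = a ∅ * c := by
      unfold Lam
      simp [dmext_const]
    rw [h1]
    calc (a ∅ * c) ^ 2 = a ∅ ^ 2 * c ^ 2 := by ring
      _ ≤ a ∅ ^ 2 * 1 := by
          apply mul_le_mul_of_nonneg_left _ (sq_nonneg _)
          rw [← sq_abs]; nlinarith [abs_nonneg c]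
      _ = Bn p 0 a := by rw [Bn_zero p hp, mul_one]
      _ ≤ Gp p d a := Bn_zero_le_Gp p d a
  induction d with
  | zero =>
    intro f hf a
    cases hf with
    | const c hc => exact hconst 0 c hc a
  | succ d ih =>
    intro f hf a
    cases hf with
    | const c hc => exact hconst (d+1) c hc a
    | node i g hg =>
      set g' : Bool → (ι → Bool) → ℝ := fun b x => g b (Function.update x i b) with hg'
      have hg'1 : ∀ b b' x, g' b (Function.update x i b') = g' b x := by
        intro b b' x; simp [hg']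
      have hf' : ∀ x, (fun x => g (x i) x) x = g' (x i) x := by
        intro x; simp [hg']
      have hDTF : ∀ b, DTF d (g' b) := fun b => (hg b).restrict i b
      set q := qw (z i)
      set ξ : Bool → ℝ := fun b => sg b / (1 + sg b * z i) with hξdef
      have hzi := abs_le.1 (hz i)
      have hq0 : ∀ b, 0 ≤ q b := by
        intro b; cases b
        · simp [q, qw]; linarith
        · simp [q, qw]; linarith
      have hq1 : ∑ b, q b = 1 := sum_qw _
      have hmean : ∑ b, q b * ξ b = 0 := by
        have : ∀ b, q b * ξ b = sg b / 2 := fun b => qw_mul_xi _ (hz i) b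
        simp only [this, Fintype.sum_bool, sg_true, sg_false]; norm_num
      have hξ : ∀ b, |ξ b| ≤ 2 := by
        intro b
        cases b
        · simp only [hξdef, sg_false, one_mul]
          rw [abs_div, abs_one, abs_of_pos (by linarith), div_le_iff₀ (by linarith)]
          linarith
        · simp only [hξdef, sg_true]
          rw [abs_div, abs_neg, abs_one, abs_of_pos (by linarith), div_le_iff₀ (by linarith)]
          linarith
      have hL := Lam_node z i (hz i) a (fun x => g (x i) x) g' hg'1 hf'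
      have h1 : |Lam z a (fun x => g (x i) x)| ≤ ∑ b, q b * |Lam z (upd i (ξ b) a) (g' b)| := by
        rw [hL]
        apply (Finset.abs_sum_le_sum_abs _ _).trans
        apply Finset.sum_le_sum
        intro b _
        rw [abs_mul, abs_of_nonneg (hq0 b)]
      have h2 : (∑ b, q b * |Lam z (upd i (ξ b) a) (g' b)|) ^ (2 * p) ≤
          ∑ b, q b * |Lam z (upd i (ξ b) a) (g' b)| ^ (2 * p) :=
        Real.pow_arith_mean_le_arith_mean_pow univ q _ (fun b _ => hq0 b) hq1
          (fun b _ => abs_nonneg _) (2 * p)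
      have h3 : ∀ b, |Lam z (upd i (ξ b) a) (g' b)| ^ (2 * p) ≤ (Gp p d (upd i (ξ b) a)) ^ p := by
        intro b
        rw [pow_mul]
        apply pow_le_pow_left₀ (sq_nonneg _)
        rw [sq_abs]
        exact ih (g' b) (hDTF b) _
      have h4 : (∑ b, q b * (Gp p d (upd i (ξ b) a)) ^ p) =
          (wn p q (fun b => Gp p d (upd i (ξ b) a))) ^ p := by
        unfold wn
        rw [← Real.rpow_natCast ((_ : ℝ) ^ _), ← Real.rpow_mul
          (Finset.sum_nonneg fun b _ => mul_nonneg (hq0 b) (pow_nonneg (Gp_nonneg _ _ _) _))]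
        have : (p:ℝ) ≠ 0 := by positivity
        rw [one_div_mul_cancel this, Real.rpow_one]
      have h5 : wn p q (fun b => Gp p d (upd i (ξ b) a)) ≤ Gp p (d + 1) a := by
        unfold Gp
        calc wn p q (fun b => ∑ j ∈ range (d + 1), ((d.choose j : ℝ) * (4 * 9 ^ p) ^ j) * Bn p j (upd i (ξ b) a))
            ≤ ∑ j ∈ range (d + 1), ((d.choose j : ℝ) * (4 * 9 ^ p) ^ j) *
                wn p q (fun b => Bn p j (upd i (ξ b) a)) :=
              wn_sum p hp q hq0 (range (d+1)) (fun j => (d.choose j : ℝ) * (4 * 9 ^ p) ^ j)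
                (fun j => by positivity) (fun j b => Bn p j (upd i (ξ b) a))
                (fun j b => Bn_nonneg _ _ _)
          _ ≤ ∑ j ∈ range (d + 1), ((d.choose j : ℝ) * (4 * 9 ^ p) ^ j) *
                (Bn p j a + 4 * 9 ^ p * Bn p (j + 1) a) := by
              apply Finset.sum_le_sum
              intro j _
              exact mul_le_mul_of_nonneg_left
                (wn_Bn_upd p j hp q ξ hq0 hq1 hmean hξ i a) (by positivity)
          _ = _ := Gp_succ p d a
      have h6 : (|Lam z a (fun x => g (x i) x)| ^ 2) ^ p ≤ (Gp p (d + 1) a) ^ p := by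
        rw [← pow_mul]
        calc |Lam z a (fun x => g (x i) x)| ^ (2 * p)
            ≤ (∑ b, q b * |Lam z (upd i (ξ b) a) (g' b)|) ^ (2 * p) :=
              pow_le_pow_left₀ (abs_nonneg _) h1 _
          _ ≤ _ := h2
          _ ≤ ∑ b, q b * (Gp p d (upd i (ξ b) a)) ^ p := by
              apply Finset.sum_le_sum; intro b _
              exact mul_le_mul_of_nonneg_left (h3 b) (hq0 b)
          _ = _ := h4
          _ ≤ _ := pow_le_pow_left₀ (wn_nonneg _ _ _ hq0 (fun b => Gp_nonneg _ _ _)) h5 _
      rw [sq_abs] at h6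
      exact le_of_pow_le_pow_left₀ (by omega) (Gp_nonneg _ _ _) h6

end Crest.Agent.R350
end

-- ▼ part R350/ForrDefs
section

/-!
Row 350, part B (Forrelation lower bound, T5): latent Gaussian model.
`v : Fin k × NN t → ℝ` are iid `N(0,1)` latents, `W` = normalised Walsh matrix,
`X_a = v_a` (`a < k`), `X_k = 1`, `Y_0 = 1`, `Y_{a+1} = W v_a`, `Z_a = g X_a Y_a`.
-/

set_option autoImplicit false

namespace Crest.Agent.R350

open Finset MeasureTheory ProbabilityTheory

/-- normalised Walsh matrix (symmetric orthogonal) -/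
noncomputable def Wm {t : ℕ} (i j : NN t) : ℝ := wal i j / Real.sqrt (2 ^ t)

/-- latent Gaussian measure -/
noncomputable def gam (k t : ℕ) : Measure (Fin k × NN t → ℝ) :=
  Measure.pi (fun _ => gaussianReal 0 1)

noncomputable instance (k t : ℕ) : IsProbabilityMeasure (gam k t) := by
  unfold gam; infer_instance

/-- `X_a(i)`: `v_a(i)` for `a < k`, and `1` for `a = k`. -/
noncomputable def Xl {k t : ℕ} (v : Fin k × NN t → ℝ) (c : Fin (k + 1) × NN t) : ℝ :=
  if h : c.1.val < k then v (⟨c.1.val, h⟩, c.2) else 1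

/-- `Y_0 = 1`, `Y_{a+1}(i) = ∑_j W i j v_a(j)`. -/
noncomputable def Yl {k t : ℕ} (v : Fin k × NN t → ℝ) (c : Fin (k + 1) × NN t) : ℝ :=
  if h : c.1.val = 0 then 1
  else ∑ j, Wm c.2 j * v (⟨c.1.val - 1, by have := c.1.isLt; omega⟩, j)

/-- `Z_a = g X_a Y_a`. -/
noncomputable def Zl {k t : ℕ} (g : ℝ) (v : Fin k × NN t → ℝ) (c : Fin (k + 1) × NN t) : ℝ :=
  g * Xl v c * Yl v c

/-- `off-cube weight`: `∏_c max 1 |Z_c|`. -/
noncomputable def Rmax {k t : ℕ} (g : ℝ) (v : Fin k × NN t → ℝ) : ℝ :=
  ∏ c : Fin (k + 1) × NN t, max 1 |Zl g v c|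

/-- bad event: some coordinate leaves `[-1/2,1/2]`. -/
def badSet (k t : ℕ) (g : ℝ) : Set (Fin k × NN t → ℝ) :=
  {v | ∃ c : Fin (k + 1) × NN t, 1 / 2 < |Zl g v c|}

end Crest.Agent.R350
end

-- ▼ part R350/Stein

/-!
Row 350, part B: Gaussian moments, Stein's lemma for polynomial functions of iid Gaussians.
-/

set_option autoImplicit false

namespace Crest.Agent.R350

open Finset MeasureTheory ProbabilityTheory

section oneD

lemma integrable_pow_gauss (m : ℕ) : Integrable (fun x : ℝ => x ^ m) (gaussianReal 0 1) := by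
  have h := (memLp_id_gaussianReal (μ := 0) (v := 1) (m : NNReal))
  have h' : MemLp id ((m : ℕ) : ENNReal) (gaussianReal 0 1) := by simpa using h
  have h2 := h'.integrable_norm_pow'
  refine h2.mono (by fun_prop) ?_
  filter_upwards with x
  simp

lemma integrable_pow_mul_pdf (m : ℕ) :
    Integrable (fun x : ℝ => gaussianPDFReal 0 1 x * x ^ m) := by
  have h := integrable_pow_gauss m
  rw [gaussianReal_of_var_ne_zero _ (by norm_num : (1 : NNReal) ≠ 0)] at h
  rw [integrable_withDensity_iff_integrable_smul' (measurable_gaussianPDF _ _)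
    (ae_of_all _ fun _ => gaussianPDF_lt_top)] at h
  simpa [toReal_gaussianPDF] using h

lemma hasDerivAt_pdf (x : ℝ) :
    HasDerivAt (gaussianPDFReal 0 1) (-(x * gaussianPDFReal 0 1 x)) x := by
  have : gaussianPDFReal 0 1 = fun x => (Real.sqrt (2 * Real.pi * 1))⁻¹ * Real.exp (-(x - 0) ^ 2 / (2 * 1)) := by
    ext x; simp [gaussianPDFReal]
  rw [this]
  have h1 : HasDerivAt (fun x : ℝ => -(x - 0) ^ 2 / (2 * 1)) (-x) x := by
    have h2 : HasDerivAt (fun x : ℝ => x ^ 2) (2 * x) x := by
      simpa using hasDerivAt_pow 2 x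
    have h3 : (fun x : ℝ => -(x - 0) ^ 2 / (2 * 1)) = fun x : ℝ => (-1/2) * x ^ 2 := by
      ext y; ring
    rw [h3]
    have h4 := h2.const_mul (-1/2 : ℝ)
    have h6 : (-1/2 : ℝ) * (2 * x) = -x := by ring
    rw [h6] at h4
    exact h4
  have h5 := (h1.exp).const_mul ((Real.sqrt (2 * Real.pi * 1))⁻¹)
  have h7 : (Real.sqrt (2 * Real.pi * 1))⁻¹ * (Real.exp (-(x - 0) ^ 2 / (2 * 1)) * -x) =
      -(x * ((Real.sqrt (2 * Real.pi * 1))⁻¹ * Real.exp (-(x - 0) ^ 2 / (2 * 1)))) := by ring
  rw [h7] at h5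
  exact h5

/-- one-dimensional Stein identity for monomials. -/
lemma stein_monomial (m : ℕ) :
    ∫ x, x ^ (m + 1) ∂(gaussianReal 0 1) = m * ∫ x, x ^ (m - 1) ∂(gaussianReal 0 1) := by
  rw [integral_gaussianReal_eq_integral_smul (by norm_num),
    integral_gaussianReal_eq_integral_smul (by norm_num)]
  have h := integral_mul_deriv_eq_deriv_mul_of_integrable (A := ℝ)
    (u := fun x : ℝ => x ^ m) (v := gaussianPDFReal 0 1)
    (u' := fun x : ℝ => m * x ^ (m - 1)) (v' := fun x => -(x * gaussianPDFReal 0 1 x))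
    (fun x _ => by simpa using hasDerivAt_pow m x) (fun x _ => hasDerivAt_pdf x)
    (by
      have := (integrable_pow_mul_pdf (m + 1)).neg
      refine this.congr (ae_of_all _ fun x => ?_)
      simp only [Pi.neg_apply, Pi.mul_apply]; ring)
    (by
      have := (integrable_pow_mul_pdf (m - 1)).const_mul (m : ℝ)
      refine this.congr (ae_of_all _ fun x => ?_)
      simp only [Pi.mul_apply]; ring)
    (by
      refine (integrable_pow_mul_pdf m).congr (ae_of_all _ fun x => ?_)
      simp only [Pi.mul_apply]; ring)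
  have h1 : ∫ x, gaussianPDFReal 0 1 x • x ^ (m + 1) = - ∫ x, x ^ m * -(x * gaussianPDFReal 0 1 x) := by
    rw [← integral_neg]; congr 1; ext x; simp only [smul_eq_mul]; ring
  have h2 : (m : ℝ) * ∫ x, gaussianPDFReal 0 1 x • x ^ (m - 1) =
      ∫ x, (m : ℝ) * x ^ (m - 1) * gaussianPDFReal 0 1 x := by
    rw [← integral_const_mul]; congr 1; ext x; simp only [smul_eq_mul]; ring
  rw [h1, h2, h, neg_neg]

end oneD

section multi

variable {κ : Type*} [Fintype κ] [DecidableEq κ]

/-- product Gaussian measure -/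
noncomputable def gaus (κ : Type*) [Fintype κ] : Measure (κ → ℝ) :=
  Measure.pi (fun _ => gaussianReal 0 1)

noncomputable instance : IsProbabilityMeasure (gaus κ) := by
  unfold gaus; infer_instance

omit [DecidableEq κ] in
lemma integrable_monomial (m : κ → ℕ) : Integrable (fun v : κ → ℝ => ∏ i, v i ^ m i) (gaus κ) :=
  Integrable.fintype_prod (f := fun i x => x ^ m i) (fun i => integrable_pow_gauss (m i))

omit [DecidableEq κ] in
lemma integral_monomial (m : κ → ℕ) :
    ∫ v, ∏ i, v i ^ m i ∂(gaus κ) = ∏ i, ∫ x, x ^ m i ∂(gaussianReal 0 1) :=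
  integral_fintype_prod_eq_prod (f := fun i x => x ^ m i)

omit [DecidableEq κ] in
lemma eval_monomial_eq (m : κ →₀ ℕ) (a : ℝ) (v : κ → ℝ) :
    MvPolynomial.eval v (MvPolynomial.monomial m a) = a * ∏ i, v i ^ m i := by
  rw [MvPolynomial.eval_monomial, Finsupp.prod_fintype]
  intro i; simp

omit [DecidableEq κ] in
lemma integrable_eval (P : MvPolynomial κ ℝ) :
    Integrable (fun v : κ → ℝ => MvPolynomial.eval v P) (gaus κ) := by
  induction P using MvPolynomial.induction_on' with
  | monomial m a =>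
    simp only [eval_monomial_eq]
    exact (integrable_monomial _).const_mul a
  | add p q hp hq =>
    simp only [map_add]
    exact hp.add hq

/-- Stein's lemma for polynomials in iid Gaussians. -/
lemma stein_poly (P : MvPolynomial κ ℝ) (i : κ) :
    ∫ v, v i * MvPolynomial.eval v P ∂(gaus κ) =
      ∫ v, MvPolynomial.eval v (MvPolynomial.pderiv i P) ∂(gaus κ) := by
  induction P using MvPolynomial.induction_on' with
  | monomial m a =>
    have h1 : ∀ v : κ → ℝ, v i * MvPolynomial.eval v (MvPolynomial.monomial m a) =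
        a * ∏ j, v j ^ (Function.update (m : κ → ℕ) i (m i + 1) j) := by
      intro v
      rw [eval_monomial_eq]
      rw [← Finset.mul_prod_erase univ _ (Finset.mem_univ i),
        ← Finset.mul_prod_erase univ (fun j => v j ^ (Function.update (m : κ → ℕ) i (m i + 1) j))
          (Finset.mem_univ i)]
      simp only [Function.update_self]
      have : ∏ j ∈ univ.erase i, v j ^ (Function.update (m : κ → ℕ) i (m i + 1) j)
          = ∏ j ∈ univ.erase i, v j ^ m j := by
        apply Finset.prod_congr rfl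
        intro j hj
        rw [Function.update_of_ne (Finset.ne_of_mem_erase hj)]
      rw [this]; ring
    have h2 : ∀ v : κ → ℝ, MvPolynomial.eval v (MvPolynomial.pderiv i (MvPolynomial.monomial m a)) =
        a * m i * ∏ j, v j ^ (Function.update (m : κ → ℕ) i (m i - 1) j) := by
      intro v
      rw [MvPolynomial.pderiv_monomial, eval_monomial_eq]
      congr 1
      apply Finset.prod_congr rfl
      intro j _
      congr 1
      by_cases hj : j = i
      · subst hj; simp
      · simp [Function.update_of_ne hj, Ne.symm hj]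
    simp only [h1, h2]
    rw [integral_const_mul, integral_const_mul, integral_monomial, integral_monomial]
    rw [← Finset.mul_prod_erase univ _ (Finset.mem_univ i),
        ← Finset.mul_prod_erase univ (fun j => ∫ x, x ^ (Function.update (m : κ → ℕ) i (m i - 1) j)
          ∂(gaussianReal 0 1)) (Finset.mem_univ i)]
    simp only [Function.update_self]
    have h3 : ∏ j ∈ univ.erase i, ∫ x, x ^ (Function.update (m : κ → ℕ) i (m i + 1) j) ∂(gaussianReal 0 1)
        = ∏ j ∈ univ.erase i, ∫ x, x ^ (Function.update (m : κ → ℕ) i (m i - 1) j) ∂(gaussianReal 0 1) := by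
      apply Finset.prod_congr rfl
      intro j hj
      rw [Function.update_of_ne (Finset.ne_of_mem_erase hj),
        Function.update_of_ne (Finset.ne_of_mem_erase hj)]
    rw [h3, stein_monomial]
    ring
  | add p q hp hq =>
    simp only [map_add, mul_add]
    have hi : ∀ P : MvPolynomial κ ℝ, Integrable (fun v : κ → ℝ => v i * MvPolynomial.eval v P) (gaus κ) := by
      intro P
      have := integrable_eval (MvPolynomial.X i * P)
      simpa using this
    rw [integral_add (hi p) (hi q), hp, hq, integral_add (integrable_eval _) (integrable_eval _)]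

omit [Fintype κ] in
/-- the derivative of the evaluation in one coordinate is the evaluation of `pderiv`. -/
lemma hasDerivAt_eval (P : MvPolynomial κ ℝ) (i : κ) (v : κ → ℝ) (t : ℝ) :
    HasDerivAt (fun t => MvPolynomial.eval (Function.update v i t) P)
      (MvPolynomial.eval (Function.update v i t) (MvPolynomial.pderiv i P)) t := by
  induction P using MvPolynomial.induction_on with
  | C a => simp only [MvPolynomial.eval_C, MvPolynomial.pderiv_C, map_zero]; exact hasDerivAt_const t a
  | add p q hp hq => simp only [map_add]; exact hp.add hq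
  | mul_X p j hp =>
    simp only [map_mul, MvPolynomial.eval_X, Derivation.leibniz, map_add, smul_eq_mul]
    have hj : HasDerivAt (fun t => Function.update v i t j)
        (MvPolynomial.eval (Function.update v i t) (MvPolynomial.pderiv i (MvPolynomial.X j))) t := by
      by_cases h : j = i
      · subst h
        simp only [Function.update_self, MvPolynomial.pderiv_X_self, map_one]
        exact hasDerivAt_id t
      · simp only [Function.update_of_ne h]
        rw [MvPolynomial.pderiv_X_of_ne h, map_zero]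
        exact hasDerivAt_const t _
    have h := hp.mul hj
    rw [add_comm, mul_comm (Function.update v i t j)]
    rw [add_comm] at h
    rw [add_comm]
    exact h

/-- functions given by a polynomial -/
def PolyFn (F : (κ → ℝ) → ℝ) : Prop := ∃ P : MvPolynomial κ ℝ, ∀ v, F v = MvPolynomial.eval v P

omit [Fintype κ] [DecidableEq κ] in
lemma PolyFn.const (c : ℝ) : PolyFn (fun _ : κ → ℝ => c) := ⟨MvPolynomial.C c, by simp⟩

omit [Fintype κ] [DecidableEq κ] in
lemma PolyFn.coord (i : κ) : PolyFn (fun v : κ → ℝ => v i) := ⟨MvPolynomial.X i, by simp⟩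

omit [Fintype κ] [DecidableEq κ] in
lemma PolyFn.add {F G : (κ → ℝ) → ℝ} (hF : PolyFn F) (hG : PolyFn G) :
    PolyFn (fun v => F v + G v) := by
  obtain ⟨P, hP⟩ := hF; obtain ⟨Q, hQ⟩ := hG
  exact ⟨P + Q, by simp [hP, hQ]⟩

omit [Fintype κ] [DecidableEq κ] in
lemma PolyFn.mul {F G : (κ → ℝ) → ℝ} (hF : PolyFn F) (hG : PolyFn G) :
    PolyFn (fun v => F v * G v) := by
  obtain ⟨P, hP⟩ := hF; obtain ⟨Q, hQ⟩ := hG
  exact ⟨P * Q, by simp [hP, hQ]⟩

omit [Fintype κ] [DecidableEq κ] in
lemma PolyFn.pow {F : (κ → ℝ) → ℝ} (hF : PolyFn F) (m : ℕ) :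
    PolyFn (fun v => F v ^ m) := by
  obtain ⟨P, hP⟩ := hF
  exact ⟨P ^ m, by simp [hP]⟩

omit [Fintype κ] [DecidableEq κ] in
lemma PolyFn.sum {α : Type*} (s : Finset α) {F : α → (κ → ℝ) → ℝ} (hF : ∀ a ∈ s, PolyFn (F a)) :
    PolyFn (fun v => ∑ a ∈ s, F a v) := by
  classical
  induction s using Finset.induction_on with
  | empty => simpa using PolyFn.const (κ := κ) 0
  | insert a s ha ih =>
    simp only [Finset.sum_insert ha]
    exact (hF a (by simp)).add (ih fun b hb => hF b (by simp [hb]))

omit [Fintype κ] [DecidableEq κ] in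
lemma PolyFn.prod {α : Type*} (s : Finset α) {F : α → (κ → ℝ) → ℝ} (hF : ∀ a ∈ s, PolyFn (F a)) :
    PolyFn (fun v => ∏ a ∈ s, F a v) := by
  classical
  induction s using Finset.induction_on with
  | empty => simpa using PolyFn.const (κ := κ) 1
  | insert a s ha ih =>
    simp only [Finset.prod_insert ha]
    exact (hF a (by simp)).mul (ih fun b hb => hF b (by simp [hb]))

omit [DecidableEq κ] in
lemma PolyFn.integrable {F : (κ → ℝ) → ℝ} (hF : PolyFn F) : Integrable F (gaus κ) := by
  obtain ⟨P, hP⟩ := hF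
  have : F = fun v => MvPolynomial.eval v P := funext hP
  rw [this]; exact integrable_eval P

/-- Stein's lemma for polynomial functions. -/
lemma stein {F F' : (κ → ℝ) → ℝ} (hF : PolyFn F) (i : κ)
    (hd : ∀ v, HasDerivAt (fun t => F (Function.update v i t)) (F' v) (v i)) :
    ∫ v, v i * F v ∂(gaus κ) = ∫ v, F' v ∂(gaus κ) := by
  obtain ⟨P, hP⟩ := hF
  have h1 : ∀ v, F' v = MvPolynomial.eval v (MvPolynomial.pderiv i P) := by
    intro v
    have h2 := hasDerivAt_eval P i v (v i)
    rw [Function.update_eq_self] at h2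
    have h3 := hd v
    simp only [hP] at h3
    exact h3.unique h2
  simp only [h1, hP]
  exact stein_poly P i

/-- differentiating in a parameter under the Gaussian integral, jointly polynomial case. -/
lemma hasDerivAt_integral_poly {G G' : ℝ → (κ → ℝ) → ℝ}
    (hG : ∃ P : MvPolynomial (Option κ) ℝ, ∀ s v, G s v = MvPolynomial.eval (fun o => o.elim s v) P)
    (hd : ∀ s v, HasDerivAt (fun s => G s v) (G' s v) s) (s : ℝ) :
    HasDerivAt (fun s => ∫ v, G s v ∂(gaus κ)) (∫ v, G' s v ∂(gaus κ)) s := by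
  obtain ⟨P, hP⟩ := hG
  have hupd : ∀ (s : ℝ) (v : κ → ℝ), (fun o : Option κ => o.elim s v) =
      Function.update (fun o : Option κ => o.elim 0 v) none s := by
    intro s v; funext o; cases o <;> simp
  have h1 : ∀ s v, G' s v = MvPolynomial.eval (fun o => o.elim s v) (MvPolynomial.pderiv none P) := by
    intro s v
    have h2 := hasDerivAt_eval P none (fun o => o.elim 0 v) s
    rw [← hupd] at h2
    have h3 := hd s v
    have h6 : (fun s => G s v) = fun t => MvPolynomial.eval
        (Function.update (fun o : Option κ => o.elim 0 v) none t) P := by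
      funext t; rw [hP t v, hupd t v]
    rw [h6] at h3
    exact h3.unique h2
  have h4 : (fun s => ∫ v, G s v ∂(gaus κ)) =
      fun s => ∫ v, MvPolynomial.eval (fun o : Option κ => o.elim s v) P ∂(gaus κ) := by
    funext s; congr 1; funext v; exact hP s v
  have h5 : (∫ v, G' s v ∂(gaus κ)) =
      ∫ v, MvPolynomial.eval (fun o : Option κ => o.elim s v) (MvPolynomial.pderiv none P) ∂(gaus κ) := by
    congr 1; funext v; exact h1 s v
  rw [h4, h5]
  clear hP h1 hd h4 h5
  have hint : ∀ (s : ℝ) (P : MvPolynomial (Option κ) ℝ),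
      Integrable (fun v : κ → ℝ => MvPolynomial.eval (fun o => o.elim s v) P) (gaus κ) := by
    intro s P
    have : (fun v : κ → ℝ => MvPolynomial.eval (fun o : Option κ => o.elim s v) P) =
      fun v => MvPolynomial.eval v (MvPolynomial.aeval (fun o : Option κ => o.elim (MvPolynomial.C s)
        MvPolynomial.X) P) := by
      funext v
      induction P using MvPolynomial.induction_on with
      | C a => simp
      | add p q hp hq => rw [map_add, map_add, map_add, hp, hq]
      | mul_X p j hp =>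
        rw [map_mul, map_mul, map_mul, hp]
        congr 1
        cases j <;> simp
    rw [this]; exact integrable_eval _
  induction P using MvPolynomial.induction_on' with
  | monomial m a =>
    have e1 : ∀ (s : ℝ) (v : κ → ℝ), MvPolynomial.eval (fun o : Option κ => o.elim s v) (MvPolynomial.monomial m a)
        = s ^ (m none) * (a * ∏ i, v i ^ m (some i)) := by
      intro s v
      rw [MvPolynomial.eval_monomial, Finsupp.prod_fintype _ _ (by intro i; simp), Fintype.prod_option]
      simp; ring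
    have e2 : ∀ (s : ℝ) (v : κ → ℝ), MvPolynomial.eval (fun o : Option κ => o.elim s v)
        (MvPolynomial.pderiv none (MvPolynomial.monomial m a))
        = ((m none : ℝ) * s ^ (m none - 1)) * (a * ∏ i, v i ^ m (some i)) := by
      intro s v
      rw [MvPolynomial.pderiv_monomial, MvPolynomial.eval_monomial,
        Finsupp.prod_fintype _ _ (by intro i; simp), Fintype.prod_option]
      simp; ring
    simp only [e1, e2, integral_const_mul]
    exact (hasDerivAt_pow (m none) s).mul_const _
  | add p q hp hq =>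
    simp only [map_add]
    have : (fun s => ∫ v, (MvPolynomial.eval (fun o : Option κ => o.elim s v) p +
        MvPolynomial.eval (fun o : Option κ => o.elim s v) q) ∂(gaus κ)) =
        fun s => (∫ v, MvPolynomial.eval (fun o : Option κ => o.elim s v) p ∂(gaus κ)) +
          ∫ v, MvPolynomial.eval (fun o : Option κ => o.elim s v) q ∂(gaus κ) := by
      funext s; exact integral_add (hint s p) (hint s q)
    rw [this, integral_add (hint s _) (hint s _)]
    exact hp.add hq

end multi

end Crest.Agent.R350
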